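import Vale.Agent.P095.Weak.Defs
import Vale.Agent.P095.SI.Compare

/-! P095 Weak: weak comparison gives comparison with a bound on the implementing element. -/

open Filter Topology
open scoped ComplexOrder

namespace Vale.Agent.P095.Weak

open SI

variable {B : Type*} [CStarAlgebra B] [PartialOrder B] [StarOrderedRing B]
  {A P : Submodule ℂ B} {d : B}

/-- Strict comparison gives weak comparison. -/
theorem weakComp_of_strictComp (S : Setup P A d) (hcomp : StrictComp P d) : WeakComp P d := by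
  intro η hη δ hδ
  set η' := min 1 (η / 2) with hη'
  have h0 : 0 < η' := by positivity
  refine ⟨η' * δ / 4, by positivity, fun q₁ q₂ h₁ h₂ n₁ n₂ hd _ h => ?_⟩
  obtain ⟨r, hr, -⟩ := exists_compare S hcomp h₁ h₂ n₁ n₂ hd h0 (min_le_left _ _)
    (half_pos hδ) fun τ hτ => by
      obtain ⟨ha, hb⟩ := h τ hτ
      have h3 : tn P τ q₁ ^ 2 / η' ≤ δ / 4 := by rw [div_le_iff₀ h0]; linarith
      linarith
  exact ⟨r, hr.trans (by linarith [min_le_right (1 : ℝ) (η / 2)])⟩

/-- The weight `(t - e)₊ / max t e`. -/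
noncomputable def wt (e t : ℝ) : ℝ := max 0 (t - e) / max t e

theorem continuous_wt {e : ℝ} (he : 0 < e) : Continuous (wt e) :=
  (by fun_prop : Continuous fun t : ℝ => max 0 (t - e)).div (by fun_prop)
    fun _ => (lt_of_lt_of_le he (le_max_right _ _)).ne'

theorem wt_mem {e : ℝ} (he : 0 < e) (t : ℝ) : 0 ≤ wt e t ∧ wt e t ≤ 1 := by
  refine ⟨div_nonneg (le_max_left _ _) (he.le.trans (le_max_right _ _)), ?_⟩
  rw [wt, div_le_one (lt_of_lt_of_le he (le_max_right _ _))]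
  exact max_le (he.le.trans (le_max_right _ _)) ((sub_le_self t he.le).trans (le_max_left _ _))

/-- The element whose Gram element is the cut of that of `q`. -/
noncomputable def cutq (e : ℝ) (q : B) : B :=
  q * cfc (fun t => Real.sqrt (wt e t)) (star q * q)

theorem star_cutq_mul {e : ℝ} (he : 0 < e) (q : B) :
    star (cutq e q) * cutq e q = cfc (fun t => max 0 (t - e)) (star q * q) := by
  rw [cutq, gram_mul_cfc (continuous_wt he) fun t _ => (wt_mem he t).1]
  nth_rw 1 [← cfc_id' ℝ (star q * q) (IsSelfAdjoint.star_mul_self q)]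
  rw [← cfc_mul _ _ _ (by fun_prop) (continuous_wt he).continuousOn]
  exact cfc_congr fun t _ => mul_cut he t

theorem norm_cutq_le {e : ℝ} (he : 0 < e) (q : B) : ‖cutq e q‖ ≤ ‖q‖ := by
  refine (norm_mul_le _ _).trans (mul_le_of_le_one_right (norm_nonneg _) ?_)
  refine norm_cfc_le zero_le_one fun t _ => ?_
  rw [Real.norm_of_nonneg (Real.sqrt_nonneg _)]
  exact Real.sqrt_le_one.2 (wt_mem he t).2

theorem norm_sub_cutq_le {e : ℝ} (he : 0 < e) (q : B) : ‖q - cutq e q‖ ≤ Real.sqrt e := by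
  set c := star q * q
  have hs : Continuous fun t => Real.sqrt (wt e t) := (continuous_wt he).sqrt
  have hx : q - cutq e q = q * cfc (fun t => 1 - Real.sqrt (wt e t)) c := by
    rw [cfc_sub (fun _ : ℝ => (1 : ℝ)) _ c (by fun_prop) hs.continuousOn,
      cfc_const_one ℝ c, mul_sub, mul_one]
    rfl
  rw [hx]
  refine Real.le_sqrt_of_sq_le ?_
  have hg : IsSelfAdjoint (cfc (fun t => 1 - Real.sqrt (wt e t)) c) := cfc_predicate _ _
  have e1 : star (q * cfc (fun t => 1 - Real.sqrt (wt e t)) c) *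
      (q * cfc (fun t => 1 - Real.sqrt (wt e t)) c) =
      cfc (fun t => 1 - Real.sqrt (wt e t)) c *
        (cfc (fun t : ℝ => t) c * cfc (fun t => 1 - Real.sqrt (wt e t)) c) := by
    rw [star_mul, hg.star_eq, cfc_id' ℝ c]
    simp only [c, mul_assoc]
  rw [sq, ← CStarRing.norm_star_mul_self, e1]
  have hs' : Continuous fun t => 1 - Real.sqrt (wt e t) := continuous_const.sub hs
  rw [← cfc_mul (fun t : ℝ => t) (fun t => 1 - Real.sqrt (wt e t)) c (by fun_prop) hs'.continuousOn,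
    ← cfc_mul (fun t => 1 - Real.sqrt (wt e t)) (fun t => t * (1 - Real.sqrt (wt e t))) c
      hs'.continuousOn (continuous_id.mul hs').continuousOn]
  refine norm_cfc_le he.le fun t ht => ?_
  have ht0 : 0 ≤ t := spectrum_nonneg_of_nonneg (star_mul_self_nonneg q) ht
  obtain ⟨hw0, hw1⟩ := wt_mem he t
  have hr0 := Real.sqrt_nonneg (wt e t)
  have hr1 : Real.sqrt (wt e t) ≤ 1 := Real.sqrt_le_one.2 hw1
  have hrr : wt e t ≤ Real.sqrt (wt e t) := Real.le_sqrt_of_sq_le (by nlinarith)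
  have h1 : t - t * wt e t ≤ e := by
    rw [wt, mul_cut he]
    linarith [le_max_right 0 (t - e)]
  rw [Real.norm_of_nonneg (mul_nonneg (by linarith) (mul_nonneg ht0 (by linarith)))]
  nlinarith [mul_le_mul_of_nonneg_left hrr ht0,
    mul_le_of_le_one_left (mul_nonneg ht0 (show 0 ≤ 1 - Real.sqrt (wt e t) by linarith))
      (show 1 - Real.sqrt (wt e t) ≤ 1 by linarith)]

/-- An implementing element for a cut can be replaced by a bounded one for the uncut element. -/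
theorem exists_bounded_exact {q r₀ : B} {e : ℝ} (he : 0 < e)
    (hr₀ : ‖star r₀ * (star (cutq e q) * cutq e q) * r₀‖ ≤ 4) :
    ∃ r : B, star r * (star q * q) * r = star r₀ * (star (cutq e q) * cutq e q) * r₀ ∧
      ‖r‖ ≤ 2 / Real.sqrt e := by
  rw [star_cutq_mul he] at hr₀ ⊢
  set b' := cfc (fun t => max 0 (t - e)) (star q * q)
  set h : ℝ → ℝ := fun t => (Real.sqrt (max t e))⁻¹ with hh
  have hmd : ∀ t, 0 < max t e := fun t => lt_of_lt_of_le he (le_max_right _ _)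
  have hhc : Continuous h :=
    (by fun_prop : Continuous fun t : ℝ => Real.sqrt (max t e)).inv₀
      fun t => (Real.sqrt_pos.2 (hmd t)).ne'
  set s : ℝ → ℝ := fun t => Real.sqrt (max 0 (t - e)) with hs
  have hsc : Continuous s := by fun_prop
  set c := star q * q with hc
  have hca : IsSelfAdjoint c := IsSelfAdjoint.star_mul_self q
  refine ⟨cfc h c * (cfc s c * r₀), ?_, ?_⟩
  · rw [star_mul, star_mul, (cfc_predicate h c).star_eq, (cfc_predicate s c).star_eq]
    have e2 : cfc s c * (cfc h c * c * cfc h c) * cfc s c = b' := by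
      nth_rw 3 [← cfc_id' ℝ c]
      rw [← cfc_mul h (fun x => x) c hhc.continuousOn (by fun_prop),
        ← cfc_mul _ h c (by fun_prop) hhc.continuousOn,
        ← cfc_mul s _ c hsc.continuousOn (by fun_prop),
        ← cfc_mul _ s c (by fun_prop) hsc.continuousOn]
      refine cfc_congr fun t _ => ?_
      simp only [hs, hh]
      calc _ = (Real.sqrt (max 0 (t - e)) * Real.sqrt (max 0 (t - e))) * t /
            (Real.sqrt (max t e) * Real.sqrt (max t e)) := by field_simp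
        _ = max 0 (t - e) := by
          rw [Real.mul_self_sqrt (le_max_left _ _), Real.mul_self_sqrt (hmd t).le]
          rw [mul_comm _ t, mul_div_assoc, mul_cut he]
    rw [← e2]
    noncomm_ring
  · have h1 : ‖cfc h c‖ ≤ (Real.sqrt e)⁻¹ := norm_cfc_le (by positivity) fun t _ => by
      rw [Real.norm_of_nonneg (inv_nonneg.2 (Real.sqrt_nonneg _))]
      exact inv_anti₀ (Real.sqrt_pos.2 he) (Real.sqrt_le_sqrt (le_max_right _ _))
    have h2 : ‖cfc s c * r₀‖ ≤ 2 := by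
      have e1 : star (cfc s c * r₀) * (cfc s c * r₀) = star r₀ * b' * r₀ := by
        rw [star_mul, (cfc_predicate s c).star_eq, mul_assoc, ← mul_assoc (cfc s c),
          ← cfc_mul s s c hsc.continuousOn hsc.continuousOn, ← mul_assoc,
          cfc_congr fun t _ => show s t * s t = max 0 (t - e) from
            Real.mul_self_sqrt (le_max_left _ _)]
      have hn := CStarRing.norm_star_mul_self (x := cfc s c * r₀)
      rw [e1] at hn
      nlinarith [norm_nonneg (cfc s c * r₀)]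
    calc _ ≤ ‖cfc h c‖ * ‖cfc s c * r₀‖ := norm_mul_le _ _
      _ ≤ (Real.sqrt e)⁻¹ * 2 := by gcongr
      _ = _ := by rw [div_eq_mul_inv, mul_comm]

/-- A comparison element for a cut can be replaced by a bounded one for the uncut element. -/
theorem exists_bounded_of_cut {q₁ q₂ r₀ : B} (hn₁ : ‖q₁‖ ≤ 1) {e η : ℝ} (he : 0 < e)
    (hη1 : η ≤ 1)
    (hr₀ : ‖star r₀ * (star (cutq e q₂) * cutq e q₂) * r₀ - star q₁ * q₁‖ ≤ η) :
    ∃ r : B, ‖star r * (star q₂ * q₂) * r - star q₁ * q₁‖ ≤ η ∧ ‖r‖ ≤ 2 / Real.sqrt e := by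
  have hq : ‖star q₁ * q₁‖ ≤ 1 := by
    rw [CStarRing.norm_star_mul_self]; exact mul_le_one₀ hn₁ (norm_nonneg _) hn₁
  obtain ⟨r, hr, hrn⟩ := exists_bounded_exact he (q := q₂) (r₀ := r₀) (by
    linarith [norm_le_norm_add_norm_sub' (star r₀ * (star (cutq e q₂) * cutq e q₂) * r₀)
      (star q₁ * q₁)])
  exact ⟨r, by rw [hr]; exact hr₀, hrn⟩

/-- Comparison with a bounded element from weak comparison. -/
theorem exists_compare_weak (S : Setup P A d) (hcomp : WeakComp P d)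
    (hτ : ∃ τ, IsNormTrace P d τ) {η δ : ℝ} (hη : 0 < η) (hη1 : η ≤ 1) (hδ : 0 < δ) :
    ∃ θ > (0 : ℝ), ∀ q₁ q₂ : B, q₁ ∈ P → q₂ ∈ P → ‖q₁‖ ≤ 1 → ‖q₂‖ ≤ 1 → d * q₂ = q₂ →
      (∀ τ, IsNormTrace P d τ → tn P τ q₁ ^ 2 ≤ θ ∧ δ ≤ tn P τ q₂ ^ 2) →
      ∃ r : B, ‖star r * (star q₂ * q₂) * r - star q₁ * q₁‖ ≤ η ∧ ‖r‖ ≤ 4 / Real.sqrt δ := by
  have he : 0 < δ / 4 := by positivity
  obtain ⟨θ, hθ, H⟩ := hcomp η hη (δ / 4) he
  refine ⟨θ, hθ, fun q₁ q₂ h₁ h₂ n₁ n₂ hd h => ?_⟩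
  have hmem : cutq (δ / 4) q₂ ∈ P := (S.bimod _ q₂ h₂).2
  have hd' : d * cutq (δ / 4) q₂ = cutq (δ / 4) q₂ := by rw [cutq, ← mul_assoc, hd]
  have hlow : ∀ τ, IsNormTrace P d τ → δ / 4 ≤ tn P τ (cutq (δ / 4) q₂) ^ 2 := fun τ hτ' => by
    have hb := S.bimod
    have hs := S.star_mem
    have hq := h τ hτ'
    have hR : q₂ - cutq (δ / 4) q₂ ∈ P := P.sub_mem h₂ hmem
    have hsplit : tn P τ q₂ ≤ tn P τ (cutq (δ / 4) q₂) + Real.sqrt (δ / 4) := by
      calc tn P τ q₂ = tn P τ (cutq (δ / 4) q₂ + (q₂ - cutq (δ / 4) q₂)) := by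
            rw [add_sub_cancel]
        _ ≤ _ := (tn_add_le hb hs hτ'.1 hmem hR).trans (add_le_add le_rfl ?_)
      have hle := tn_mul_right hb hs hτ'.1 (q₂ - cutq (δ / 4) q₂) S.d_mem
      rw [mul_sub, hd, hd', tn_d S hτ', one_mul] at hle
      exact hle.trans (norm_sub_cutq_le he q₂)
    have h4 : Real.sqrt δ = 2 * Real.sqrt (δ / 4) := by
      rw [show δ = 2 ^ 2 * (δ / 4) by ring, Real.sqrt_mul (by norm_num),
        Real.sqrt_sq (by norm_num : (0 : ℝ) ≤ 2)]
      ring_nf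
    have h5 : Real.sqrt δ ≤ tn P τ q₂ := (Real.sqrt_le_iff).2 ⟨tn_nonneg q₂, hq.2⟩
    have h6 : Real.sqrt (δ / 4) ≤ tn P τ (cutq (δ / 4) q₂) := by linarith
    exact (Real.sqrt_le_iff.1 h6).2
  have hne : cutq (δ / 4) q₂ ≠ 0 := by
    obtain ⟨τ, hτ'⟩ := hτ
    intro h0
    have := hlow τ hτ'
    rw [h0, show tn P τ (0 : B) = 0 by
      have := tn_smul S.bimod S.star_mem hτ'.1 (0 : ℂ) P.zero_mem
      simpa using this] at this
    norm_num at this
    linarith
  obtain ⟨r₀, hr₀⟩ := H q₁ _ h₁ hmem n₁ ((norm_cutq_le he q₂).trans n₂) hd' hne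
    fun τ hτ' => ⟨(h τ hτ').1, hlow τ hτ'⟩
  obtain ⟨r, hr, hrn⟩ := exists_bounded_of_cut n₁ he hη1 hr₀
  refine ⟨r, hr, hrn.trans_eq ?_⟩
  rw [Real.sqrt_div hδ.le, show (4 : ℝ) = 2 * 2 by norm_num,
    Real.sqrt_mul_self (by norm_num : (0 : ℝ) ≤ 2)]
  field_simp

end Vale.Agent.P095.Weak
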