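import Vale.Agent.P095.Weak.Defs
import Vale.Agent.P095.SI.Basic

/-! P095 Weak: the ideal generated by an element with a unit, and exact factorisations. -/

open scoped ComplexOrder

namespace Vale.Agent.P095.Weak

variable {B : Type*} [CStarAlgebra B] [PartialOrder B] [StarOrderedRing B] {A : Submodule ℂ B}

omit [PartialOrder B] [StarOrderedRing B] in
theorem genIdeal_isBimod (d : B) : SI.IsBimod (genIdeal d) := by
  intro b a ha
  induction ha using Submodule.span_induction with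
  | mem x hx =>
    obtain ⟨⟨p, q⟩, rfl⟩ := hx
    exact ⟨Submodule.subset_span ⟨(b * p, q), by simp only [mul_assoc]⟩,
      Submodule.subset_span ⟨(p, q * b), by simp only [mul_assoc]⟩⟩
  | zero => simp
  | add x y _ _ hx hy =>
    rw [mul_add, add_mul]; exact ⟨add_mem hx.1 hy.1, add_mem hx.2 hy.2⟩
  | smul r x _ hx =>
    rw [mul_smul_comm, smul_mul_assoc]
    exact ⟨Submodule.smul_mem _ r hx.1, Submodule.smul_mem _ r hx.2⟩

omit [PartialOrder B] [StarOrderedRing B] in
theorem genIdeal_star_mem {d : B} (hd : IsSelfAdjoint d) : ∀ p ∈ genIdeal d, star p ∈ genIdeal d := by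
  intro p hp
  induction hp using Submodule.span_induction with
  | mem x hx =>
    obtain ⟨⟨a, b⟩, rfl⟩ := hx
    exact Submodule.subset_span ⟨(star b, star a), by simp [star_mul, hd.star_eq, mul_assoc]⟩
  | zero => simp
  | add x y _ _ hx hy => rw [star_add]; exact add_mem hx hy
  | smul r x _ hx => rw [star_smul]; exact Submodule.smul_mem _ _ hx

/-- An element with a unit in `A` is a finite sum of multiples of any nonzero element of `A`. -/
theorem exists_factor (hA : SI.IsSimpleIdeal A) {c : B} (hc : c ∈ A) (hc0 : c ≠ 0) {z a : B}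
    (ha : a ∈ A) (haz : a * z = z) (hz : z ∈ A) :
    ∃ (N : ℕ) (x y : Fin N → B), (∀ i, y i ∈ A) ∧ z = ∑ i, x i * c * y i := by
  obtain ⟨m, x, y, -, hd⟩ := SI.exists_approx_bi hA hc hc0 ha one_pos
  set U : Bˣ := Units.oneSub (a - ∑ i, x i * c * y i) hd
  refine ⟨m, fun i => (↑U⁻¹ : B) * x i, fun i => y i * z, fun i => (hA.2.1 (y i) z hz).1, ?_⟩
  have e : (U : B) * z = ∑ i, x i * c * (y i * z) := by
    show (1 - (a - ∑ i, x i * c * y i)) * z = _
    rw [sub_mul, sub_mul, one_mul, haz, sub_sub_cancel, Finset.sum_mul]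
    simp only [mul_assoc]
  calc z = (↑U⁻¹ : B) * ((U : B) * z) := by rw [← mul_assoc, U.inv_mul, one_mul]
    _ = _ := by rw [e, Finset.mul_sum]; simp only [mul_assoc]

theorem mem_genIdeal_of_unit (hA : SI.IsSimpleIdeal A) {d z a : B} (hd : d ∈ A) (hd0 : d * d ≠ 0)
    (ha : a ∈ A) (haz : a * z = z) : z ∈ genIdeal d := by
  obtain ⟨m, x, y, -, e⟩ := exists_factor hA (hA.2.1 d d hd).1 hd0 ha haz
    (haz ▸ (hA.2.1 z a ha).2)
  rw [e]
  exact sum_mem fun i _ => Submodule.subset_span ⟨(x i, y i), rfl⟩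

/-- There is a positive contraction with a unit and a corner, and its ideal is a setup. -/
theorem exists_setup (hA : SI.IsSimpleIdeal A) : ∃ d : B, SI.Setup (genIdeal d) A d := by
  obtain ⟨x, hxA, hx⟩ := (Submodule.ne_bot_iff A).1 hA.2.2.1
  have : Nontrivial B := ⟨⟨x, 0, hx⟩⟩
  set c : ℝ := ‖star x * x‖⁻¹
  have hn : 0 < ‖star x * x‖ := by
    rw [CStarRing.norm_star_mul_self]; exact mul_pos (norm_pos_iff.2 hx) (norm_pos_iff.2 hx)
  set a₀ : B := c • (star x * x) with ha₀
  have ha0 : 0 ≤ a₀ := smul_nonneg (inv_nonneg.2 hn.le) (star_mul_self_nonneg x)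
  have hsa : IsSelfAdjoint a₀ := IsSelfAdjoint.of_nonneg ha0
  have han : ‖a₀‖ = 1 := by
    rw [ha₀, norm_smul, Real.norm_of_nonneg (inv_nonneg.2 hn.le), inv_mul_cancel₀ hn.ne']
  have haA : a₀ ∈ A := by
    rw [ha₀, ← Complex.coe_smul]
    exact Submodule.smul_mem _ _ (hA.2.1 (star x) x hxA).1
  have h1 : (1 : ℝ) ∈ spectrum ℝ a₀ := han ▸ CStarAlgebra.norm_mem_spectrum_of_nonneg ha0
  set f : ℝ → ℝ := fun t => max 0 (min 1 (4 * t - 2)) with hf
  set g : ℝ → ℝ := fun t => max 0 (min 1 (4 * t - 1)) with hg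
  set h : ℝ → ℝ := fun t => max 0 (t - 3 / 4) with hh
  have hfc : Continuous f := by fun_prop
  have hgc : Continuous g := by fun_prop
  have hhc : Continuous h := by fun_prop
  have hf01 : ∀ t, 0 ≤ f t ∧ f t ≤ 1 := fun t =>
    ⟨le_max_left _ _, max_le zero_le_one (min_le_left _ _)⟩
  have hg01 : ∀ t, 0 ≤ g t ∧ g t ≤ 1 := fun t =>
    ⟨le_max_left _ _, max_le zero_le_one (min_le_left _ _)⟩
  have hgf : cfc g a₀ * cfc f a₀ = cfc f a₀ := by
    rw [← cfc_mul g f a₀ hgc.continuousOn hfc.continuousOn]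
    refine cfc_congr fun t _ => ?_
    by_cases h2 : t ≤ 1 / 2
    · have : f t = 0 := max_eq_left ((min_le_right _ _).trans (by linarith))
      show g t * f t = f t
      rw [this, mul_zero]
    · have : g t = 1 := by
        simp only [hg, min_eq_left (show (1 : ℝ) ≤ 4 * t - 1 by linarith), max_eq_right zero_le_one]
      show g t * f t = f t
      rw [this, one_mul]
  have hfh : cfc f a₀ * cfc h a₀ = cfc h a₀ := by
    rw [← cfc_mul f h a₀ hfc.continuousOn hhc.continuousOn]
    refine cfc_congr fun t _ => ?_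
    by_cases h2 : t ≤ 3 / 4
    · have : h t = 0 := max_eq_left (by linarith)
      show f t * h t = h t
      rw [this, mul_zero]
    · have : f t = 1 := by
        simp only [hf, min_eq_left (show (1 : ℝ) ≤ 4 * t - 2 by linarith), max_eq_right zero_le_one]
      show f t * h t = h t
      rw [this, one_mul]
  have hh0 : cfc h a₀ ≠ 0 := fun e => by
    have h2 := norm_apply_le_norm_cfc h a₀ h1 hhc.continuousOn
    rw [e, norm_zero, hh] at h2
    norm_num at h2
  have hgA : cfc g a₀ ∈ A := by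
    have hk : Continuous fun t : ℝ => g t / max t (1 / 4) :=
      hgc.div (by fun_prop) fun t => (lt_of_lt_of_le (by norm_num) (le_max_right _ _)).ne'
    have e : cfc g a₀ = a₀ * cfc (fun t : ℝ => g t / max t (1 / 4)) a₀ := by
      nth_rw 2 [← cfc_id' ℝ a₀ hsa]
      rw [← cfc_mul _ _ a₀ continuous_id'.continuousOn hk.continuousOn]
      refine cfc_congr fun t _ => ?_
      rcases le_total t (1 / 4) with h2 | h2
      · have : g t = 0 := max_eq_left ((min_le_right _ _).trans (by linarith))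
        show g t = t * (g t / max t (1 / 4))
        rw [this, zero_div, mul_zero]
      · show g t = t * (g t / max t (1 / 4))
        rw [max_eq_left h2, mul_div_cancel₀ _ (by linarith : (0 : ℝ) < t).ne']
    rw [e]
    exact (hA.2.1 _ _ haA).2
  set d := cfc f a₀ with hd
  have hdA : d ∈ A := hgf ▸ (hA.2.1 _ _ hgA).2
  have hdd : d * d ≠ 0 := fun e => hh0 (by
    rw [← hfh, ← hfh, ← mul_assoc, e, zero_mul])
  refine ⟨d, ⟨hA, Submodule.span_le.2 ?_, genIdeal_isBimod d,
    genIdeal_star_mem (cfc_predicate f a₀),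
    mem_genIdeal_of_unit hA hdA hdd hgA hgf, cfc_nonneg fun t _ => (hf01 t).1,
    norm_cfc_le zero_le_one fun t _ => (Real.norm_of_nonneg (hf01 t).1).trans_le (hf01 t).2,
    ⟨cfc h a₀, hh0, hfh⟩,
    ⟨cfc g a₀, hgA, cfc_nonneg fun t _ => (hg01 t).1,
      norm_cfc_le zero_le_one fun t _ => (Real.norm_of_nonneg (hg01 t).1).trans_le (hg01 t).2,
      hgf⟩⟩⟩
  rintro _ ⟨⟨p, q⟩, rfl⟩
  exact (hA.2.1 q _ (hA.2.1 p _ (hA.2.1 d d hdA).1).1).2

/-- The ideal is invariant under automorphisms preserving `A`. -/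
theorem map_mem_genIdeal {d : B} (S : SI.Setup (genIdeal d) A d) (σ : B ≃⋆ₐ[ℂ] B)
    (hσ : ∀ a ∈ A, σ a ∈ A) : ∀ p ∈ genIdeal d, σ p ∈ genIdeal d := by
  obtain ⟨a, ha, -, -, had⟩ := S.d_unit
  obtain ⟨z, hz, hdz⟩ := S.d_nondeg
  have hdA : d ∈ A := S.le S.d_mem
  have hdd : d * d ≠ 0 := fun e => hz (by rw [← hdz, ← hdz, ← mul_assoc, e, zero_mul])
  have hdd' : σ (d * d) ∈ genIdeal d :=
    mem_genIdeal_of_unit S.simple hdA hdd (hσ a ha) (by rw [← map_mul, ← mul_assoc, had])
  intro p hp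
  induction hp using Submodule.span_induction with
  | mem x hx =>
    obtain ⟨⟨b, c⟩, rfl⟩ := hx
    show σ (b * (d * d) * c) ∈ genIdeal d
    rw [map_mul, map_mul]
    exact ((genIdeal_isBimod d) (σ c) _ ((genIdeal_isBimod d) (σ b) _ hdd').1).2
  | zero => simp
  | add x y _ _ hx hy => rw [map_add]; exact add_mem hx hy
  | smul r x _ hx => rw [map_smul]; exact Submodule.smul_mem _ _ hx

end Vale.Agent.P095.Weak
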