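import Vale.Agent.P095.Weak.Dual
import Vale.Agent.P095.SI.Basic
import Mathlib.Analysis.CStarAlgebra.CStarMatrix

/-!
P095 Weak: a quadratic form inequality between rows becomes an approximate identity of matrices
after clipping.
-/

open scoped ComplexOrder

namespace Vale.Agent.P095.Weak

variable {B : Type*} [CStarAlgebra B] [PartialOrder B] [StarOrderedRing B] {A : Submodule ℂ B}

/-- The negative part, with a multiplier exposing it. -/
theorem exists_neg_part {M : Type*} [CStarAlgebra M] [PartialOrder M] [StarOrderedRing M] {D : M}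
    (hD : IsSelfAdjoint D) : ∃ Z N : M, IsSelfAdjoint Z ∧ IsSelfAdjoint N ∧
      Z * D * Z = -(star N * N) ∧ (N = 0 → 0 ≤ D) := by
  set φ : ℝ → ℝ := fun t => Real.sqrt (max (-t) 0) with hφ
  set ψ : ℝ → ℝ := fun t => max (-t) 0 with hψ
  have cφ : Continuous φ := by fun_prop
  have cψ : Continuous ψ := by fun_prop
  refine ⟨cfc φ D, cfc ψ D, cfc_predicate _ _, cfc_predicate _ _, ?_, fun hz => ?_⟩
  · rw [(cfc_predicate ψ D : IsSelfAdjoint (cfc ψ D)).star_eq,
      ← cfc_mul ψ ψ D cψ.continuousOn cψ.continuousOn, ← cfc_neg]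
    conv_lhs => arg 1; arg 2; rw [← cfc_id' ℝ D hD]
    rw [← cfc_mul φ (fun x : ℝ => x) D cφ.continuousOn continuous_id.continuousOn,
      ← cfc_mul (fun t => φ t * t) φ D (cφ.mul continuous_id).continuousOn cφ.continuousOn]
    refine cfc_congr fun t _ => ?_
    have := Real.mul_self_sqrt (le_max_right (-t) 0)
    simp only [hφ, hψ]
    rcases le_total (-t) 0 with h0 | h0
    · simp [max_eq_right h0]
    · rw [max_eq_left h0] at this ⊢
      linear_combination t * this
  rw [← cfc_id' ℝ D hD]
  refine cfc_nonneg fun t ht => ?_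
  by_contra hn
  have h6 := norm_apply_le_norm_cfc ψ D ht cψ.continuousOn
  rw [hz, norm_zero] at h6
  simp only [hψ, Real.norm_eq_abs] at h6
  rw [max_eq_left (by linarith), abs_of_nonneg (by linarith)] at h6
  linarith

/-- Clipping: if `E = Q Q` is below `G + ε`, a contraction moves `G` onto `E` up to `ε`. -/
theorem exists_clip_elem {M : Type*} [CStarAlgebra M] [PartialOrder M] [StarOrderedRing M]
    {G E Q : M} (hG : 0 ≤ G) (hQ : IsSelfAdjoint Q) (hQQ : Q * Q = E) {ε : ℝ} (hε : 0 < ε)
    (h : E ≤ G + ε • (1 : M)) : ∃ R : M, ‖star R * G * R - E‖ ≤ ε := by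
  obtain ⟨s, hss, hs⟩ := exists_inv_sqrt hG hε
  refine ⟨s * Q, ?_⟩
  set R := s * Q with hR
  have hRR : R * star R ≤ 1 := by
    calc R * star R = s * E * s := by
          rw [hR, star_mul, hQ.star_eq, hss.star_eq, ← hQQ]; simp only [mul_assoc]
      _ ≤ s * (G + ε • (1 : M)) * s := hss.conjugate_le_conjugate h
      _ = 1 := hs
  have hR1 : ‖star R * R‖ ≤ 1 := by
    rw [CStarRing.norm_star_mul_self, ← CStarRing.norm_self_mul_star]
    rcases subsingleton_or_nontrivial M with hB | hB
    · rw [Subsingleton.elim (R * star R) 0, norm_zero]; norm_num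
    · exact (CStarAlgebra.norm_le_norm_of_nonneg_of_le (mul_star_self_nonneg _) hRR).trans_eq
        CStarRing.norm_one
  have h1 : star R * (G + ε • (1 : M)) * R = E := by
    calc star R * (G + ε • (1 : M)) * R = Q * (s * (G + ε • (1 : M)) * s) * Q := by
          rw [hR, star_mul, hQ.star_eq, hss.star_eq]; simp only [mul_assoc]
      _ = E := by rw [hs, mul_one, hQQ]
  have h2 : star R * G * R - E = -(ε • (star R * R)) := by
    rw [← h1]
    simp only [mul_add, add_mul, mul_smul_comm, smul_mul_assoc, mul_one]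
    abel
  rw [h2, norm_neg, norm_smul, Real.norm_eq_abs, abs_of_pos hε]
  exact mul_le_of_le_one_right hε.le hR1

/-- A self-adjoint matrix with positive quadratic form is positive. -/
theorem nonneg_of_qform {n : Type} [Fintype n] [DecidableEq n] (D : CStarMatrix n n B)
    (hD : IsSelfAdjoint D) (h : ∀ z : n → B, 0 ≤ qform (fun a a' => D a a') z) : 0 ≤ D := by
  obtain ⟨Z, N, hZs, hNs, key, hpos⟩ := exists_neg_part hD
  refine hpos ?_
  ext r c
  have h1 : (Z * D * Z) c c = qform (fun a a' => D a a') (fun a => Z a c) := by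
    conv_lhs => rw [← hZs.star_eq]
    rw [qform, hZs.star_eq]
    simp only [CStarMatrix.mul_apply, Finset.sum_mul]
    rw [Finset.sum_comm]
    refine Finset.sum_congr rfl fun i _ => Finset.sum_congr rfl fun j _ => ?_
    rw [show Z c i = star (Z i c) from by
      conv_lhs => rw [← hZs.star_eq]
      rw [CStarMatrix.star_apply]]
  have h2 : (star N * N) c c = ∑ i, star (N i c) * N i c := by
    simp only [CStarMatrix.mul_apply, CStarMatrix.star_apply]
  have h3 : 0 ≤ -((star N * N) c c) := by
    have h4 := h fun a => Z a c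
    rw [← h1, key] at h4
    exact h4
  rw [h2] at h3
  have h5 : star (N r c) * N r c ≤ 0 := (Finset.single_le_sum
    (f := fun i => star (N i c) * N i c) (fun i _ => star_mul_self_nonneg _)
    (Finset.mem_univ r)).trans (neg_nonneg.1 h3)
  exact (CStarRing.star_mul_self_eq_zero_iff _).1 (le_antisymm h5 (star_mul_self_nonneg _))

/-- The case of square index sets. -/
theorem exists_clip_fin (hA : SI.IsSimpleIdeal A) {J : ℕ} {e b : B}
    (he0 : 0 ≤ e) (hb0 : 0 ≤ b) (V : Fin J → Fin (2 * J) → B) (hV : ∀ r a, V r a ∈ A)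
    {ε : ℝ} (hε : 0 < ε)
    (h : ∀ z : Fin (2 * J) → B, ∑ a, star (z a) * e * z a ≤
      ∑ r, star (∑ a, V r a * z a) * b * (∑ a, V r a * z a) + ε • ∑ a, star (z a) * z a) :
    ∃ W : Fin J → Fin (2 * J) → B, (∀ l a, W l a ∈ A) ∧
      ‖CStarMatrix.ofMatrix (Matrix.of fun a a' : Fin (2 * J) =>
          (∑ l, star (W l a) * b * W l a') - if a = a' then e else 0)‖ ≤ ε := by
  have hbs : star b = b := (IsSelfAdjoint.of_nonneg hb0).star_eq
  have hes : star e = e := (IsSelfAdjoint.of_nonneg he0).star_eq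
  set G : CStarMatrix (Fin (2 * J)) (Fin (2 * J)) B := CStarMatrix.ofMatrix (Matrix.of fun a a' => ∑ l, star (V l a) * b * V l a') with hG
  set E : CStarMatrix (Fin (2 * J)) (Fin (2 * J)) B := CStarMatrix.ofMatrix (Matrix.of fun a a' => if a = a' then e else 0) with hE
  set Q : CStarMatrix (Fin (2 * J)) (Fin (2 * J)) B := CStarMatrix.ofMatrix (Matrix.of fun a a' => if a = a' then CFC.sqrt e else 0) with hQ
  have eG : ∀ a a', G a a' = ∑ l, star (V l a) * b * V l a' := fun _ _ => rfl
  have eE : ∀ a a', E a a' = if a = a' then e else 0 := fun _ _ => rfl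
  have eQ : ∀ a a', Q a a' = if a = a' then CFC.sqrt e else 0 := fun _ _ => rfl
  have hqs : star (CFC.sqrt e) = CFC.sqrt e :=
    (IsSelfAdjoint.of_nonneg (CFC.sqrt_nonneg e)).star_eq
  have hGs : IsSelfAdjoint G := by
    ext a a'
    simp only [CStarMatrix.star_apply, eG, star_sum, star_mul, star_star, hbs, mul_assoc]
  have hEs : IsSelfAdjoint E := by
    ext a a'
    simp only [CStarMatrix.star_apply, eE, apply_ite star, star_zero, hes, eq_comm]
  have hQs : IsSelfAdjoint Q := by
    ext a a'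
    simp only [CStarMatrix.star_apply, eQ, apply_ite star, star_zero, hqs, eq_comm]
  have hQQ : Q * Q = E := by
    ext a a'
    simp only [CStarMatrix.mul_apply, eQ, eE, ite_mul, zero_mul, mul_ite, mul_zero,
      CFC.sqrt_mul_sqrt_self e he0]
    simp
  have qG : ∀ z, qform (fun a a' => G a a') z =
      ∑ l, star (∑ a, V l a * z a) * b * (∑ a, V l a * z a) := by
    intro z
    simp only [qform, eG, star_sum, star_mul, Finset.sum_mul, Finset.mul_sum, mul_assoc]
    rw [Finset.sum_comm]
    exact (Finset.sum_congr rfl fun j _ => Finset.sum_comm).trans Finset.sum_comm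
  have hG0 : 0 ≤ G := nonneg_of_qform G hGs fun z => by
    rw [qG]
    exact Finset.sum_nonneg fun l _ => star_left_conjugate_nonneg hb0 _
  set D : CStarMatrix (Fin (2 * J)) (Fin (2 * J)) B := G + ε • 1 - E with hD
  have hD0 : 0 ≤ D := by
    refine nonneg_of_qform D ((hGs.add (IsSelfAdjoint.smul (IsSelfAdjoint.all ε) (IsSelfAdjoint.one (CStarMatrix (Fin (2 * J)) (Fin (2 * J)) B)))).sub hEs) fun z => ?_
    have e1 : qform (fun a a' => D a a') z = qform (fun a a' => G a a') z +
        ε • ∑ a, star (z a) * z a - ∑ a, star (z a) * e * z a := by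
      simp only [hD, qform, CStarMatrix.sub_apply, CStarMatrix.add_apply, CStarMatrix.smul_apply,
        CStarMatrix.one_apply, eE, mul_sub, sub_mul, mul_add, add_mul, Finset.sum_add_distrib,
        Finset.sum_sub_distrib, smul_ite, smul_zero, mul_ite, ite_mul, mul_zero, zero_mul,
        Finset.sum_ite_eq, Finset.mem_univ, if_true, mul_smul_comm, smul_mul_assoc, mul_one,
        ← Finset.smul_sum]
    rw [e1, qG]
    exact sub_nonneg.2 (h z)
  obtain ⟨R, hR⟩ := exists_clip_elem hG0 hQs hQQ hε (sub_nonneg.1 hD0)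
  refine ⟨fun l a => ∑ c, V l c * R c a,
    fun l a => A.sum_mem fun c _ => (hA.2.1 _ _ (hV l c)).2, ?_⟩
  have e2 : CStarMatrix.ofMatrix (Matrix.of fun a a' : Fin (2 * J) =>
      (∑ l, star (∑ c, V l c * R c a) * b * (∑ c, V l c * R c a')) - if a = a' then e else 0) =
      star R * G * R - E := by
    ext a a'
    rw [CStarMatrix.sub_apply, eE]
    refine congrArg₂ (fun x y : B => x - y) ?_ rfl
    simp only [CStarMatrix.mul_apply, CStarMatrix.star_apply, eG, star_sum, star_mul,
      Finset.sum_mul, Finset.mul_sum, mul_assoc]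
    exact Finset.sum_comm.trans (Finset.sum_congr rfl fun _ _ => Finset.sum_comm)
  rw [e2]
  exact hR

set_option linter.unusedVariables false in
theorem exists_clip (hA : SI.IsSimpleIdeal A) {κ ρ : Type} [Fintype κ] [DecidableEq κ] [Fintype ρ]
    [DecidableEq ρ] {J : ℕ} (hρ : Fintype.card ρ ≤ J) (hκ : Fintype.card κ = 2 * J) {e b : B}
    (he : e ∈ A) (he0 : 0 ≤ e) (hb0 : 0 ≤ b) (V : ρ → κ → B) (hV : ∀ r a, V r a ∈ A) {ε : ℝ}
    (hε : 0 < ε)
    (h : ∀ z : κ → B, ∑ a, star (z a) * e * z a ≤
      ∑ r, star (∑ a, V r a * z a) * b * (∑ a, V r a * z a) + ε • ∑ a, star (z a) * z a) :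
    ∃ W : Fin J → Fin (2 * J) → B, (∀ l a, W l a ∈ A) ∧
      ‖CStarMatrix.ofMatrix (Matrix.of fun a a' : Fin (2 * J) =>
          (∑ l, star (W l a) * b * W l a') - if a = a' then e else 0)‖ ≤ ε := by
  classical
  let σ : κ ≃ Fin (2 * J) := (Fintype.equivFinOfCardEq hκ)
  obtain ⟨i⟩ := Function.Embedding.nonempty_of_card_le (α := ρ) (β := Fin J) (by simpa using hρ)
  set V' : Fin J → Fin (2 * J) → B :=
    fun l a => Function.extend i (fun r => V r (σ.symm a)) 0 l with hV'
  have hin : ∀ r a, V' (i r) a = V r (σ.symm a) := fun r a => i.injective.extend_apply _ _ _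
  have hout : ∀ l a, (¬ ∃ r, i r = l) → V' l a = 0 := fun l a hl =>
    Function.extend_apply' _ _ _ hl
  refine exists_clip_fin hA he0 hb0 V' (fun l a => ?_) hε fun z => ?_
  · by_cases hl : ∃ r, i r = l
    · obtain ⟨r, rfl⟩ := hl
      rw [hin]; exact hV _ _
    · rw [hout l a hl]; exact A.zero_mem
  · have h1 := h (z ∘ σ)
    simp only [Function.comp_apply] at h1
    rw [σ.sum_comp (fun a => star (z a) * e * z a),
      σ.sum_comp (fun a => star (z a) * z a)] at h1
    refine h1.trans_eq (congrArg (· + _) ?_)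
    refine Finset.sum_bij_ne_zero (fun r _ _ => i r) (fun _ _ _ => Finset.mem_univ _)
      (fun r _ _ r' _ _ hr => i.injective hr) (fun l _ hl => ?_) (fun r _ _ => ?_)
    · by_cases hl' : ∃ r, i r = l
      · obtain ⟨r, rfl⟩ := hl'
        refine ⟨r, Finset.mem_univ r, ?_, rfl⟩
        simpa only [hin, ← σ.sum_comp, Equiv.symm_apply_apply] using hl
      · simp [hout l _ hl'] at hl
    · simp only [hin, ← σ.sum_comp (fun a => V r (σ.symm a) * z a), Equiv.symm_apply_apply]

end Vale.Agent.P095.Weak
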