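import Vale.Agent.P095.Weak.Quot
import Vale.Agent.P095.Weak.Clip
import Vale.Agent.P095.SI.Basic

/-!
P095 Weak: with the completely positive approximation property, a kernel positive on a free group
is, in a suitable finite quotient, positive up to `γ` and a small number of rows.
-/

open scoped ComplexOrder

namespace Vale.Agent.P095.Weak

namespace CPAux

/-- A square root, approximated by right multiples. -/
theorem exists_root {M : Type*} [CStarAlgebra M] [PartialOrder M] [StarOrderedRing M] {P : M}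
    (hP : 0 ≤ P) : ∃ T : M, IsSelfAdjoint T ∧ T * T = P ∧
      ∀ ε > (0 : ℝ), ∃ X : M, ‖T - P * X‖ ≤ ε := by
  have hPs : IsSelfAdjoint P := IsSelfAdjoint.of_nonneg hP
  refine ⟨cfc Real.sqrt P, cfc_predicate _ _, ?_, fun ε hε => ?_⟩
  · rw [← cfc_mul Real.sqrt Real.sqrt P Real.continuous_sqrt.continuousOn
      Real.continuous_sqrt.continuousOn]
    conv_rhs => rw [← cfc_id' ℝ P hPs]
    exact cfc_congr fun t ht => Real.mul_self_sqrt (spectrum_nonneg_of_nonneg hP ht)
  have hδ : 0 < ε ^ 2 := by positivity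
  have hc : Continuous fun t : ℝ => 1 / (max t 0 + ε ^ 2) * Real.sqrt t := by
    refine (continuous_const.div (by fun_prop) fun t => ?_).mul Real.continuous_sqrt
    have := le_max_right t 0
    positivity
  refine ⟨cfc (fun t : ℝ => 1 / (max t 0 + ε ^ 2) * Real.sqrt t) P, ?_⟩
  have e : P * cfc (fun t : ℝ => 1 / (max t 0 + ε ^ 2) * Real.sqrt t) P =
      cfc (fun t : ℝ => t * (1 / (max t 0 + ε ^ 2) * Real.sqrt t)) P := by
    rw [cfc_mul (fun t : ℝ => t) _ P continuousOn_id hc.continuousOn, cfc_id' ℝ P hPs]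
  rw [e, ← cfc_sub Real.sqrt (fun t : ℝ => t * (1 / (max t 0 + ε ^ 2) * Real.sqrt t)) P
    Real.continuous_sqrt.continuousOn (continuous_id.mul hc).continuousOn]
  refine norm_cfc_le hε.le fun t ht => ?_
  obtain ⟨s, hs, rfl⟩ : ∃ s, 0 ≤ s ∧ t = s ^ 2 :=
    ⟨Real.sqrt t, Real.sqrt_nonneg t, (Real.sq_sqrt (spectrum_nonneg_of_nonneg hP ht)).symm⟩
  have hd : 0 < s ^ 2 + ε ^ 2 := by positivity
  rw [max_eq_left (_root_.sq_nonneg s), Real.norm_eq_abs, Real.sqrt_sq hs,
    show s - s ^ 2 * (1 / (s ^ 2 + ε ^ 2) * s) = s * ε ^ 2 / (s ^ 2 + ε ^ 2) by field_simp; ring,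
    abs_of_nonneg (by positivity), div_le_iff₀ hd]
  nlinarith [mul_nonneg hε.le (_root_.sq_nonneg (s - ε)), mul_nonneg hε.le (mul_nonneg hs hε.le)]

variable {B : Type*} [CStarAlgebra B] [PartialOrder B] [StarOrderedRing B] {A : Submodule ℂ B}

/-- A matrix over `A` with nonnegative quadratic form is a Gram matrix over `A`. -/
theorem exists_gram (hA : SI.IsSimpleIdeal A) {n : Type} [Fintype n] [DecidableEq n]
    (M : n → n → B) (hM : ∀ a b, M a b ∈ A) (hh : ∀ a b, star (M b a) = M a b)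
    (hq : ∀ c : n → B, 0 ≤ qform M c) :
    ∃ T : n → n → B, (∀ a b, T a b ∈ A) ∧ ∀ a b, M a b = ∑ m, star (T m a) * T m b := by
  set P : CStarMatrix n n B := CStarMatrix.ofMatrix (Matrix.of M) with hPdef
  have hPe : ∀ a b, P a b = M a b := fun _ _ => rfl
  have hPs : IsSelfAdjoint P := CStarMatrix.ext fun a b => by
    rw [CStarMatrix.star_apply, hPe, hPe, hh]
  obtain ⟨T, hTs, hTT, hT⟩ := exists_root (M := CStarMatrix n n B) (nonneg_of_qform P hPs hq)
  refine ⟨fun a b => T a b, fun a b => ?_, fun a b => ?_⟩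
  · rw [← SetLike.mem_coe, ← hA.1.closure_eq, Metric.mem_closure_iff]
    intro ε hε
    obtain ⟨X, hX⟩ := hT (ε / 2) (half_pos hε)
    refine ⟨(P * X) a b, ?_, ?_⟩
    · rw [CStarMatrix.mul_apply]
      exact sum_mem fun c _ => (hA.2.1 (X c b) _ (hM a c)).2
    rw [dist_eq_norm]
    exact (CStarMatrix.norm_entry_le_norm (M := T - P * X)).trans_lt
      (hX.trans_lt (half_lt_self hε))
  · rw [← hPe, ← hTT, CStarMatrix.mul_apply]
    refine Finset.sum_congr rfl fun m _ => ?_
    conv_rhs => rw [← CStarMatrix.star_apply, hTs.star_eq]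

/-- A cross term is controlled by the diagonal. -/
theorem cross_nonneg {x a b : B} {e : ℝ} (he : 0 < e) (hx : ‖x‖ ≤ e) :
    0 ≤ star a * x * b + star b * star x * a + e • (star a * a + star b * b) := by
  set r := Real.sqrt e
  have hr : 0 < r := Real.sqrt_pos.2 he
  have hr2 : r * r = e := Real.mul_self_sqrt he.le
  have h1 := star_mul_self_nonneg (r • a + r⁻¹ • (x * b))
  have h2 : star (x * b) * (x * b) ≤ (e * e) • (star b * b) := by
    rw [star_mul, mul_assoc, ← mul_assoc (star x), ← mul_assoc]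
    refine (CStarAlgebra.star_left_conjugate_le_norm_smul
      (IsSelfAdjoint.star_mul_self x)).trans ?_
    refine smul_le_smul_of_nonneg_right ?_ (star_mul_self_nonneg b)
    rw [CStarRing.norm_star_mul_self]
    gcongr
  refine h1.trans ?_
  have e1 : star (r • a + r⁻¹ • (x * b)) * (r • a + r⁻¹ • (x * b)) = e • (star a * a) +
      (star a * x * b + star b * star x * a) + (e⁻¹) • (star (x * b) * (x * b)) := by
    simp only [star_add, star_smul, star_trivial, add_mul, mul_add, smul_mul_assoc, mul_smul_comm,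
      star_mul, mul_assoc, smul_add]
    simp only [smul_smul, mul_inv_cancel₀ hr.ne', inv_mul_cancel₀ hr.ne', one_smul, hr2, ← mul_inv]
    abel
  rw [e1, smul_add]
  refine le_of_le_of_eq (add_le_add_right (smul_le_smul_of_nonneg_left h2 (by positivity)) _) ?_
  rw [smul_smul, show e⁻¹ * (e * e) = e by field_simp]
  abel

variable {F Q κ : Type} [Group F] [Group Q] [Fintype Q] [DecidableEq Q] [Fintype κ]

theorem qform_kerQ (S : Finset F) (Z : F → κ → κ → B) (π : F →* Q) (z : κ × Q → B) :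
    qform (kerQ S Z π) z =
      ∑ t ∈ S, ∑ k, ∑ k', ∑ q, star (z (k, π t * q)) * Z t k k' * z (k', q) := by
  simp only [qform, kerQ, Finset.mul_sum, Finset.sum_mul, mul_ite, ite_mul, mul_zero, zero_mul]
  rw [Finset.sum_congr rfl fun a _ => Finset.sum_comm, Finset.sum_comm]
  refine Finset.sum_congr rfl fun t _ => ?_
  simp only [Fintype.sum_prod_type]
  refine Finset.sum_congr rfl fun k _ => ?_
  rw [Finset.sum_comm]
  refine Finset.sum_congr rfl fun k' _ => ?_
  rw [Finset.sum_comm]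
  refine Finset.sum_congr rfl fun q _ => ?_
  simp

theorem sum_row (z : κ × Q → B) (u : Q) :
    ∑ k, ∑ q, star (z (k, u * q)) * z (k, u * q) = ∑ a, star (z a) * z a := by
  rw [Fintype.sum_prod_type]
  exact Finset.sum_congr rfl fun k _ =>
    Equiv.sum_comp (Equiv.mulLeft u) fun q => star (z (k, q)) * z (k, q)

/-- A small kernel has a small quadratic form. -/
theorem qform_small (S : Finset F) (E : F → κ → κ → B) (π : F →* Q) {e : ℝ} (he : 0 < e)
    (hE : ∀ t ∈ S, ∀ k k', ‖E t k k'‖ ≤ e) (z : κ × Q → B) :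
    0 ≤ qform (kerQ S E π) z + star (qform (kerQ S E π) z) +
      (2 * e * (S.card * Fintype.card κ)) • ∑ a, star (z a) * z a := by
  set Z2 := ∑ a, star (z a) * z a with hZ2
  have h : 0 ≤ ∑ t ∈ S, ∑ k, ∑ k', ∑ q, (star (z (k, π t * q)) * E t k k' * z (k', q) +
      star (z (k', q)) * star (E t k k') * z (k, π t * q) +
      e • (star (z (k, π t * q)) * z (k, π t * q) + star (z (k', q)) * z (k', q))) :=
    Finset.sum_nonneg fun t ht => Finset.sum_nonneg fun k _ => Finset.sum_nonneg fun k' _ =>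
      Finset.sum_nonneg fun q _ => cross_nonneg he (hE t ht k k')
  refine le_of_le_of_eq h ?_
  simp only [qform_kerQ, star_sum, star_mul, star_star, mul_assoc, Finset.sum_add_distrib,
    ← Finset.smul_sum, smul_add]
  congr 1
  simp only [Finset.sum_const, Finset.card_univ, ← Nat.cast_smul_eq_nsmul ℝ, ← Finset.smul_sum,
    sum_row z, ← Fintype.sum_prod_type (fun a : κ × Q => star (z a) * z a), ← hZ2, smul_smul,
    ← add_smul]
  congr 1
  ring

theorem kerQ_star {R : Type*} [AddCommMonoid R] [StarAddMonoid R] [DecidableEq F] {S : Finset F}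
    {g g' : F → κ → κ → R} (π : F →* Q) (hg : ∀ t ∉ S, ∀ k k', g t k k' = 0)
    (hg' : ∀ t ∉ S, ∀ k k', g' t k k' = 0) (h : ∀ t k k', g' t k k' = star (g t⁻¹ k' k))
    (a b : κ × Q) : star (kerQ S g π b a) = kerQ S g' π a b := by
  have hext : ∀ (w : F → R), (∀ t ∉ S, w t = 0) →
      ∑ t ∈ S, w t = ∑ t ∈ S ∪ S.image (·⁻¹), w t := fun w hw =>
    Finset.sum_subset Finset.subset_union_left fun t _ ht => hw t ht
  symm
  simp only [kerQ, star_sum]
  rw [hext _ (fun t ht => by simp [hg' t ht]), hext _ (fun t ht => by simp [hg t ht])]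
  have hinv : ∀ t ∈ S ∪ S.image (·⁻¹), t⁻¹ ∈ S ∪ S.image (·⁻¹) := fun t ht => by
    simp only [Finset.mem_union, Finset.mem_image] at ht ⊢
    rcases ht with h | ⟨u, hu, rfl⟩
    · exact Or.inr ⟨t, h, rfl⟩
    · exact Or.inl (by simpa using hu)
  refine Finset.sum_nbij' (·⁻¹) (·⁻¹) hinv hinv (fun t _ => inv_inv t) (fun t _ => inv_inv t) ?_
  intro t _
  have e : π t * b.2 = a.2 ↔ π t⁻¹ * a.2 = b.2 := by
    rw [map_inv, inv_mul_eq_iff_eq_mul, eq_comm]
  by_cases hc : π t * b.2 = a.2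
  · rw [if_pos hc, if_pos (e.1 hc), h]
  · rw [if_neg hc, if_neg fun h' => hc (e.2 h'), star_zero]

/-- The form of a scalar matrix at a vector over `B`. -/
noncomputable def scal {n : Type*} [Fintype n] (M : n → n → ℂ) (w : n → B) : B :=
  ∑ a, ∑ b, M a b • (star (w a) * w b)

theorem scal_nonneg {n : Type*} [Fintype n] [DecidableEq n] {M : Matrix n n ℂ}
    (hM : M.PosSemidef) (w : n → B) : 0 ≤ scal M w := by
  have e : scal M w = ∑ r, hM.1.eigenvalues r •
      (star (∑ a, star ((hM.1.eigenvectorUnitary : Matrix n n ℂ) a r) • w a) *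
        (∑ a, star ((hM.1.eigenvectorUnitary : Matrix n n ℂ) a r) • w a)) := by
    have hent : ∀ a b, M a b = ∑ r, (hM.1.eigenvectorUnitary : Matrix n n ℂ) a r *
        ((hM.1.eigenvalues r : ℝ) : ℂ) *
        star ((hM.1.eigenvectorUnitary : Matrix n n ℂ) b r) := fun a b => by
      have := QuotAux.aeval_apply hM.1 Polynomial.X a b
      simpa only [Polynomial.aeval_X, Polynomial.eval_X] using this
    simp only [scal, hent, Finset.sum_smul, star_sum, star_smul, star_star, Finset.sum_mul,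
      Finset.mul_sum, smul_mul_assoc, mul_smul_comm, Finset.smul_sum, ← Complex.coe_smul,
      smul_smul]
    rw [Finset.sum_congr rfl fun a _ => Finset.sum_comm, Finset.sum_comm]
    refine Finset.sum_congr rfl fun r _ => ?_
    rw [Finset.sum_comm]
    refine Finset.sum_congr rfl fun b _ => Finset.sum_congr rfl fun a _ => ?_
    congr 1
    ring
  rw [e]
  exact Finset.sum_nonneg fun r _ =>
    smul_nonneg (hM.eigenvalues_nonneg r) (star_mul_self_nonneg _)

theorem star_scal {n : Type*} [Fintype n] (M : n → n → ℂ) (w : n → B) :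
    star (scal M w) = scal (fun a b => star (M b a)) w := by
  simp only [scal, star_sum, star_smul, star_mul, star_star]
  exact Finset.sum_comm

section Scalar

variable {I : Type} [Fintype I] [DecidableEq F]

/-- The rows coming from a scalar certificate. -/
theorem scal_cert [DecidableEq κ] {S : Finset F} {f : F → κ → κ → ℂ} (π : F →* Q)
    (hf : ∀ t ∉ S, ∀ k k', f t k k' = 0) (hfh : ∀ t k k', f t⁻¹ k k' = star (f t k' k))
    {γ : ℝ} {v : I → κ × Q → ℂ}
    (hv : ∀ ξ : κ × Q → ℂ, 0 ≤ (∑ a, ∑ b, star (ξ a) * kerQ S f π a b * ξ b).re +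
      γ * ∑ a, ‖ξ a‖ ^ 2 + ∑ r, ‖∑ a, v r a * ξ a‖ ^ 2) (w : κ × Q → B) :
    0 ≤ scal (kerQ S f π) w + γ • (∑ a, star (w a) * w a) +
      ∑ r, star (∑ a, v r a • w a) * (∑ a, v r a • w a) := by
  set M : Matrix (κ × Q) (κ × Q) ℂ := Matrix.of fun a b =>
    kerQ S f π a b + (if a = b then (γ : ℂ) else 0) + ∑ r, star (v r a) * v r b with hMdef
  have hst : ∀ a b, star (kerQ S f π b a) = kerQ S f π a b :=
    kerQ_star π hf hf fun t k k' => by rw [hfh, star_star]
  have hM : M.PosSemidef := by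
    refine Matrix.posSemidef_iff_dotProduct_mulVec.2
      ⟨Matrix.IsHermitian.ext fun a b => ?_, fun ξ => ?_⟩
    · simp only [hMdef, Matrix.of_apply, star_add, star_sum, star_mul', star_star, hst]
      congr 1
      · congr 1
        split_ifs with h1 h2 h3
        · simp
        · exact absurd h1.symm h2
        · exact absurd h3.symm h1
        · simp
      · exact Finset.sum_congr rfl fun r _ => mul_comm _ _
    · have e : star ξ ⬝ᵥ M.mulVec ξ =
          (∑ a, ∑ b, star (ξ a) * kerQ S f π a b * ξ b) + γ * (∑ a, star (ξ a) * ξ a) +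
          ∑ r, star (∑ a, v r a * ξ a) * (∑ a, v r a * ξ a) := by
        simp only [hMdef, dotProduct, Matrix.mulVec, Matrix.of_apply, Pi.star_apply,
          Finset.mul_sum, star_sum, star_mul', Finset.sum_mul, add_mul, mul_add,
          Finset.sum_add_distrib, ← mul_assoc]
        congr 1
        · congr 1
          refine Finset.sum_congr rfl fun a _ => ?_
          rw [Finset.sum_eq_single a (fun b _ hb => by simp [Ne.symm hb]) (by simp)]
          simp [mul_comm, mul_left_comm]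
        · rw [Finset.sum_congr rfl fun a _ => Finset.sum_comm, Finset.sum_comm]
          refine Finset.sum_congr rfl fun r _ => ?_
          rw [Finset.sum_comm]
          exact Finset.sum_congr rfl fun a _ => Finset.sum_congr rfl fun b _ => by ring
      have hself : ∀ x : ℂ, star x * x = ((‖x‖ ^ 2 : ℝ) : ℂ) := fun x => by
        rw [Complex.star_def, Complex.conj_mul', Complex.ofReal_pow]
      have him : (∑ a, ∑ b, star (ξ a) * kerQ S f π a b * ξ b).im = 0 := by
        refine Complex.conj_eq_iff_im.1 ?_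
        rw [← Complex.star_def]
        simp only [star_sum, star_mul', star_star]
        rw [Finset.sum_comm]
        refine Finset.sum_congr rfl fun a _ => Finset.sum_congr rfl fun b _ => ?_
        rw [hst]
        ring
      rw [e, Complex.nonneg_iff]
      simp only [hself, ← Complex.ofReal_sum, ← Complex.ofReal_mul, Complex.add_re,
        Complex.add_im, Complex.ofReal_re, Complex.ofReal_im, him, add_zero, and_true]
      exact hv ξ
  refine (scal_nonneg hM w).trans_eq ?_
  simp only [hMdef, scal, Matrix.of_apply, Finset.smul_sum, Finset.sum_add_distrib, add_smul,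
    Finset.sum_smul, ite_smul, zero_smul, Finset.sum_ite_eq, Finset.mem_univ, if_true,
    Complex.coe_smul]
  congr 1
  simp only [star_sum, star_smul, Finset.sum_mul, Finset.mul_sum, smul_mul_assoc, mul_smul_comm,
    Finset.smul_sum, smul_smul]
  rw [Finset.sum_congr rfl fun a _ => Finset.sum_comm, Finset.sum_comm]
  refine Finset.sum_congr rfl fun r _ => ?_
  rw [Finset.sum_comm]
  exact Finset.sum_congr rfl fun a _ => Finset.sum_congr rfl fun b _ => by rw [mul_comm]

end Scalar

section Compress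

variable {n : ℕ}

/-- The scalar kernel of `ψ`. -/
noncomputable def gker (ψ : Fin n → Fin n → (B →ₗ[ℂ] ℂ)) (Z : F → κ → κ → B) :
    F → κ × Fin n → κ × Fin n → ℂ := fun t a b => ψ a.2 b.2 (Z t a.1 b.1)

/-- The Hermitian part of `gker`. -/
noncomputable def fker (ψ : Fin n → Fin n → (B →ₗ[ℂ] ℂ)) (Z : F → κ → κ → B) :
    F → κ × Fin n → κ × Fin n → ℂ := fun t a b => (gker ψ Z t a b + star (gker ψ Z t⁻¹ b a)) / 2

theorem fker_pos [DecidableEq F] [DecidableEq κ] (hA : SI.IsSimpleIdeal A) {Z : F → κ → κ → B}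
    (hmem : ∀ t k k', Z t k k' ∈ A) (hherm : ∀ t k k', Z t⁻¹ k k' = star (Z t k' k))
    (hpos : ∀ (W : Finset F) (c : F → κ → B),
      0 ≤ ∑ h ∈ W, ∑ h' ∈ W, ∑ k, ∑ k', star (c h k) * Z (h * h'⁻¹) k k' * c h' k')
    {ψ : Fin n → Fin n → (B →ₗ[ℂ] ℂ)}
    (hψ : ∀ y : Fin n → B, (∀ i, y i ∈ A) → 0 ≤ ∑ i, ∑ j, ψ i j (star (y i) * y j))
    (W : Finset F) (ξ : F → κ × Fin n → ℂ) :
    0 ≤ ∑ h ∈ W, ∑ h' ∈ W, ∑ a, ∑ b, star (ξ h a) * fker ψ Z (h * h'⁻¹) a b * ξ h' b := by
  obtain ⟨T, hTA, hT⟩ := exists_gram hA (n := ↥W × κ)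
    (fun a b => Z ((a.1 : F) * (b.1 : F)⁻¹) a.2 b.2) (fun _ _ => hmem _ _ _)
    (fun a b => by rw [← hherm, mul_inv_rev, inv_inv]) (fun c => by
      classical
      let c' : F → κ → B := fun h k => if hh : h ∈ W then c (⟨h, hh⟩, k) else 0
      refine le_of_le_of_eq (hpos W c') ?_
      simp only [qform, Fintype.sum_prod_type]
      rw [← Finset.sum_coe_sort W]
      refine Finset.sum_congr rfl fun h _ => ?_
      rw [← Finset.sum_coe_sort W, Finset.sum_comm]
      simp [c'])
  set V : ℂ := ∑ h ∈ W, ∑ h' ∈ W, ∑ a, ∑ b, star (ξ h a) * gker ψ Z (h * h'⁻¹) a b * ξ h' b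
    with hV
  have e1 : ∀ i j, ∑ p : ↥W × κ, ∑ p' : ↥W × κ,
      star (ξ p.1 (p.2, i)) * ψ i j (Z ((p.1 : F) * (p'.1 : F)⁻¹) p.2 p'.2) * ξ p'.1 (p'.2, j) =
      ∑ m : ↥W × κ, ψ i j (star (∑ p : ↥W × κ, ξ p.1 (p.2, i) • T m p) *
        (∑ p : ↥W × κ, ξ p.1 (p.2, j) • T m p)) := by
    intro i j
    simp only [star_sum, star_smul, Finset.sum_mul, Finset.mul_sum, smul_mul_assoc,
      mul_smul_comm, map_sum, map_smul, smul_eq_mul, hT]
    symm
    rw [Finset.sum_congr rfl fun m _ => Finset.sum_comm, Finset.sum_comm]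
    refine Finset.sum_congr rfl fun p _ => ?_
    rw [Finset.sum_comm]
    exact Finset.sum_congr rfl fun p' _ => Finset.sum_congr rfl fun m _ => by ring
  have e4 : V = ∑ i, ∑ j, ∑ p : ↥W × κ, ∑ p' : ↥W × κ,
      star (ξ p.1 (p.2, i)) * ψ i j (Z ((p.1 : F) * (p'.1 : F)⁻¹) p.2 p'.2) * ξ p'.1 (p'.2, j) := by
    have e5 : V = ∑ p : ↥W × κ, ∑ i, ∑ p' : ↥W × κ, ∑ j,
        star (ξ p.1 (p.2, i)) * ψ i j (Z ((p.1 : F) * (p'.1 : F)⁻¹) p.2 p'.2) *
          ξ p'.1 (p'.2, j) := by
      simp only [hV, gker, Fintype.sum_prod_type]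
      rw [← Finset.sum_coe_sort W]
      refine Finset.sum_congr rfl fun h _ => ?_
      rw [← Finset.sum_coe_sort W, Finset.sum_comm]
      refine Finset.sum_congr rfl fun k _ => ?_
      rw [Finset.sum_comm]
    rw [e5, Finset.sum_comm]
    refine Finset.sum_congr rfl fun i _ => ?_
    conv_rhs => rw [Finset.sum_comm]
    exact Finset.sum_congr rfl fun p _ => Finset.sum_comm
  have hV0 : 0 ≤ V := by
    rw [e4]
    simp only [e1]
    rw [Finset.sum_congr rfl fun i _ => Finset.sum_comm, Finset.sum_comm]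
    exact Finset.sum_nonneg fun m _ => hψ _ fun i => sum_mem fun p _ => A.smul_mem _ (hTA m p)
  have e3 : star V =
      ∑ h ∈ W, ∑ h' ∈ W, ∑ a, ∑ b, star (ξ h a) * star (gker ψ Z (h' * h⁻¹) b a) * ξ h' b := by
    simp only [hV, star_sum, star_mul', star_star]
    rw [Finset.sum_comm]
    refine Finset.sum_congr rfl fun h _ => Finset.sum_congr rfl fun h' _ => ?_
    rw [Finset.sum_comm]
    exact Finset.sum_congr rfl fun a _ => Finset.sum_congr rfl fun b _ => by ring
  refine le_of_le_of_eq (b := (V + star V) / 2) ?_ ?_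
  · rw [Complex.star_def, Complex.conj_eq_iff_im.2 (Complex.nonneg_iff.1 hV0).2.symm]
    simpa using hV0
  · rw [e3, hV]
    simp only [fker, mul_inv_rev, inv_inv, ← Finset.sum_add_distrib, Finset.sum_div]
    exact Finset.sum_congr rfl fun h _ => Finset.sum_congr rfl fun h' _ =>
      Finset.sum_congr rfl fun a _ => Finset.sum_congr rfl fun b _ => by ring

/-- The compressed kernel as scalar forms. -/
theorem qform_compress {K : ℕ} (S : Finset F) (ψ : Fin n → Fin n → (B →ₗ[ℂ] ℂ))
    (Z : F → κ → κ → B) (c : Fin K → Fin n → B) (π : F →* Q) (z : κ × Q → B) :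
    qform (kerQ S (fun t k k' => ∑ l, ∑ i, ∑ j, ψ i j (Z t k k') • (star (c l i) * c l j)) π) z =
      ∑ l, scal (kerQ S (gker ψ Z) π) (fun a => c l a.1.2 * z (a.1.1, a.2)) := by
  have h : ∀ w : (κ × Fin n) × Q → B, scal (kerQ S (gker ψ Z) π) w =
      ∑ t ∈ S, ∑ a : κ × Fin n, ∑ b : κ × Fin n, ∑ q,
        gker ψ Z t a b • (star (w (a, π t * q)) * w (b, q)) := by
    intro w
    simp only [scal, kerQ, Finset.sum_smul, ite_smul, zero_smul]
    rw [Finset.sum_congr rfl fun a _ => Finset.sum_comm, Finset.sum_comm]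
    refine Finset.sum_congr rfl fun t _ => ?_
    simp only [Fintype.sum_prod_type (α₁ := κ × Fin n)]
    refine Finset.sum_congr rfl fun a _ => ?_
    rw [Finset.sum_comm]
    refine Finset.sum_congr rfl fun b _ => ?_
    rw [Finset.sum_comm]
    exact Finset.sum_congr rfl fun q _ => by simp
  rw [qform_kerQ]
  simp only [h]
  conv_rhs => rw [Finset.sum_comm]
  refine Finset.sum_congr rfl fun t _ => ?_
  have h2 : ∀ k k' q, star (z (k, π t * q)) *
      (∑ l, ∑ i, ∑ j, ψ i j (Z t k k') • (star (c l i) * c l j)) * z (k', q) =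
      ∑ l, ∑ i, ∑ j, ψ i j (Z t k k') • (star (c l i * z (k, π t * q)) * (c l j * z (k', q))) := by
    intro k k' q
    simp only [Finset.mul_sum, Finset.sum_mul, mul_smul_comm, smul_mul_assoc, star_mul, mul_assoc]
  simp only [h2, Fintype.sum_prod_type, gker]
  conv_lhs => enter [2, k, 2, k']; rw [Finset.sum_comm]
  conv_lhs => enter [2, k]; rw [Finset.sum_comm]
  rw [Finset.sum_comm]
  refine Finset.sum_congr rfl fun l _ => Finset.sum_congr rfl fun k _ => ?_
  conv_lhs => enter [2, k']; rw [Finset.sum_comm]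
  rw [Finset.sum_comm]
  refine Finset.sum_congr rfl fun i _ => Finset.sum_congr rfl fun k' _ => Finset.sum_comm

theorem compress_sym [DecidableEq F] {S : Finset F} (ψ : Fin n → Fin n → (B →ₗ[ℂ] ℂ))
    {Z : F → κ → κ → B} (hsupp : ∀ t ∉ S, ∀ k k', Z t k k' = 0)
    (hherm : ∀ t k k', Z t⁻¹ k k' = star (Z t k' k)) (π : F →* Q) (w : (κ × Fin n) × Q → B) :
    scal (kerQ S (gker ψ Z) π) w + star (scal (kerQ S (gker ψ Z) π) w) =
      (2 : ℂ) • scal (kerQ S (fker ψ Z) π) w := by
  have hg : ∀ t ∉ S, ∀ a b, gker ψ Z t a b = 0 := fun t ht a b => by simp [gker, hsupp t ht]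
  have hg' : ∀ t ∉ S, ∀ a b, star (gker ψ Z t⁻¹ b a) = 0 := fun t ht a b => by
    simp [gker, hherm, hsupp t ht]
  rw [star_scal]
  simp only [scal, Finset.smul_sum, ← Finset.sum_add_distrib, smul_smul, ← add_smul]
  refine Finset.sum_congr rfl fun a _ => Finset.sum_congr rfl fun b _ => ?_
  congr 1
  rw [kerQ_star π hg hg' (fun _ _ _ => rfl) a b]
  simp only [kerQ, Finset.mul_sum, ← Finset.sum_add_distrib, fker]
  refine Finset.sum_congr rfl fun t _ => ?_
  split <;> ring

end Compress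

end CPAux

open CPAux in
theorem exists_transfer {B : Type*} [CStarAlgebra B] [PartialOrder B] [StarOrderedRing B]
    {A : Submodule ℂ B} (hA : SI.IsSimpleIdeal A) (hcp : SI.HasCPApprox A) {ι κ : Type} [Fintype ι]
    [DecidableEq ι] [Fintype κ] [DecidableEq κ] (S : Finset (FreeGroup ι))
    (Z : FreeGroup ι → κ → κ → B) (hmem : ∀ t k k', Z t k k' ∈ A)
    (hsupp : ∀ t ∉ S, ∀ k k', Z t k k' = 0) (hherm : ∀ t k k', Z t⁻¹ k k' = star (Z t k' k))
    (hpos : ∀ (W : Finset (FreeGroup ι)) (c : FreeGroup ι → κ → B),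
      0 ≤ ∑ h ∈ W, ∑ h' ∈ W, ∑ k, ∑ k', star (c h k) * Z (h * h'⁻¹) k k' * c h' k')
    {γ : ℝ} (hγ : 0 < γ) :
    ∃ (K : ℕ) (c : Fin K → B) (C : ℝ), (∀ l, c l ∈ A) ∧ 0 ≤ C ∧ ∀ tol > (0 : ℝ),
      ∃ (Q : Type) (_ : Group Q) (_ : Fintype Q) (_ : DecidableEq Q) (π : FreeGroup ι →* Q) (N : ℕ)
        (v : Fin N → κ × Q → Fin K → ℂ), (N : ℝ) ≤ tol * Fintype.card Q ∧
        (∀ (l : Fin K) (ξ : κ × Q → ℂ), ∑ r, ‖∑ a, v r a l * ξ a‖ ^ 2 ≤ C * ∑ a, ‖ξ a‖ ^ 2) ∧
        ∀ z : κ × Q → B, 0 ≤ qform (kerQ S Z π) z + γ • ∑ a, star (z a) * z a +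
          ∑ r, star (∑ a, (∑ l, v r a l • c l) * z a) * (∑ a, (∑ l, v r a l • c l) * z a) := by
  classical
  set δ := γ / (2 * (S.card * Fintype.card κ + 1)) with hδdef
  have hδ : 0 < δ := by positivity
  obtain ⟨n, K, ψ, c, hc, hψ, happ⟩ := hcp
    (S.biUnion fun t => Finset.univ.image fun p : κ × κ => Z t p.1 p.2)
    (fun x hx => by
      simp only [Finset.mem_biUnion, Finset.mem_image] at hx
      obtain ⟨t, -, p, -, rfl⟩ := hx
      exact hmem _ _ _) δ hδ
  set Cc : ℝ := ∑ l, ∑ i, ‖c l i‖ ^ 2 with hCc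
  set γ' := γ / (2 * (Cc + 1)) with hγ'def
  have hγ' : 0 < γ' := by positivity
  set f := fker ψ Z with hf
  have hfS : ∀ t ∉ S, ∀ a b, f t a b = 0 := fun t ht a b => by
    simp [f, fker, gker, hherm, hsupp t ht]
  have hfh : ∀ t a b, f t⁻¹ a b = star (f t b a) := fun t a b => by
    simp only [f, fker, inv_inv, star_div₀, star_add, star_star, star_ofNat]
    rw [add_comm]
  set C := ∑ t ∈ S, ∑ a, ∑ b, ‖f t a b‖ with hC
  set e₂ : Fin K × Fin n ≃ Fin (K * n) := finProdFinEquiv
  refine ⟨K * n, fun l => c (e₂.symm l).1 (e₂.symm l).2, C, fun l => hc _ _, by positivity,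
    fun tol htol => ?_⟩
  set γ₁ := min γ' (tol / (K + 1)) with hγ₁
  have hγ₁0 : 0 < γ₁ := lt_min hγ' (by positivity)
  obtain ⟨Q, _, _, _, π, N, v, hN, hvC, hvp⟩ :=
    exists_quotient S f hfS hfh (fker_pos hA hmem hherm hpos hψ) hγ₁0
  set e₁ : Fin N × Fin K ≃ Fin (N * K) := finProdFinEquiv
  refine ⟨Q, inferInstance, inferInstance, inferInstance, π, N * K, fun r a l =>
    if (e₂.symm l).1 = (e₁.symm r).2 then v (e₁.symm r).1 ((a.1, (e₂.symm l).2), a.2) else 0,
    ?_, fun l ξ => ?_, fun z => ?_⟩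
  · push_cast
    refine (mul_le_mul_of_nonneg_right hN (Nat.cast_nonneg K)).trans ?_
    have h1 : γ₁ * ((K : ℝ) + 1) ≤ tol := by
      rw [← le_div_iff₀ (by positivity)]
      exact min_le_right _ _
    nlinarith [mul_nonneg hγ₁0.le (Nat.cast_nonneg (α := ℝ) (Fintype.card Q))]
  · obtain ⟨⟨l', i⟩, rfl⟩ := e₂.surjective l
    simp only [Equiv.symm_apply_apply]
    rw [← e₁.sum_comp]
    simp only [Equiv.symm_apply_apply]
    rw [Fintype.sum_prod_type]
    have h := hvC fun b => if b.1.2 = i then ξ (b.1.1, b.2) else 0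
    refine le_of_eq_of_le (Finset.sum_congr rfl fun r _ => ?_) (h.trans_eq ?_)
    · rw [Finset.sum_eq_single l']
      · congr 2
        simp [Fintype.sum_prod_type, mul_ite, Finset.sum_ite_eq', eq_comm]
      · intro k _ hk
        simp [Ne.symm hk]
      · simp
    · congr 1
      simp [Fintype.sum_prod_type, Finset.sum_ite_eq', ite_pow, apply_ite norm]
  · set w : Fin K → (κ × Fin n) × Q → B := fun l a => c l a.1.2 * z (a.1.1, a.2) with hw
    set Φ : FreeGroup ι → κ → κ → B := fun t k k' =>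
      ∑ l, ∑ i, ∑ j, ψ i j (Z t k k') • (star (c l i) * c l j) with hΦ
    set G := qform (kerQ S Φ π) z with hG
    set Z2 := ∑ a, star (z a) * z a with hZ2
    set P := ∑ l, scal (kerQ S f π) (w l) with hP
    set W2 := ∑ l, ∑ a, star (w l a) * w l a with hW2
    set R := ∑ l, ∑ r, star (∑ a, v r a • w l a) * (∑ a, v r a • w l a) with hR
    have hGG : G + star G = (2 : ℂ) • P := by
      rw [hG, hΦ, qform_compress, star_sum, hP, Finset.smul_sum, ← Finset.sum_add_distrib]
      exact Finset.sum_congr rfl fun l _ => compress_sym ψ hsupp hherm π (w l)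
    have hE : ∀ t ∈ S, ∀ k k', ‖Z t k k' - Φ t k k'‖ ≤ δ := fun t ht k k' =>
      (happ _ (Finset.mem_biUnion.2 ⟨t, ht,
        Finset.mem_image.2 ⟨(k, k'), Finset.mem_univ _, rfl⟩⟩)).le
    have hE2 := qform_small S (fun t k k' => Z t k k' - Φ t k k') π hδ hE z
    have hEsub : qform (kerQ S (fun t k k' => Z t k k' - Φ t k k') π) z =
        qform (kerQ S Z π) z - G := by
      simp only [hG, qform_kerQ, mul_sub, sub_mul, Finset.sum_sub_distrib]
    have hZs : star (qform (kerQ S Z π) z) = qform (kerQ S Z π) z := by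
      simp only [qform, star_sum, star_mul, star_star, mul_assoc]
      rw [Finset.sum_comm]
      refine Finset.sum_congr rfl fun a _ => Finset.sum_congr rfl fun b _ => ?_
      rw [kerQ_star π hsupp hsupp (fun t k k' => by rw [hherm, star_star]) a b]
    rw [hEsub, star_sub, hZs] at hE2
    have hPR : 0 ≤ P + γ₁ • W2 + R := by
      rw [hP, hW2, hR, Finset.smul_sum, ← Finset.sum_add_distrib, ← Finset.sum_add_distrib]
      exact Finset.sum_nonneg fun l _ => scal_cert π hfS hfh hvp (w l)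
    have hw2 : W2 ≤ Cc • Z2 := by
      rw [hW2, hCc, Finset.sum_smul]
      refine Finset.sum_le_sum fun l _ => ?_
      rw [Finset.sum_smul, Fintype.sum_prod_type, Fintype.sum_prod_type, Finset.sum_comm]
      refine Finset.sum_le_sum fun i _ => ?_
      rw [hZ2, Fintype.sum_prod_type, Finset.smul_sum]
      refine Finset.sum_le_sum fun k _ => ?_
      rw [Finset.smul_sum]
      refine Finset.sum_le_sum fun q _ => ?_
      simp only [w, star_mul, mul_assoc]
      rw [← mul_assoc (star (c l i)), ← mul_assoc]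
      refine (CStarAlgebra.star_left_conjugate_le_norm_smul
        (IsSelfAdjoint.star_mul_self (c l i))).trans ?_
      rw [CStarRing.norm_star_mul_self, ← pow_two]
    have hrows : ∀ r : Fin (N * K), (∑ a : κ × Q, (∑ l, (if (e₂.symm l).1 = (e₁.symm r).2 then
          v (e₁.symm r).1 ((a.1, (e₂.symm l).2), a.2) else 0) • c (e₂.symm l).1 (e₂.symm l).2) *
          z a) = ∑ a, v (e₁.symm r).1 a • w (e₁.symm r).2 a := by
      intro r
      generalize (e₁.symm r).1 = r'
      generalize (e₁.symm r).2 = l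
      have e' : ∀ a : κ × Q, (∑ l' : Fin (K * n), (if (e₂.symm l').1 = l then
          v r' ((a.1, (e₂.symm l').2), a.2) else 0) • c (e₂.symm l').1 (e₂.symm l').2) =
          ∑ i, v r' ((a.1, i), a.2) • c l i := fun a => by
        rw [← e₂.sum_comp, Fintype.sum_prod_type, Finset.sum_eq_single l]
        · simp
        · intro x _ hx; simp [hx]
        · simp
      simp only [e', Finset.sum_mul, smul_mul_assoc, Fintype.sum_prod_type, w]
      exact Finset.sum_congr rfl fun k _ => Finset.sum_comm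
    have hRe : ∑ r, star (∑ a : κ × Q, (∑ l, (if (e₂.symm l).1 = (e₁.symm r).2 then
          v (e₁.symm r).1 ((a.1, (e₂.symm l).2), a.2) else 0) • c (e₂.symm l).1 (e₂.symm l).2) *
          z a) * (∑ a : κ × Q, (∑ l, (if (e₂.symm l).1 = (e₁.symm r).2 then
          v (e₁.symm r).1 ((a.1, (e₂.symm l).2), a.2) else 0) • c (e₂.symm l).1 (e₂.symm l).2) *
          z a) = R := by
      rw [Finset.sum_congr rfl fun r _ => by rw [hrows r], hR, ← e₁.sum_comp,
        Fintype.sum_prod_type, Finset.sum_comm]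
      simp only [Equiv.symm_apply_apply]
    rw [hRe]
    have hZ20 : 0 ≤ Z2 := Finset.sum_nonneg fun a _ => star_mul_self_nonneg _
    have hcoef : γ' * Cc + δ * (S.card * Fintype.card κ) ≤ γ := by
      have h1 : γ' * (2 * (Cc + 1)) = γ := div_mul_cancel₀ _ (by positivity)
      have h2 : δ * (2 * (S.card * Fintype.card κ + 1)) = γ := div_mul_cancel₀ _ (by positivity)
      nlinarith
    have hW20 : 0 ≤ W2 :=
      Finset.sum_nonneg fun l _ => Finset.sum_nonneg fun a _ => star_mul_self_nonneg _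
    have step : γ₁ • W2 ≤ (γ' * Cc) • Z2 := by
      rw [← smul_smul]
      exact (smul_le_smul_of_nonneg_right (min_le_left _ _) hW20).trans
        (smul_le_smul_of_nonneg_left hw2 hγ'.le)
    have hPR' : 0 ≤ P + (γ' * Cc) • Z2 + R :=
      hPR.trans (add_le_add (add_le_add le_rfl step) le_rfl)
    have a3 : 0 ≤ (2 * (γ - (γ' * Cc + δ * (S.card * Fintype.card κ)))) • Z2 :=
      smul_nonneg (by linarith) hZ20
    have two := add_nonneg (add_nonneg (smul_nonneg (zero_le_two : (0 : ℝ) ≤ 2) hPR') hE2) a3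
    have hPG : (2 : ℝ) • P = G + star G := by
      rw [hGG, ← Complex.coe_smul]; norm_num
    have h2x := smul_nonneg (inv_nonneg.2 zero_le_two : (0 : ℝ) ≤ 2⁻¹) two
    refine le_of_le_of_eq h2x ?_
    rw [smul_add (2 : ℝ), smul_add (2 : ℝ), hPG]
    module

end Vale.Agent.P095.Weak
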