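import Vale.Agent.P095.Weak.Defs
import Vale.Agent.P095.SI.Trace

/-!
P095 Weak: an element small in all traces is approximately dominated by sums `y* y` whose opposite
sums `y y*` are small.  The functional `a ↦ sup {f (∑ x* x) : ∑ x x* ≤ a}` attached to a separating
functional is additive and tracial.
-/

open scoped ComplexOrder ENNReal

namespace Vale.Agent.P095.Weak

set_option linter.unusedSectionVars false

variable {B : Type*} [CStarAlgebra B] [PartialOrder B] [StarOrderedRing B] {A : Submodule ℂ B}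
  {d : B}

/-! ### Opposite sums -/

/-- The sums `∑ x* x` of finite families from `A` with `∑ x x* ≤ a`. -/
def Val (A : Submodule ℂ B) (a : B) : Set B :=
  {m | ∃ (n : ℕ) (x : Fin n → B), (∀ i, x i ∈ A) ∧ ∑ i, x i * star (x i) ≤ a ∧
    ∑ i, star (x i) * x i = m}

theorem Val.zero {a : B} (ha : 0 ≤ a) : (0 : B) ∈ Val A a :=
  ⟨0, Fin.elim0, fun i => i.elim0, by simpa using ha, by simp⟩

theorem Val.nonneg {a m : B} (hm : m ∈ Val A a) : 0 ≤ m := by
  obtain ⟨n, x, -, -, rfl⟩ := hm
  exact Finset.sum_nonneg fun i _ => star_mul_self_nonneg _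

omit [StarOrderedRing B] in
theorem Val.mono {a a' m : B} (h : a ≤ a') (hm : m ∈ Val A a) : m ∈ Val A a' := by
  obtain ⟨n, x, h1, h2, h3⟩ := hm
  exact ⟨n, x, h1, h2.trans h, h3⟩

theorem Val.add {a a' m m' : B} (hm : m ∈ Val A a) (hm' : m' ∈ Val A a') :
    m + m' ∈ Val A (a + a') := by
  obtain ⟨n, x, h1, h2, rfl⟩ := hm
  obtain ⟨n', x', h1', h2', rfl⟩ := hm'
  refine ⟨n + n', Fin.append x x', fun i => ?_, ?_, ?_⟩
  · induction i using Fin.addCases with
    | left i => simpa using h1 i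
    | right i => simpa using h1' i
  · simpa [Fin.sum_univ_add] using add_le_add h2 h2'
  · simp [Fin.sum_univ_add]

theorem Val.smul {a m : B} {t : ℝ} (ht : 0 ≤ t) (hm : m ∈ Val A a) :
    t • m ∈ Val A (t • a) := by
  obtain ⟨n, x, h1, h2, rfl⟩ := hm
  refine ⟨n, fun i => Real.sqrt t • x i, fun i => ?_, ?_, ?_⟩
  · simp only
    rw [← Complex.coe_smul]
    exact A.smul_mem _ (h1 i)
  · simp only [star_smul, star_trivial, smul_mul_assoc, mul_smul_comm, smul_smul,
      Real.mul_self_sqrt ht, ← Finset.smul_sum]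
    exact smul_le_smul_of_nonneg_left h2 ht
  · simp only [star_smul, star_trivial, smul_mul_assoc, mul_smul_comm, smul_smul,
      Real.mul_self_sqrt ht, ← Finset.smul_sum]

theorem Val.conj (hA : SI.IsBimod A) {n : ℕ} {x : Fin n → B} (hx : ∀ i, x i ∈ A) {C C' w : B}
    (hC : ∑ i, x i * star (x i) ≤ C) (hw : w * C * star w ≤ C') :
    ∑ i, star (x i) * (star w * w) * x i ∈ Val A C' := by
  refine ⟨n, fun i => w * x i, fun i => (hA w _ (hx i)).1, le_trans ?_ hw, ?_⟩
  · calc ∑ i, w * x i * star (w * x i) = w * (∑ i, x i * star (x i)) * star w := by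
          simp only [star_mul, Finset.mul_sum, Finset.sum_mul, mul_assoc]
      _ ≤ _ := star_right_conjugate_le_conjugate hC w
  · simp only [star_mul, mul_assoc]

/-- A positive element is normalised by an inverse square root of a translate of it. -/
theorem exists_inv_sqrt {C : B} (hC : 0 ≤ C) {g : ℝ} (hg : 0 < g) :
    ∃ s : B, IsSelfAdjoint s ∧ s * (C + g • (1 : B)) * s = 1 := by
  have hCs : IsSelfAdjoint C := IsSelfAdjoint.of_nonneg hC
  set h : ℝ → ℝ := fun t => (Real.sqrt (max t 0 + g))⁻¹ with hh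
  have hc : Continuous h := by
    refine Continuous.inv₀ (by fun_prop) fun t => (Real.sqrt_pos.2 ?_).ne'
    have := le_max_right t 0
    linarith
  have c1 : Continuous fun t : ℝ => t + g := continuous_id.add continuous_const
  refine ⟨cfc h C, cfc_predicate _ _, ?_⟩
  have e : C + g • (1 : B) = cfc (fun t : ℝ => t + g) C := by
    rw [cfc_add C (fun t : ℝ => t) (fun _ : ℝ => g) continuous_id.continuousOn
      continuous_const.continuousOn, cfc_id' ℝ C hCs, cfc_const g C hCs,
      Algebra.algebraMap_eq_smul_one]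
  rw [e, ← cfc_mul h _ C hc.continuousOn c1.continuousOn,
    ← cfc_mul (fun t => h t * (t + g)) h C (hc.mul c1).continuousOn hc.continuousOn]
  refine (cfc_congr fun t ht => ?_).trans (cfc_const_one ℝ C hCs)
  have ht0 := spectrum_nonneg_of_nonneg hC ht
  have hp : 0 < t + g := by linarith
  have hs := Real.mul_self_sqrt hp.le
  have hs0 : Real.sqrt (t + g) ≠ 0 := (Real.sqrt_pos.2 hp).ne'
  simp only [hh, max_eq_left ht0]
  field_simp
  linear_combination (norm := ring_nf) -hs

/-- Without its clipped part an element is small. -/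
theorem norm_clipped_le {C s x : B} {g : ℝ} (hg : 0 < g) (hss : IsSelfAdjoint s)
    (hs : s * (C + g • (1 : B)) * s = 1) (hx : x * star x ≤ C) :
    ‖star x * x - star x * (s * C * s) * x‖ ≤ g := by
  have h1 : 1 - s * C * s = g • (s * s) := by
    rw [← hs]
    simp only [mul_add, add_mul, mul_smul_comm, smul_mul_assoc, mul_one]
    abel
  have e : star x * x - star x * (s * C * s) * x = g • (star (s * x) * (s * x)) := by
    have : star x * x - star x * (s * C * s) * x = star x * (1 - s * C * s) * x := by noncomm_ring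
    rw [this, h1, star_mul, hss.star_eq]
    simp only [mul_smul_comm, smul_mul_assoc, mul_assoc]
  have h2 : s * x * star (s * x) ≤ 1 := by
    calc s * x * star (s * x) = s * (x * star x) * s := by
          rw [star_mul, hss.star_eq]; simp only [mul_assoc]
      _ ≤ s * (C + g • (1 : B)) * s :=
        hss.conjugate_le_conjugate (hx.trans (le_add_of_nonneg_right (smul_nonneg hg.le zero_le_one)))
      _ = 1 := hs
  have h3 : ‖star (s * x) * (s * x)‖ ≤ 1 := by
    rw [CStarRing.norm_star_mul_self, ← CStarRing.norm_self_mul_star]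
    rcases subsingleton_or_nontrivial B with hB | hB
    · rw [Subsingleton.elim (s * x * star (s * x)) 0, norm_zero]; norm_num
    · exact (CStarAlgebra.norm_le_norm_of_nonneg_of_le (mul_star_self_nonneg _) h2).trans_eq
        CStarRing.norm_one
  rw [e, norm_smul, Real.norm_eq_abs, abs_of_pos hg]
  exact mul_le_of_le_one_right hg.le h3

theorem norm_sum_clipped_le {C s : B} {g : ℝ} (hg : 0 < g) (hss : IsSelfAdjoint s)
    (hs : s * (C + g • (1 : B)) * s = 1) {n : ℕ} {x : Fin n → B}
    (hx : ∑ i, x i * star (x i) ≤ C) :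
    ‖∑ i, star (x i) * x i - ∑ i, star (x i) * (s * C * s) * x i‖ ≤ n * g := by
  rw [← Finset.sum_sub_distrib]
  refine (norm_sum_le _ _).trans ((Finset.sum_le_sum fun i _ =>
    norm_clipped_le hg hss hs (le_trans ?_ hx)).trans (by simp))
  exact Finset.single_le_sum (f := fun i => x i * star (x i))
    (fun j _ => mul_star_self_nonneg _) (Finset.mem_univ i)

/-! ### The functional on positive elements -/

variable (f : B →L[ℝ] ℝ)

/-- The supremum of `f` on the opposite sums. -/
noncomputable def sup (A : Submodule ℂ B) (a : B) : ℝ≥0∞ :=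
  ⨆ m ∈ Val A a, ENNReal.ofReal (f m)

omit [StarOrderedRing B] in
theorem le_sup {a m : B} (hm : m ∈ Val A a) : ENNReal.ofReal (f m) ≤ sup f A a :=
  le_iSup₂ (f := fun m _ => ENNReal.ofReal (f m)) m hm

theorem sup_mono {a a' : B} (h : a ≤ a') : sup f A a ≤ sup f A a' :=
  iSup₂_le fun _ hm => le_sup f (Val.mono h hm)

theorem sup_zero : sup f A (0 : B) = 0 := by
  refine le_antisymm (iSup₂_le fun m hm => ?_) bot_le
  obtain ⟨n, x, -, h2, rfl⟩ := hm
  have h3 : ∀ i, x i = 0 := fun i => by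
    have h4 : x i * star (x i) ≤ 0 := le_trans (Finset.single_le_sum
      (f := fun i => x i * star (x i)) (fun j _ => mul_star_self_nonneg _) (Finset.mem_univ i)) h2
    exact (CStarRing.mul_star_self_eq_zero_iff _).1 (le_antisymm h4 (mul_star_self_nonneg _))
  simp [h3]

theorem sup_smul_le {t : ℝ} (ht : 0 < t) (a : B) :
    sup f A (t • a) ≤ ENNReal.ofReal t * sup f A a := by
  refine iSup₂_le fun m hm => ?_
  have h := Val.smul (inv_nonneg.2 ht.le) hm
  rw [inv_smul_smul₀ ht.ne'] at h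
  calc ENNReal.ofReal (f m) = ENNReal.ofReal t * ENNReal.ofReal (f (t⁻¹ • m)) := by
        rw [← ENNReal.ofReal_mul ht.le, map_smul, smul_eq_mul, mul_inv_cancel_left₀ ht.ne']
    _ ≤ _ := mul_le_mul' le_rfl (le_sup f h)

theorem sup_smul {t : ℝ} (ht : 0 ≤ t) (a : B) :
    sup f A (t • a) = ENNReal.ofReal t * sup f A a := by
  rcases ht.eq_or_lt with rfl | ht
  · simp [sup_zero]
  refine le_antisymm (sup_smul_le f ht a) ?_
  have h := sup_smul_le f (inv_pos.2 ht) (A := A) (t • a)
  rw [inv_smul_smul₀ ht.ne'] at h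
  calc ENNReal.ofReal t * sup f A a
      ≤ ENNReal.ofReal t * (ENNReal.ofReal t⁻¹ * sup f A (t • a)) := mul_le_mul' le_rfl h
    _ = _ := by
      rw [← mul_assoc, ← ENNReal.ofReal_mul ht.le, mul_inv_cancel₀ ht.ne', ENNReal.ofReal_one,
        one_mul]

variable {f} (hf : ∀ p : B, 0 ≤ p → 0 ≤ f p)

include hf

/-- A clipped family is almost as large under `f`. -/
theorem exists_clipped {n : ℕ} {x : Fin n → B} {C : B} (hC : 0 ≤ C)
    (hx : ∑ i, x i * star (x i) ≤ C) {ε : ℝ} (hε : 0 < ε) :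
    ∃ g : ℝ, 0 < g ∧ ∃ s : B, IsSelfAdjoint s ∧ s * (C + g • (1 : B)) * s = 1 ∧
      f (∑ i, star (x i) * x i) ≤ f (∑ i, star (x i) * (s * C * s) * x i) + ε := by
  have hg : 0 < ε / (n * ‖f‖ + 1) := by positivity
  obtain ⟨s, hss, hs⟩ := exists_inv_sqrt hC hg
  refine ⟨_, hg, s, hss, hs, ?_⟩
  have h1 := (le_abs_self _).trans_eq (Real.norm_eq_abs _).symm |>.trans
    ((f.le_opNorm (∑ i, star (x i) * x i - ∑ i, star (x i) * (s * C * s) * x i)).trans
      (mul_le_mul_of_nonneg_left (norm_sum_clipped_le hg hss hs hx) (norm_nonneg f)))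
  have h2 : ‖f‖ * (n * (ε / (n * ‖f‖ + 1))) ≤ ε := by
    rw [← mul_assoc, ← mul_div_assoc, div_le_iff₀ (by positivity)]
    nlinarith
  rw [map_sub] at h1
  linarith

theorem sup_add (hA : SI.IsBimod A) {a b : B} (ha : 0 ≤ a) (hb : 0 ≤ b) :
    sup f A (a + b) = sup f A a + sup f A b := by
  refine le_antisymm (iSup₂_le fun m hm => ?_) ?_
  · obtain ⟨n, x, hxA, hx, rfl⟩ := hm
    refine ENNReal.le_of_forall_pos_le_add fun ε hε _ => ?_
    obtain ⟨g, hg, s, hss, hs, he⟩ := exists_clipped hf (add_nonneg ha hb) hx (NNReal.coe_pos.2 hε)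
    have key : ∀ c : B, 0 ≤ c → ∑ i, star (x i) * (s * c * s) * x i ∈ Val A c := by
      intro c hc
      have hq := CFC.sqrt_mul_sqrt_self c hc
      have hqs : star (CFC.sqrt c) = CFC.sqrt c :=
        (IsSelfAdjoint.of_nonneg (CFC.sqrt_nonneg c)).star_eq
      have e : s * c * s = star (CFC.sqrt c * s) * (CFC.sqrt c * s) := by
        nth_rw 1 [← hq]
        rw [star_mul, hqs, hss.star_eq]
        simp only [mul_assoc]
      rw [e]
      refine Val.conj hA hxA hx ?_
      calc CFC.sqrt c * s * (a + b) * star (CFC.sqrt c * s)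
          = CFC.sqrt c * (s * (a + b) * s) * CFC.sqrt c := by
            rw [star_mul, hqs, hss.star_eq]; simp only [mul_assoc]
        _ ≤ CFC.sqrt c * (s * (a + b + g • (1 : B)) * s) * CFC.sqrt c :=
            (IsSelfAdjoint.of_nonneg (CFC.sqrt_nonneg c)).conjugate_le_conjugate
              (hss.conjugate_le_conjugate (le_add_of_nonneg_right (smul_nonneg hg.le zero_le_one)))
        _ = c := by rw [hs, mul_one, hq]
    have e2 : ∑ i, star (x i) * (s * (a + b) * s) * x i =
        ∑ i, star (x i) * (s * a * s) * x i + ∑ i, star (x i) * (s * b * s) * x i := by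
      simp only [mul_add, add_mul, Finset.sum_add_distrib]
    rw [e2, map_add] at he
    calc ENNReal.ofReal (f (∑ i, star (x i) * x i))
        ≤ ENNReal.ofReal (f (∑ i, star (x i) * (s * a * s) * x i)
          + f (∑ i, star (x i) * (s * b * s) * x i) + ε) := ENNReal.ofReal_le_ofReal he
      _ ≤ ENNReal.ofReal (f (∑ i, star (x i) * (s * a * s) * x i)) +
          ENNReal.ofReal (f (∑ i, star (x i) * (s * b * s) * x i)) + ENNReal.ofReal ε :=
        ENNReal.ofReal_add_le.trans (add_le_add ENNReal.ofReal_add_le le_rfl)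
      _ ≤ _ := add_le_add (add_le_add (le_sup f (key a ha)) (le_sup f (key b hb)))
        (le_of_eq (ENNReal.ofReal_coe_nnreal))
  · simp only [sup]
    refine ENNReal.biSup_add_biSup_le ⟨0, Val.zero ha⟩ ⟨0, Val.zero hb⟩ fun m hm m' hm' => ?_
    rw [← ENNReal.ofReal_add (hf _ (Val.nonneg hm)) (hf _ (Val.nonneg hm')), ← map_add]
    exact le_sup f (Val.add hm hm')

theorem sup_swap_le (hA : SI.IsBimod A) (z : B) :
    sup f A (z * star z) ≤ sup f A (star z * z) := by
  refine iSup₂_le fun m hm => ?_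
  obtain ⟨n, x, hxA, hx, rfl⟩ := hm
  refine ENNReal.le_of_forall_pos_le_add fun ε hε _ => ?_
  obtain ⟨g, hg, s, hss, hs, he⟩ :=
    exists_clipped hf (mul_star_self_nonneg z) hx (NNReal.coe_pos.2 hε)
  have key : ∑ i, star (x i) * (s * (z * star z) * s) * x i ∈ Val A (star z * z) := by
    have e : s * (z * star z) * s = star (star z * s) * (star z * s) := by
      rw [star_mul, star_star, hss.star_eq]; simp only [mul_assoc]
    rw [e]
    refine Val.conj hA hxA hx ?_
    calc star z * s * (z * star z) * star (star z * s)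
        = star z * (s * (z * star z) * s) * z := by
          rw [star_mul, star_star, hss.star_eq]; simp only [mul_assoc]
      _ ≤ star z * (s * (z * star z + g • (1 : B)) * s) * z :=
          star_left_conjugate_le_conjugate
            (hss.conjugate_le_conjugate (le_add_of_nonneg_right (smul_nonneg hg.le zero_le_one))) z
      _ = star z * z := by rw [hs, mul_one]
  exact (ENNReal.ofReal_le_ofReal he).trans (ENNReal.ofReal_add_le.trans
    (add_le_add (le_sup f key) (le_of_eq ENNReal.ofReal_coe_nnreal)))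

theorem sup_swap (hA : SI.IsBimod A) (z : B) : sup f A (z * star z) = sup f A (star z * z) :=
  le_antisymm (sup_swap_le hf hA z) (by simpa using sup_swap_le hf hA (star z))

theorem sup_gram_le (hA : SI.IsBimod A) (hd : IsSelfAdjoint d) (w : B) :
    sup f A (star (d * w) * (d * w)) ≤ ENNReal.ofReal (‖w‖ ^ 2) * sup f A (d * d) := by
  rw [← sup_swap hf hA, ← sup_smul f (sq_nonneg _)]
  refine sup_mono f ?_
  calc d * w * star (d * w) = d * (w * star w) * d := by
        rw [star_mul, hd.star_eq]; simp only [mul_assoc]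
    _ ≤ d * (algebraMap ℝ B (‖w‖ ^ 2)) * d := hd.conjugate_le_conjugate (by
        simpa using CStarAlgebra.star_mul_le_algebraMap_norm_sq (a := star w))
    _ = _ := by simp [Algebra.algebraMap_eq_smul_one]

/-! ### The trace -/

omit hf

/-- The positive elements on which the functional is finite. -/
def FinVal (f : B →L[ℝ] ℝ) (A : Submodule ℂ B) : Set B := {a | 0 ≤ a ∧ sup f A a ≠ ⊤}

/-- A decomposition into four elements of finite value. -/
def IsRep (f : B →L[ℝ] ℝ) (A : Submodule ℂ B) (p : B) (r : Fin 4 → B) : Prop :=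
  (∀ i, r i ∈ FinVal f A) ∧ p = (r 0 - r 1) + Complex.I • (r 2 - r 3)

/-- The value of a decomposition. -/
noncomputable def repVal (f : B →L[ℝ] ℝ) (A : Submodule ℂ B) (r : Fin 4 → B) : ℂ :=
  ((sup f A (r 0)).toReal - (sup f A (r 1)).toReal : ℝ) +
    Complex.I * ((sup f A (r 2)).toReal - (sup f A (r 3)).toReal : ℝ)

include hf

theorem toReal_sup_add (hA : SI.IsBimod A) {a b : B} (ha : a ∈ FinVal f A) (hb : b ∈ FinVal f A) :
    (sup f A (a + b)).toReal = (sup f A a).toReal + (sup f A b).toReal := by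
  rw [sup_add hf hA ha.1 hb.1, ENNReal.toReal_add ha.2 hb.2]

theorem fin_add (hA : SI.IsBimod A) {a b : B} (ha : a ∈ FinVal f A) (hb : b ∈ FinVal f A) :
    a + b ∈ FinVal f A :=
  ⟨add_nonneg ha.1 hb.1, by rw [sup_add hf hA ha.1 hb.1]; exact ENNReal.add_ne_top.2 ⟨ha.2, hb.2⟩⟩

omit hf in
theorem rep_parts {p : B} {r : Fin 4 → B} (h : IsRep f A p r) :
    p + star p = (2 : ℝ) • (r 0 - r 1) ∧ p - star p = Complex.I • ((2 : ℝ) • (r 2 - r 3)) := by
  have hs : ∀ i, star (r i) = r i := fun i => (IsSelfAdjoint.of_nonneg (h.1 i).1).star_eq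
  rw [h.2]
  simp only [star_add, star_sub, star_smul, hs, Complex.star_def, Complex.conj_I, two_smul,
    neg_smul, smul_add]
  constructor <;> abel

theorem repVal_eq (hA : SI.IsBimod A) {p : B} {r r' : Fin 4 → B} (h : IsRep f A p r)
    (h' : IsRep f A p r') : repVal f A r = repVal f A r' := by
  obtain ⟨h1, h2⟩ := rep_parts h
  obtain ⟨h1', h2'⟩ := rep_parts h'
  have e1 : r 0 - r 1 = r' 0 - r' 1 := smul_right_injective B two_ne_zero (h1.symm.trans h1')
  have e2 : r 2 - r 3 = r' 2 - r' 3 := smul_right_injective B two_ne_zero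
    (smul_right_injective B Complex.I_ne_zero (h2.symm.trans h2'))
  have key : ∀ i k : Fin 4, r i - r k = r' i - r' k →
      (sup f A (r i)).toReal - (sup f A (r k)).toReal =
        (sup f A (r' i)).toReal - (sup f A (r' k)).toReal := by
    intro i k hik
    have := congrArg (fun a => (sup f A a).toReal) (sub_eq_sub_iff_add_eq_add.1 hik)
    simp only [toReal_sup_add hf hA (h.1 _) (h'.1 _), toReal_sup_add hf hA (h'.1 _) (h.1 _)] at this
    linarith
  rw [repVal, repVal, key 0 1 e1, key 2 3 e2]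

/-- A linear extension of the functional. -/
theorem exists_ext (hA : SI.IsBimod A) : ∃ (D : Submodule ℂ B) (t : D →ₗ[ℂ] ℂ),
    (∀ p : B, p ∈ D ↔ ∃ r, IsRep f A p r) ∧
      ∀ (p : D) (r : Fin 4 → B), IsRep f A p r → t p = repVal f A r := by
  classical
  have h0 : (0 : B) ∈ FinVal f A := ⟨le_rfl, by simp [sup_zero]⟩
  have hsm : ∀ {a : B} {c : ℝ}, 0 ≤ c → a ∈ FinVal f A → c • a ∈ FinVal f A := fun hc ha =>
    ⟨smul_nonneg hc ha.1, by rw [sup_smul f hc]; exact ENNReal.mul_ne_top ENNReal.ofReal_ne_top ha.2⟩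
  have htr : ∀ {a : B} {c : ℝ}, 0 ≤ c → (sup f A (c • a)).toReal = c * (sup f A a).toReal :=
    fun hc => by rw [sup_smul f hc, ENNReal.toReal_mul, ENNReal.toReal_ofReal hc]
  have hadd : ∀ {p q : B} {r s}, IsRep f A p r → IsRep f A q s → IsRep f A (p + q) (r + s) ∧
      repVal f A (r + s) = repVal f A r + repVal f A s := by
    intro p q r s hr hs
    refine ⟨⟨fun i => fin_add hf hA (hr.1 i) (hs.1 i), ?_⟩, ?_⟩
    · rw [hr.2, hs.2]
      simp only [Pi.add_apply, smul_sub, smul_add]
      abel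
    · simp only [repVal, Pi.add_apply, toReal_sup_add hf hA (hr.1 _) (hs.1 _)]
      push_cast
      ring
  have hI : ∀ {p : B} {r}, IsRep f A p r → IsRep f A (Complex.I • p) ![r 3, r 2, r 0, r 1] ∧
      repVal f A ![r 3, r 2, r 0, r 1] = Complex.I * repVal f A r := by
    intro p r hr
    refine ⟨⟨fun i => by fin_cases i <;> simp [hr.1], ?_⟩, ?_⟩
    · rw [hr.2]
      simp only [Matrix.cons_val, smul_add, smul_smul, Complex.I_mul_I, neg_smul, one_smul]
      abel
    · simp only [repVal, Matrix.cons_val, mul_add, ← mul_assoc, Complex.I_mul_I]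
      push_cast
      ring
  have hreal : ∀ {p : B} {r} (c : ℝ), IsRep f A p r → ∃ s, IsRep f A (c • p) s ∧
      repVal f A s = c * repVal f A r := by
    intro p r c hr
    rcases le_total 0 c with hc | hc
    · refine ⟨c • r, ⟨fun i => hsm hc (hr.1 i), ?_⟩, ?_⟩
      · rw [hr.2]
        simp only [Pi.smul_apply, smul_add, smul_sub, smul_comm c]
      · simp only [repVal, Pi.smul_apply, htr hc]
        push_cast
        ring
    · refine ⟨(-c) • ![r 1, r 0, r 3, r 2], ⟨fun i => hsm (neg_nonneg.2 hc) ?_, ?_⟩, ?_⟩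
      · fin_cases i <;> simp [hr.1]
      · rw [hr.2]
        simp only [Pi.smul_apply, Matrix.cons_val, smul_add, smul_sub, smul_comm c, neg_smul]
        simp only [smul_comm Complex.I c, smul_neg]
        abel
      · simp only [repVal, Pi.smul_apply, Matrix.cons_val, htr (neg_nonneg.2 hc)]
        push_cast
        ring
  have hcplx : ∀ {p : B} {r} (c : ℂ), IsRep f A p r → ∃ s, IsRep f A (c • p) s ∧
      repVal f A s = c * repVal f A r := by
    intro p r c hr
    obtain ⟨s₁, a1, b1⟩ := hreal c.re hr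
    obtain ⟨s₂, a2, b2⟩ := hreal c.im (hI hr).1
    obtain ⟨a3, b3⟩ := hadd a1 a2
    have e : c.re • p + c.im • (Complex.I • p) = c • p := by
      rw [← Complex.coe_smul, ← Complex.coe_smul c.im, smul_smul, ← add_smul, Complex.re_add_im]
    refine ⟨s₁ + s₂, e ▸ a3, ?_⟩
    rw [b3, b1, b2, (hI hr).2, ← mul_assoc, ← add_mul, Complex.re_add_im]
  let D : Submodule ℂ B :=
    { carrier := {p | ∃ r, IsRep f A p r}
      zero_mem' := ⟨0, fun _ => h0, by simp⟩
      add_mem' := fun ⟨_, hr⟩ ⟨_, hs⟩ => ⟨_, (hadd hr hs).1⟩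
      smul_mem' := fun c _ ⟨_, hr⟩ => let ⟨s, hs, _⟩ := hcplx c hr; ⟨s, hs⟩ }
  have hD : ∀ p : D, ∃ r, IsRep f A p r := fun p => p.2
  choose R hR using hD
  refine ⟨D, ⟨⟨fun p => repVal f A (R p), fun p q => ?_⟩, fun c p => ?_⟩, fun p => Iff.rfl,
    fun p r hr => repVal_eq hf hA (hR p) hr⟩
  · rw [← (hadd (hR p) (hR q)).2]
    exact repVal_eq hf hA (hR _) (hadd (hR p) (hR q)).1
  · obtain ⟨s, hs, hv⟩ := hcplx c (hR p)
    exact (repVal_eq hf hA (hR _) hs).trans hv

omit hf

/-- Polarisation of `x * q * y`. -/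
theorem polar (x q y : B) :
    (4 : ℂ) • (x * q * y) = ∑ k : Fin 4, (-Complex.I) ^ (k : ℕ) •
      (star (star x + Complex.I ^ (k : ℕ) • y) * q * (star x + Complex.I ^ (k : ℕ) • y)) := by
  simp only [Fin.sum_univ_four, Fin.val_zero, Fin.val_one, Fin.val_two, show ((3 : Fin 4) : ℕ) = 3
    from rfl, pow_zero, pow_succ, star_add, star_star, star_smul, add_mul,
    mul_add, smul_mul_assoc, mul_smul_comm, smul_add, smul_smul, Complex.star_def, map_mul,
    map_one, Complex.conj_I, one_mul, mul_one]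
  match_scalars <;> ring_nf <;> simp [Complex.I_sq] <;> ring

/-- Polarisation with the outer factors exchanged. -/
theorem polar' (x q y : B) :
    (4 : ℂ) • (q * (y * x) * q) = ∑ k : Fin 4, (-Complex.I) ^ (k : ℕ) •
      (q * ((star x + Complex.I ^ (k : ℕ) • y) * star (star x + Complex.I ^ (k : ℕ) • y)) * q) := by
  simp only [Fin.sum_univ_four, Fin.val_zero, Fin.val_one, Fin.val_two, show ((3 : Fin 4) : ℕ) = 3
    from rfl, pow_zero, pow_succ, star_add, star_star, star_smul, add_mul,
    mul_add, smul_mul_assoc, mul_smul_comm, smul_add, smul_smul, Complex.star_def, map_mul,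
    map_one, Complex.conj_I, one_mul, mul_one]
  match_scalars <;> ring_nf <;> simp [Complex.I_sq] <;> ring

include hf

/-- The functional extends to a trace. -/
theorem exists_trace (S : SI.Setup (genIdeal d) A d) (hd2 : sup f A (d * d) ≠ ⊤) :
    ∃ τ : genIdeal d →ₗ[ℂ] ℂ, SI.IsTraceOn (genIdeal d) τ ∧
      ∀ (p : B) (hp : p ∈ genIdeal d), 0 ≤ p →
        sup f A p ≠ ⊤ ∧ τ ⟨p, hp⟩ = ((sup f A p).toReal : ℂ) := by
  classical
  have hA := S.simple.2.1
  have hd : IsSelfAdjoint d := IsSelfAdjoint.of_nonneg S.d_nonneg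
  obtain ⟨D, t, hDr, ht⟩ := exists_ext hf hA
  have h0 : (0 : B) ∈ FinVal f A := ⟨le_rfl, by simp [sup_zero]⟩
  have one : ∀ {a : B}, a ∈ FinVal f A → IsRep f A a ![a, 0, 0, 0] := fun ha =>
    ⟨fun i => by fin_cases i <;> simp [ha, h0], by simp⟩
  have hfin : ∀ w : B, star (d * w) * (d * w) ∈ FinVal f A := fun w =>
    ⟨star_mul_self_nonneg _, ne_top_of_le_ne_top (ENNReal.mul_ne_top ENNReal.ofReal_ne_top hd2)
      (sup_gram_le hf hA hd w)⟩
  have hfin' : ∀ w : B, d * w * star (d * w) ∈ FinVal f A := fun w =>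
    ⟨mul_star_self_nonneg _, by rw [sup_swap hf hA]; exact (hfin w).2⟩
  have memD : ∀ {a : B}, a ∈ FinVal f A → a ∈ D := fun ha => (hDr _).2 ⟨_, one ha⟩
  have tval : ∀ {a : B} (ha : a ∈ FinVal f A), t ⟨a, memD ha⟩ = ((sup f A a).toReal : ℂ) := by
    intro a ha
    rw [ht _ _ (one ha)]
    simp [repVal, sup_zero]
  have gen : ∀ x y : B, ∃ (h : x * (d * d) * y ∈ D) (h' : d * (y * x) * d ∈ D),
      t ⟨_, h⟩ = t ⟨_, h'⟩ := by
    intro x y
    set w : Fin 4 → B := fun k => star x + Complex.I ^ (k : ℕ) • y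
    have e1 : ∀ k, star (d * w k) * (d * w k) = star (w k) * (d * d) * w k := fun k => by
      rw [star_mul, hd.star_eq]; simp only [mul_assoc]
    have e2 : ∀ k, d * w k * star (d * w k) = d * (w k * star (w k)) * d := fun k => by
      rw [star_mul, hd.star_eq]; simp only [mul_assoc]
    set X : D := (4 : ℂ)⁻¹ • ∑ k : Fin 4, (-Complex.I) ^ (k : ℕ) •
      (⟨_, memD (hfin (w k))⟩ : D) with hX
    set Y : D := (4 : ℂ)⁻¹ • ∑ k : Fin 4, (-Complex.I) ^ (k : ℕ) •
      (⟨_, memD (hfin' (w k))⟩ : D) with hY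
    have eX : (X : B) = x * (d * d) * y := by
      rw [hX, Submodule.coe_smul, Submodule.coe_sum]
      simp only [Submodule.coe_smul, e1]
      rw [← polar, inv_smul_smul₀ (by norm_num : (4 : ℂ) ≠ 0)]
    have eY : (Y : B) = d * (y * x) * d := by
      rw [hY, Submodule.coe_smul, Submodule.coe_sum]
      simp only [Submodule.coe_smul, e2]
      rw [← polar', inv_smul_smul₀ (by norm_num : (4 : ℂ) ≠ 0)]
    refine ⟨eX ▸ X.2, eY ▸ Y.2, ?_⟩
    have h : t X = t Y := by
      simp only [hX, hY, map_smul, map_sum]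
      refine congrArg _ (Finset.sum_congr rfl fun k _ => ?_)
      rw [tval (hfin _), tval (hfin' _), sup_swap hf hA]
    rwa [show X = ⟨_, eX ▸ X.2⟩ from Subtype.ext eX,
      show Y = ⟨_, eY ▸ Y.2⟩ from Subtype.ext eY] at h
  have hPD : genIdeal d ≤ D :=
    Submodule.span_le.2 (Set.range_subset_iff.2 fun p => (gen p.1 p.2).1)
  have pos : ∀ p ∈ genIdeal d, 0 ≤ p → p ∈ FinVal f A := by
    intro p hp hp0
    obtain ⟨r, hr⟩ := (hDr p).1 (hPD hp)
    have h1 := (rep_parts hr).1
    rw [(IsSelfAdjoint.of_nonneg hp0).star_eq, ← two_smul ℝ p] at h1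
    have h2 : p ≤ r 0 := by
      rw [smul_right_injective B two_ne_zero h1]
      exact sub_le_self _ (hr.1 1).1
    exact ⟨hp0, ne_top_of_le_ne_top (hr.1 0).2 (sup_mono f h2)⟩
  refine ⟨t.comp (Submodule.inclusion hPD), ⟨?_, fun p h => ?_⟩,
    fun p hp hp0 => ⟨(pos p hp hp0).2, tval (pos p hp hp0)⟩⟩
  · rintro ⟨p, hp⟩ b
    induction hp using Submodule.span_induction generalizing b with
    | mem p hp =>
      obtain ⟨⟨x, y⟩, rfl⟩ := hp
      intro h h'
      obtain ⟨_, _, a⟩ := gen x (y * b)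
      obtain ⟨_, _, a'⟩ := gen (b * x) y
      simp only [LinearMap.comp_apply, Submodule.inclusion_apply, mul_assoc] at a a' ⊢
      exact a.trans a'.symm
    | zero =>
      intro h h'
      simp
    | add p q hp hq ihp ihq =>
      intro h h'
      have := congrArg₂ (· + ·) (ihp b (S.bimod b p hp).2 (S.bimod b p hp).1)
        (ihq b (S.bimod b q hq).2 (S.bimod b q hq).1)
      simp only [← map_add] at this
      simpa [add_mul, mul_add] using this
    | smul c p hp ihp =>
      intro h h'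
      have := congrArg (c • ·) (ihp b (S.bimod b p hp).2 (S.bimod b p hp).1)
      simp only [← map_smul] at this
      simpa [smul_mul_assoc, mul_smul_comm] using this
  · simp only [LinearMap.comp_apply, Submodule.inclusion_apply]
    rw [tval (pos _ h (star_mul_self_nonneg _))]
    exact Complex.zero_le_real.2 ENNReal.toReal_nonneg

omit hf

/-- The square root stays in a closed ideal. -/
theorem sqrt_mem (hcl : IsClosed (A : Set B)) (hA : SI.IsBimod A) {e : B} (he : e ∈ A)
    (he0 : 0 ≤ e) : CFC.sqrt e ∈ A := by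
  refine hcl.closure_subset (Metric.mem_closure_iff.2 fun ε hε => ?_)
  have hes : IsSelfAdjoint e := IsSelfAdjoint.of_nonneg he0
  set δ := (ε / 2) ^ 2 with hδ
  have hδ0 : 0 < δ := by positivity
  set k : ℝ → ℝ := fun t => (Real.sqrt (max t δ))⁻¹ with hk
  have ck : Continuous k := Continuous.inv₀ (by fun_prop) fun t =>
    (Real.sqrt_pos.2 (hδ0.trans_le (le_max_right t δ))).ne'
  refine ⟨e * cfc k e, (hA _ _ he).2, ?_⟩
  have e1 : e * cfc k e = cfc (fun t => t * k t) e := by
    rw [cfc_mul (fun t : ℝ => t) k e continuous_id.continuousOn ck.continuousOn, cfc_id' ℝ e hes]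
  have e2 : CFC.sqrt e = cfc Real.sqrt e := by
    rw [CFC.sqrt_eq_real_sqrt e he0, cfcₙ_eq_cfc]
  rw [dist_eq_norm, e1, e2, ← cfc_sub Real.sqrt (fun t => t * k t) e
    Real.continuous_sqrt.continuousOn (continuous_id.mul ck).continuousOn]
  refine (norm_cfc_le (c := ε / 2) (by positivity) fun t ht => ?_).trans_lt (half_lt_self hε)
  have ht0 := spectrum_nonneg_of_nonneg he0 ht
  rw [Real.norm_eq_abs, hk]
  rcases le_total δ t with h | h
  · simp only [max_eq_left h]
    rw [← div_eq_mul_inv, Real.div_sqrt, sub_self, abs_zero]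
    positivity
  · simp only [max_eq_right h]
    have h1 : Real.sqrt δ = ε / 2 := Real.sqrt_sq (by positivity)
    have h2 : Real.sqrt t ≤ ε / 2 := h1 ▸ Real.sqrt_le_sqrt h
    have h3 := Real.sqrt_nonneg t
    have h4 : t * (Real.sqrt δ)⁻¹ ≤ Real.sqrt t := by
      rw [← div_eq_mul_inv, div_le_iff₀ (Real.sqrt_pos.2 hδ0)]
      calc t = Real.sqrt t * Real.sqrt t := (Real.mul_self_sqrt ht0).symm
        _ ≤ Real.sqrt t * Real.sqrt δ := mul_le_mul_of_nonneg_left (Real.sqrt_le_sqrt h) h3
    have h5 : 0 ≤ t * (Real.sqrt δ)⁻¹ := by positivity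
    rw [abs_le]
    constructor <;> linarith

/-- A trace vanishing at `d * d` vanishes on the generators. -/
theorem gen_zero {f : B →L[ℝ] ℝ} (hf : ∀ p : B, 0 ≤ p → 0 ≤ f p)
    (S : SI.Setup (genIdeal d) A d) {τ : genIdeal d →ₗ[ℂ] ℂ} 
    (hval : ∀ (p : B) (hp : p ∈ genIdeal d), 0 ≤ p →
      sup f A p ≠ ⊤ ∧ τ ⟨p, hp⟩ = ((sup f A p).toReal : ℂ))
    (hdf : sup f A (d * d) ≠ ⊤) (h0 : (sup f A (d * d)).toReal = 0) (x y : B)
    {hxy : x * (d * d) * y ∈ genIdeal d} : τ ⟨x * (d * d) * y, hxy⟩ = 0 := by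
  have hd : IsSelfAdjoint d := IsSelfAdjoint.of_nonneg S.d_nonneg
  have hz : sup f A (d * d) = 0 := ((ENNReal.toReal_eq_zero_iff _).1 h0).resolve_right hdf
  have hw : ∀ w : B, star (d * w) * (d * w) ∈ genIdeal d := fun w => by
    rw [star_mul, hd.star_eq]
    exact Submodule.subset_span ⟨(star w, w), by simp only [mul_assoc]⟩
  have hv : ∀ w : B, τ ⟨_, hw w⟩ = 0 := fun w => by
    rw [(hval _ (hw w) (star_mul_self_nonneg _)).2]
    have := sup_gram_le hf S.simple.2.1 hd w
    rw [hz, mul_zero] at this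
    rw [le_antisymm this bot_le]; simp
  have e : (4 : ℂ) • (⟨x * (d * d) * y, hxy⟩ : genIdeal d) = ∑ k : Fin 4, (-Complex.I) ^ (k : ℕ) •
      ⟨_, hw (star x + Complex.I ^ (k : ℕ) • y)⟩ := by
    apply Subtype.ext
    simp only [Submodule.coe_smul, Submodule.coe_sum, polar]
    simp only [star_mul, hd.star_eq, mul_assoc]
  have := congrArg τ e
  simp only [map_smul, map_sum, hv, smul_eq_mul, mul_zero, Finset.sum_const_zero] at this
  exact (mul_eq_zero.1 this).resolve_left (by norm_num)

/-- An element small in all traces is approximately dominated by opposite sums. -/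
theorem exists_dual (S : SI.Setup (genIdeal d) A d) {e b : B} (he : e ∈ genIdeal d)
    (hb : b ∈ genIdeal d) (he0 : 0 ≤ e) (hb0 : 0 ≤ b) {β θ γ : ℝ} (hβ : 0 < β) (hθ : 0 < θ)
    (hγ : 0 < γ)
    (h : ∀ τ, SI.IsNormTrace (genIdeal d) d τ → (τ ⟨e, he⟩).re ≤ β * (τ ⟨b, hb⟩).re) :
    ∃ (I J : ℕ) (x : Fin I → B) (y : Fin J → B), (∀ i, x i ∈ A) ∧ (∀ j, y j ∈ A) ∧
      ∑ i, star (x i) * x i + ∑ j, star (y j) * y j ≤ e ∧
      e - γ • (1 : B) ≤ ∑ i, star (x i) * x i + ∑ j, star (y j) * y j ∧
      ∑ i, x i * star (x i) ≤ θ • (d * d) ∧ ∑ j, y j * star (y j) ≤ β • b := by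
  classical
  have hA := S.simple.2.1
  have hd : IsSelfAdjoint d := IsSelfAdjoint.of_nonneg S.d_nonneg
  have hdd : 0 ≤ d * d := hd.mul_self_nonneg
  set K : Set B := {z | ∃ m ∈ Val A (θ • (d * d)), ∃ m' ∈ Val A (β • b), z ≤ m + m'} with hK
  by_cases hc : e ∈ closure K
  · obtain ⟨z, ⟨m, ⟨I, x, hxA, hx, rfl⟩, m', ⟨J, y, hyA, hy, rfl⟩, hz⟩, hze⟩ :=
      Metric.mem_closure_iff.1 hc γ hγ
    rw [dist_eq_norm] at hze
    set G := ∑ i, star (x i) * x i + ∑ j, star (y j) * y j with hG
    have hG0 : 0 ≤ G := add_nonneg (Finset.sum_nonneg fun i _ => star_mul_self_nonneg _)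
      (Finset.sum_nonneg fun i _ => star_mul_self_nonneg _)
    have heG : e ≤ G + γ • (1 : B) := by
      have hsa : IsSelfAdjoint (e - z) := by
        have h1 := IsSelfAdjoint.of_nonneg (sub_nonneg.2 hz)
        have h2 := ((IsSelfAdjoint.of_nonneg hG0).sub h1)
        rw [sub_sub_cancel] at h2
        exact (IsSelfAdjoint.of_nonneg he0).sub h2
      have h3 := hsa.le_algebraMap_norm_self.trans
        ((Algebra.algebraMap_eq_smul_one ‖e - z‖).le.trans
          (smul_le_smul_of_nonneg_right hze.le zero_le_one))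
      exact sub_le_iff_le_add'.1 h3 |>.trans (add_le_add hz le_rfl)
    obtain ⟨s, hss, hs⟩ := exists_inv_sqrt hG0 hγ
    have hq := CFC.sqrt_mul_sqrt_self e he0
    have hqs : star (CFC.sqrt e) = CFC.sqrt e :=
      (IsSelfAdjoint.of_nonneg (CFC.sqrt_nonneg e)).star_eq
    set r := s * CFC.sqrt e with hr
    have hrr : r * star r ≤ 1 := by
      calc r * star r = s * e * s := by
            rw [hr, star_mul, hqs, hss.star_eq]
            nth_rw 3 [← hq]
            simp only [mul_assoc]
        _ ≤ s * (G + γ • (1 : B)) * s := hss.conjugate_le_conjugate heG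
        _ = 1 := hs
    have hrr' : star r * r ≤ 1 := by
      have h1 : ‖r‖ ^ 2 ≤ 1 := by
        rw [sq, ← CStarRing.norm_self_mul_star]
        rcases subsingleton_or_nontrivial B with hB | hB
        · simp [Subsingleton.elim (r * star r) 0]
        · exact (CStarAlgebra.norm_le_norm_of_nonneg_of_le (mul_star_self_nonneg _) hrr).trans_eq
            CStarRing.norm_one
      refine CStarAlgebra.star_mul_le_algebraMap_norm_sq.trans ?_
      rw [Algebra.algebraMap_eq_smul_one]
      exact (smul_le_smul_of_nonneg_right h1 zero_le_one).trans_eq (one_smul ℝ _)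
    have eG : star r * G * r = e - γ • (star r * r) := by
      calc star r * G * r = star r * (G + γ • (1 : B)) * r - γ • (star r * r) := by
            simp only [mul_add, add_mul, mul_smul_comm, smul_mul_assoc, mul_one, add_sub_cancel_right]
        _ = _ := by
          congr 1
          rw [hr, star_mul, hqs, hss.star_eq]
          calc CFC.sqrt e * s * (G + γ • (1 : B)) * (s * CFC.sqrt e)
              = CFC.sqrt e * (s * (G + γ • (1 : B)) * s) * CFC.sqrt e := by simp only [mul_assoc]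
            _ = e := by rw [hs, mul_one, hq]
    have esum : ∑ i, star (x i * r) * (x i * r) + ∑ j, star (y j * r) * (y j * r) =
        e - γ • (star r * r) := by
      rw [← eG, hG]
      simp only [mul_add, add_mul, Finset.mul_sum, Finset.sum_mul, star_mul, mul_assoc]
    have hrow : ∀ u : B, u * r * star (u * r) ≤ u * star u := fun u => by
      calc u * r * star (u * r) = u * (r * star r) * star u := by
            simp only [star_mul, mul_assoc]
        _ ≤ u * 1 * star u := star_right_conjugate_le_conjugate hrr u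
        _ = _ := by rw [mul_one]
    refine ⟨I, J, fun i => x i * r, fun j => y j * r, fun i => (hA r _ (hxA i)).2,
      fun j => (hA r _ (hyA j)).2, ?_, ?_, le_trans (Finset.sum_le_sum fun i _ => hrow (x i)) hx,
      le_trans (Finset.sum_le_sum fun j _ => hrow (y j)) hy⟩
    · rw [esum]
      exact sub_le_self _ (smul_nonneg hγ.le (star_mul_self_nonneg r))
    · rw [esum]
      exact sub_le_sub_left (smul_le_smul_of_nonneg_left hrr' hγ.le) _
  exfalso
  have hθd : 0 ≤ θ • (d * d) := smul_nonneg hθ.le hdd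
  have hβb : 0 ≤ β • b := smul_nonneg hβ.le hb0
  have hconv : Convex ℝ K := by
    rintro z ⟨m, hm, m', hm', hz⟩ z' ⟨n, hn, n', hn', hz'⟩ p q hp hq hpq
    have e1 : ∀ a : B, p • a + q • a = a := fun a => by rw [← add_smul, hpq, one_smul]
    refine ⟨p • m + q • n, e1 (θ • (d * d)) ▸ Val.add (Val.smul hp hm) (Val.smul hq hn), p • m' + q • n',
      e1 (β • b) ▸ Val.add (Val.smul hp hm') (Val.smul hq hn'), ?_⟩
    calc p • z + q • z' ≤ p • (m + m') + q • (n + n') :=
          add_le_add (smul_le_smul_of_nonneg_left hz hp) (smul_le_smul_of_nonneg_left hz' hq)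
      _ = _ := by simp only [smul_add]; abel
  obtain ⟨f, c, hfc, hce⟩ := geometric_hahn_banach_closed_point hconv.closure isClosed_closure hc
  have hK0 : ∀ z, z ≤ 0 → z ∈ K := fun z hz =>
    ⟨0, Val.zero hθd, 0, Val.zero hβb, by simpa using hz⟩
  have hc0 : 0 < c := by simpa using hfc 0 (subset_closure (hK0 0 le_rfl))
  have hf : ∀ p : B, 0 ≤ p → 0 ≤ f p := by
    intro p hp
    by_contra hn
    have h1 := hfc _ (subset_closure (hK0 (((c + 1) / f p) • p) (smul_nonpos_of_nonpos_of_nonneg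
      (div_nonpos_of_nonneg_of_nonpos (by linarith) (le_of_not_ge hn)) hp)))
    rw [map_smul, smul_eq_mul, div_mul_cancel₀ _ (fun h0 => hn h0.ge)] at h1
    linarith
  have hbd : ∀ (a : B), (∀ m ∈ Val A a, f m ≤ c) → sup f A a ≤ ENNReal.ofReal c := fun a ha =>
    iSup₂_le fun m hm => ENNReal.ofReal_le_ofReal (ha m hm)
  have hd2 : sup f A (θ • (d * d)) ≤ ENNReal.ofReal c := hbd _ fun m hm =>
    (hfc m (subset_closure ⟨m, hm, 0, Val.zero hβb, by simp⟩)).le
  have hb2 : sup f A (β • b) ≤ ENNReal.ofReal c := hbd _ fun m hm =>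
    (hfc m (subset_closure ⟨0, Val.zero hθd, m, hm, by simp⟩)).le
  have hdf : sup f A (d * d) ≠ ⊤ := by
    intro ht
    rw [sup_smul f hθ.le, ht, ENNReal.mul_top (by simpa using hθ)] at hd2
    exact ENNReal.ofReal_ne_top (top_le_iff.1 hd2)
  obtain ⟨τ, hτ, hval⟩ := exists_trace hf S hdf
  obtain ⟨hef, hte⟩ := hval e he he0
  obtain ⟨hbf, htb⟩ := hval b hb hb0
  set T := fun a => (sup f A a).toReal with hT
  have hbc : β * T b ≤ c := by
    have := ENNReal.toReal_le_of_le_ofReal hc0.le hb2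
    rwa [sup_smul f hβ.le, ENNReal.toReal_mul, ENNReal.toReal_ofReal hβ.le] at this
  -- `f e` is at most the value at `e`
  have hfe : f e ≤ T e := by
    have hq := CFC.sqrt_mul_sqrt_self e he0
    have hqs : star (CFC.sqrt e) = CFC.sqrt e :=
      (IsSelfAdjoint.of_nonneg (CFC.sqrt_nonneg e)).star_eq
    have hm : e ∈ Val A e :=
      ⟨1, fun _ => CFC.sqrt e, fun _ => sqrt_mem S.simple.1 hA (S.le he) he0,
        by simp [hqs, hq], by simp [hqs, hq]⟩
    have := ENNReal.toReal_mono hef (le_sup f hm)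
    rwa [ENNReal.toReal_ofReal (hf _ he0)] at this
  rcases (ENNReal.toReal_nonneg : 0 ≤ T (d * d)).eq_or_lt with h0 | h0
  · have hz : T e = 0 := by
      have hzero : ∀ (p : B) (hp : p ∈ genIdeal d), τ ⟨p, hp⟩ = 0 := by
        intro p hp
        induction hp using Submodule.span_induction with
        | mem p hp =>
          obtain ⟨⟨x, y⟩, rfl⟩ := hp
          refine gen_zero hf S hval hdf h0.symm x y
        | zero => exact map_zero τ
        | add p q hp hq ihp ihq =>
          rw [show (⟨p + q, _⟩ : genIdeal d) = ⟨p, hp⟩ + ⟨q, hq⟩ from rfl, map_add, ihp, ihq,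
            add_zero]
        | smul r p hp ihp =>
          rw [show (⟨r • p, _⟩ : genIdeal d) = r • ⟨p, hp⟩ from rfl, map_smul, ihp, smul_zero]
      have := hte.symm.trans (hzero e he)
      exact_mod_cast this
    linarith
  have hdP : d * d ∈ genIdeal d := (S.bimod d d S.d_mem).1
  have hnorm : SI.IsNormTrace (genIdeal d) d ((((T (d * d))⁻¹ : ℝ) : ℂ) • τ) := by
    refine ⟨⟨fun p b u v => ?_, fun p u => ?_⟩, fun u => ?_⟩
    · simp only [LinearMap.smul_apply, smul_eq_mul, hτ.1 p b u v]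
    · simp only [LinearMap.smul_apply, smul_eq_mul]
      exact mul_nonneg (Complex.zero_le_real.2 (inv_nonneg.2 h0.le)) (hτ.2 p u)
    · have e1 : star d * d = d * d := by rw [hd.star_eq]
      rw [LinearMap.smul_apply, show (⟨star d * d, u⟩ : genIdeal d) = ⟨d * d, hdP⟩ from
        Subtype.ext e1, (hval _ hdP hdd).2, smul_eq_mul, ← Complex.ofReal_mul, Complex.ofReal_re]
      exact inv_mul_cancel₀ h0.ne'
  have := h _ hnorm
  simp only [LinearMap.smul_apply, hte, htb, smul_eq_mul, ← Complex.ofReal_mul,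
    Complex.ofReal_re] at this
  rw [← mul_assoc, mul_comm β, mul_assoc] at this
  linarith [(le_of_mul_le_mul_left this (inv_pos.2 h0)).trans hbc]

end Vale.Agent.P095.Weak
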