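import Vale.Agent.P095.Weak.Defs

/-!
P095 Weak: a rectangular operator with free unitary entries is almost bounded below by its column
squares when its row squares are small.
-/

open scoped ComplexOrder

namespace Vale.Agent.P095.Weak

variable {B : Type*} [CStarAlgebra B] [PartialOrder B] [StarOrderedRing B]
  {ι κ ρ : Type*} [Fintype ι] [DecidableEq ι] [Fintype κ] [DecidableEq κ] [Fintype ρ]
  [DecidableEq ρ]

/-- The kernel of `T* T` for `T = ∑ u, y u ⊗ u` placed at `(row u, col u)`. -/
noncomputable def kerY (row : ι → ρ) (col : ι → κ) (y : ι → B) (t : FreeGroup ι) (k k' : κ) : B :=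
  ∑ u, ∑ u', if row u = row u' ∧ col u = k ∧ col u' = k' ∧
    (FreeGroup.of u)⁻¹ * FreeGroup.of u' = t then star (y u) * y u' else 0

/-- The column squares. -/
noncomputable def colGram (col : ι → κ) (y : ι → B) (k : κ) : B :=
  ∑ u, if col u = k then star (y u) * y u else 0

omit [Fintype ι] [DecidableEq ι] in
/-- A row bounded by `σ` maps a column to something bounded by `σ` times its column square. -/
theorem star_sum_mul_sum_le {σ : ℝ} (hσ0 : 0 ≤ σ) {J : Finset ι} {y x : ι → B}
    (hy : ‖∑ u ∈ J, y u * star (y u)‖ ≤ σ) :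
    star (∑ u ∈ J, y u * x u) * (∑ u ∈ J, y u * x u) ≤ σ • ∑ u ∈ J, star (x u) * x u := by
  set Y := ∑ u ∈ J, y u * star (y u) with hY
  set s := ∑ u ∈ J, y u * x u with hs
  set X := ∑ u ∈ J, star (x u) * x u with hX
  have hY0 : 0 ≤ Y := Finset.sum_nonneg fun u _ => mul_star_self_nonneg _
  rcases hσ0.eq_or_lt with h0 | hσ
  · have hy0 : ∀ u ∈ J, y u = 0 := fun u hu => by
      have h1 : ‖y u * star (y u)‖ ≤ ‖Y‖ := CStarAlgebra.norm_le_norm_of_nonneg_of_le
        (mul_star_self_nonneg _) (Finset.single_le_sum (fun v _ => mul_star_self_nonneg (y v)) hu)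
      rw [CStarRing.norm_self_mul_star, ← norm_star] at h1
      rw [← norm_eq_zero, ← norm_star]
      nlinarith [norm_nonneg (star (y u))]
    have : s = 0 := Finset.sum_eq_zero fun u hu => by rw [hy0 u hu, zero_mul]
    simp [this, ← h0]
  have e : ∑ u ∈ J, star (star (y u) * s - σ • x u) * (star (y u) * s - σ • x u) =
      star s * Y * s - σ • (star s * s) - σ • (star s * s) + (σ * σ) • X := by
    have e1 : ∀ u, star (star (y u) * s - σ • x u) * (star (y u) * s - σ • x u) =
        star s * (y u * star (y u)) * s - σ • (star s * (y u * x u)) -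
          σ • (star (y u * x u) * s) + (σ * σ) • (star (x u) * x u) := fun u => by
      simp only [star_sub, star_mul, star_star, star_smul, star_trivial, sub_mul, mul_sub,
        mul_smul_comm, smul_mul_assoc, smul_sub, smul_smul, mul_assoc]
      abel
    simp only [e1, Finset.sum_add_distrib, Finset.sum_sub_distrib, ← Finset.smul_sum,
      ← Finset.mul_sum, ← Finset.sum_mul, ← star_sum, ← hY, ← hX, ← hs]
  have h0 : 0 ≤ star s * Y * s - σ • (star s * s) - σ • (star s * s) + (σ * σ) • X :=
    e ▸ Finset.sum_nonneg fun u _ => star_mul_self_nonneg _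
  have h1 : star s * Y * s ≤ σ • (star s * s) := by
    have hle : Y ≤ algebraMap ℝ B σ :=
      (IsSelfAdjoint.le_algebraMap_norm_self (ha := IsSelfAdjoint.of_nonneg hY0)).trans
        (by simp only [Algebra.algebraMap_eq_smul_one]; exact smul_le_smul_of_nonneg_right hy zero_le_one)
    refine (star_left_conjugate_le_conjugate hle s).trans_eq ?_
    rw [Algebra.algebraMap_eq_smul_one, mul_smul_comm, smul_mul_assoc, mul_one]
  have h2 : 0 ≤ σ • (σ • X - star s * s) := by
    have h3 : 0 ≤ (σ * σ) • X - σ • (star s * s) :=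
      h0.trans (by
        calc star s * Y * s - σ • (star s * s) - σ • (star s * s) + (σ * σ) • X
            ≤ σ • (star s * s) - σ • (star s * s) - σ • (star s * s) + (σ * σ) • X := by
              gcongr
          _ = _ := by abel)
    rwa [smul_sub, smul_smul]
  have := smul_nonneg (inv_nonneg.2 hσ.le) h2
  rw [smul_smul, inv_mul_cancel₀ hσ.ne', one_smul] at this
  exact sub_nonneg.1 this

/-- The product `u * h` cancels: the reduced word of `h` starts with the inverse of `u`. -/
def Cancels (u : ι) (h : FreeGroup ι) : Prop := h.toWord.head? = some (u, false)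

omit [Fintype ι] in
theorem toWord_of_mul {u : ι} {h : FreeGroup ι} (hc : ¬ Cancels u h) :
    (FreeGroup.of u * h).toWord = (u, true) :: h.toWord := by
  rw [FreeGroup.toWord_mul, FreeGroup.toWord_of, List.singleton_append, FreeGroup.reduce.cons,
    FreeGroup.reduce_toWord]
  rw [Cancels] at hc
  cases hw : h.toWord with
  | nil => rfl
  | cons hd tl =>
    rw [hw] at hc
    refine if_neg ?_
    rintro ⟨h1, h2⟩
    apply hc
    rcases hd with ⟨a, b⟩
    cases b <;> simp_all

omit [Fintype ι] in
theorem eq_of_not_cancels {u u' : ι} {h h' : FreeGroup ι} (hc : ¬ Cancels u h)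
    (hc' : ¬ Cancels u' h') (e : FreeGroup.of u * h = FreeGroup.of u' * h') : u = u' ∧ h = h' := by
  have e' := congrArg FreeGroup.toWord e
  rw [toWord_of_mul hc, toWord_of_mul hc'] at e'
  obtain ⟨h1, h2⟩ := List.cons.inj e'
  exact ⟨(Prod.mk.inj h1).1, FreeGroup.toWord_injective h2⟩

omit [Fintype ι] in
theorem cancels_unique {u u' : ι} {h : FreeGroup ι} (hc : Cancels u h) (hc' : Cancels u' h) :
    u = u' := by
  rw [Cancels] at hc hc'
  rw [hc] at hc'
  exact (Prod.mk.inj (Option.some.inj hc')).1

omit [PartialOrder B] [StarOrderedRing B] in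
/-- The Gram sum of the fibres, expanded. -/
theorem sum_fibre_gram {P Z : Type*} [DecidableEq Z] (s : Finset P) (key : P → Z) (v : P → B) :
    ∑ p ∈ s, ∑ p' ∈ s, (if key p = key p' then star (v p) * v p' else 0) =
      ∑ z ∈ s.image key, star (∑ p ∈ s.filter (fun p => key p = z), v p) *
        ∑ p ∈ s.filter (fun p => key p = z), v p := by
  rw [← Finset.sum_fiberwise_of_maps_to (fun p hp => Finset.mem_image_of_mem key hp)]
  refine Finset.sum_congr rfl fun z _ => ?_
  rw [star_sum, Finset.sum_mul]
  refine Finset.sum_congr rfl fun p hp => ?_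
  rw [Finset.mul_sum, ← Finset.sum_filter]
  refine Finset.sum_congr (Finset.filter_congr fun p' _ => ?_) fun p' _ => rfl
  rw [(Finset.mem_filter.1 hp).2, eq_comm]

/-- `(a + b)* (a + b)` against `a* a` and `b* b`. -/
theorem le_star_add_mul_add {κ₀ : ℝ} (hκ : 0 < κ₀) (a b : B) :
    (1 - κ₀) • (star a * a) - (1 / κ₀ - 1) • (star b * b) ≤ star (a + b) * (a + b) := by
  set r := Real.sqrt κ₀ with hr
  have hr2 : r * r = κ₀ := Real.mul_self_sqrt hκ.le
  have hr0 : r ≠ 0 := (Real.sqrt_pos.2 hκ).ne'
  rw [← sub_nonneg]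
  have h := star_mul_self_nonneg (r • a + r⁻¹ • b)
  refine h.trans_eq ?_
  simp only [star_add, star_smul, star_trivial, add_mul, mul_add, smul_mul_assoc, mul_smul_comm,
    smul_add, smul_smul]
  rw [hr2, inv_mul_cancel₀ hr0, mul_inv_cancel₀ hr0, ← mul_inv, hr2]
  match_scalars <;> simp [one_div]

theorem free_lower (row : ι → ρ) (col : ι → κ) (y : ι → B) {σ κ₀ : ℝ} (hσ0 : 0 ≤ σ)
    (hσ : ∀ r, ‖∑ u, if row u = r then y u * star (y u) else 0‖ ≤ σ) (hκ : 0 < κ₀) (hκ1 : κ₀ < 1)
    (W : Finset (FreeGroup ι)) (c : FreeGroup ι → κ → B) :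
    ∑ h ∈ W, ∑ k, star (c h k) * ((1 - κ₀) • colGram col y k - (2 * σ / κ₀) • (1 : B)) * c h k ≤
      ∑ h ∈ W, ∑ h' ∈ W, ∑ k, ∑ k', star (c h k) * kerY row col y (h * h'⁻¹) k k' * c h' k' := by
  classical
  set P : Finset (ι × FreeGroup ι) := Finset.univ ×ˢ W with hP
  set key : ι × FreeGroup ι → ρ × FreeGroup ι :=
    fun p => (row p.1, FreeGroup.of p.1 * p.2) with hkey
  set v : ι × FreeGroup ι → B := fun p => y p.1 * c p.2 (col p.1) with hv
  set C := ∑ h ∈ W, ∑ k, star (c h k) * c h k with hC
  set G := ∑ h ∈ W, ∑ k, star (c h k) * colGram col y k * c h k with hG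
  have hC0 : 0 ≤ C := Finset.sum_nonneg fun h _ => Finset.sum_nonneg fun k _ =>
    star_mul_self_nonneg _
  -- the left side
  have hL : ∑ h ∈ W, ∑ k, star (c h k) * ((1 - κ₀) • colGram col y k - (2 * σ / κ₀) • (1 : B)) *
      c h k = (1 - κ₀) • G - (2 * σ / κ₀) • C := by
    simp only [hG, hC, Finset.smul_sum, ← Finset.sum_sub_distrib, mul_sub, sub_mul, mul_smul_comm,
      smul_mul_assoc, mul_one]
  -- the right side
  have hR : ∑ h ∈ W, ∑ h' ∈ W, ∑ k, ∑ k', star (c h k) * kerY row col y (h * h'⁻¹) k k' * c h' k' =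
      ∑ p ∈ P, ∑ p' ∈ P, if key p = key p' then star (v p) * v p' else 0 := by
    have e : ∀ h h' : FreeGroup ι,
        ∑ k, ∑ k', star (c h k) * kerY row col y (h * h'⁻¹) k k' * c h' k' =
          ∑ u, ∑ u', if key (u, h) = key (u', h') then star (v (u, h)) * v (u', h') else 0 := by
      intro h h'
      simp only [kerY, Finset.mul_sum, Finset.sum_mul, mul_ite, ite_mul, mul_zero, zero_mul]
      rw [Finset.sum_congr rfl fun k _ => Finset.sum_comm]
      rw [Finset.sum_comm]
      refine Finset.sum_congr rfl fun u _ => ?_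
      rw [Finset.sum_congr rfl fun k _ => Finset.sum_comm]
      rw [Finset.sum_comm]
      refine Finset.sum_congr rfl fun u' _ => ?_
      rw [Finset.sum_eq_single (col u), Finset.sum_eq_single (col u')]
      · have hiff : (FreeGroup.of u)⁻¹ * FreeGroup.of u' = h * h'⁻¹ ↔
            FreeGroup.of u * h = FreeGroup.of u' * h' := by
          rw [inv_mul_eq_iff_eq_mul, ← mul_assoc, eq_mul_inv_iff_mul_eq, eq_comm]
        simp only [hkey, hv, Prod.mk.injEq, hiff, true_and, star_mul, mul_assoc]
      all_goals intros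
      all_goals first
        | exact absurd (Finset.mem_univ _) ‹_›
        | simp_all [eq_comm]
    simp only [e, hP, Finset.sum_product_right]
    exact Finset.sum_congr rfl fun h _ => Finset.sum_comm
  rw [hL, hR, sum_fibre_gram]
  set Z := P.image key
  set J : ρ × FreeGroup ι → Finset (ι × FreeGroup ι) := fun z => P.filter (fun p => key p = z)
  set a : ρ × FreeGroup ι → B :=
    fun z => ∑ p ∈ (J z).filter (fun p => ¬ Cancels p.1 p.2), v p with ha
  set b : ρ × FreeGroup ι → B :=
    fun z => ∑ p ∈ (J z).filter (fun p => Cancels p.1 p.2), v p with hb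
  have hab : ∀ z, ∑ p ∈ J z, v p = a z + b z := fun z => by
    rw [ha, hb, add_comm, Finset.sum_filter_add_sum_filter_not]
  -- the reduced part has one term in each fibre
  have hone : ∑ z ∈ Z, star (a z) * a z =
      ∑ p ∈ P.filter (fun p => ¬ Cancels p.1 p.2), star (v p) * v p := by
    rw [← Finset.sum_fiberwise_of_maps_to (g := key) (t := Z) (fun p hp =>
      Finset.mem_image_of_mem key (Finset.mem_filter.1 hp).1)]
    refine Finset.sum_congr rfl fun z _ => ?_
    rw [ha, Finset.filter_comm]
    change star (∑ p ∈ (J z).filter _, v p) * (∑ p ∈ (J z).filter _, v p) =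
      ∑ p ∈ (J z).filter _, star (v p) * v p
    set K := (J z).filter (fun p => ¬ Cancels p.1 p.2) with hK
    rcases K.eq_empty_or_nonempty with hK0 | ⟨p, hp⟩
    · simp [hK0]
    · have hKp : K = {p} := by
        refine Finset.eq_singleton_iff_unique_mem.2 ⟨hp, fun q hq => ?_⟩
        simp only [hK, J, Finset.mem_filter] at hp hq
        have e : key q = key p := hq.1.2.trans hp.1.2.symm
        obtain ⟨h1, h2⟩ := eq_of_not_cancels hq.2 hp.2 (Prod.mk.inj e).2
        exact Prod.ext h1 h2
      simp [hKp]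
  -- what cancels is small
  have hrow : ∀ u : ι, star (y u) * y u ≤ σ • (1 : B) := by
    intro u
    have h1 : ‖y u * star (y u)‖ ≤ σ := by
      refine (CStarAlgebra.norm_le_norm_of_nonneg_of_le (mul_star_self_nonneg _) ?_).trans
        (hσ (row u))
      refine le_trans (le_of_eq ?_) (Finset.single_le_sum
        (f := fun i => if row i = row u then y i * star (y i) else 0) ?_ (Finset.mem_univ u))
      · simp
      · intro i _
        split_ifs
        exacts [mul_star_self_nonneg _, le_rfl]
    rw [← Algebra.algebraMap_eq_smul_one]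
    refine (IsSelfAdjoint.le_algebraMap_norm_self (ha := IsSelfAdjoint.star_mul_self (y u))).trans ?_
    simp only [Algebra.algebraMap_eq_smul_one]
    refine smul_le_smul_of_nonneg_right ?_ zero_le_one
    rwa [CStarRing.norm_self_mul_star, ← CStarRing.norm_star_mul_self] at h1
  set P2 := P.filter (fun p => Cancels p.1 p.2) with hP2
  set x : ι × FreeGroup ι → B := fun p => c p.2 (col p.1) with hx
  have hxC : ∑ p ∈ P2, star (x p) * x p ≤ C := by
    rw [hP2, Finset.sum_filter, hP, Finset.sum_product_right, hC]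
    refine Finset.sum_le_sum fun h _ => ?_
    rw [← Finset.sum_filter]
    set K := (Finset.univ : Finset ι).filter (fun u => Cancels u h)
    rcases K.eq_empty_or_nonempty with hK0 | ⟨u, hu⟩
    · rw [hK0, Finset.sum_empty]
      exact Finset.sum_nonneg fun k _ => star_mul_self_nonneg _
    · have hKu : K = {u} := Finset.eq_singleton_iff_unique_mem.2 ⟨hu, fun q hq =>
        cancels_unique (Finset.mem_filter.1 hq).2 (Finset.mem_filter.1 hu).2⟩
      rw [hKu, Finset.sum_singleton]
      exact Finset.single_le_sum (f := fun k => star (c h k) * c h k)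
        (fun k _ => star_mul_self_nonneg _) (Finset.mem_univ (col u))
  have hsmall : ∑ p ∈ P2, star (v p) * v p ≤ σ • C := by
    refine (Finset.sum_le_sum fun p _ => ?_).trans
      ((Finset.smul_sum (r := σ) (f := fun p => star (x p) * x p) (s := P2)).symm.le.trans
        (smul_le_smul_of_nonneg_left hxC hσ0))
    have h := star_left_conjugate_le_conjugate (hrow p.1) (x p)
    rw [mul_smul_comm, smul_mul_assoc, mul_one] at h
    simpa only [hv, hx, star_mul, mul_assoc] using h
  have hT2 : ∑ z ∈ Z, star (b z) * b z ≤ σ • C := by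
    refine (Finset.sum_le_sum (g := fun z => σ • ∑ p ∈ P2.filter (fun p => key p = z),
      star (x p) * x p) fun z _ => ?_).trans ((le_of_eq ?_).trans
      (smul_le_smul_of_nonneg_left hxC hσ0))
    · show star (b z) * b z ≤ σ • ∑ p ∈ P2.filter (fun p => key p = z), star (x p) * x p
      rw [hP2, Finset.filter_comm]
      refine star_sum_mul_sum_le (y := fun p => y p.1) (x := x) hσ0 ?_
      refine le_trans ?_ (hσ z.1)
      refine CStarAlgebra.norm_le_norm_of_nonneg_of_le
        (Finset.sum_nonneg fun p _ => mul_star_self_nonneg _) ?_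
      rw [← Finset.sum_filter, ← Finset.sum_image (f := fun u => y u * star (y u))
        (g := fun p : ι × FreeGroup ι => p.1)]
      · refine Finset.sum_le_sum_of_subset_of_nonneg ?_ fun i _ _ => mul_star_self_nonneg _
        intro u hu
        obtain ⟨p, hp, rfl⟩ := Finset.mem_image.1 hu
        simp only [J, Finset.mem_filter] at hp
        exact Finset.mem_filter.2 ⟨Finset.mem_univ _, congrArg Prod.fst hp.1.2⟩
      · intro p hp q hq e
        simp only [J, Finset.mem_coe, Finset.mem_filter] at hp hq
        have e2 := congrArg Prod.snd (hp.1.2.trans hq.1.2.symm)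
        simp only [hkey] at e2 e
        rw [e] at e2
        exact Prod.ext e (mul_left_cancel e2)
    · rw [← Finset.smul_sum, Finset.sum_fiberwise_of_maps_to (fun p hp =>
        Finset.mem_image_of_mem key (Finset.mem_filter.1 hp).1)]
  have hsplit : ∑ p ∈ P.filter (fun p => ¬ Cancels p.1 p.2), star (v p) * v p =
      G - ∑ p ∈ P2, star (v p) * v p := by
    rw [eq_sub_iff_add_eq', hP2, Finset.sum_filter_add_sum_filter_not, hP,
      Finset.sum_product_right, hG]
    refine Finset.sum_congr rfl fun h _ => ?_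
    simp only [colGram, Finset.mul_sum, Finset.sum_mul, mul_ite, ite_mul, mul_zero, zero_mul]
    rw [Finset.sum_comm]
    refine Finset.sum_congr rfl fun u _ => ?_
    simp [hv, mul_assoc]
  calc (1 - κ₀) • G - (2 * σ / κ₀) • C
      ≤ (1 - κ₀) • (G - ∑ p ∈ P2, star (v p) * v p) -
          (1 / κ₀ - 1) • ∑ z ∈ Z, star (b z) * b z := by
        have hk : 0 ≤ 1 / κ₀ - 1 := by
          rw [sub_nonneg, le_div_iff₀ hκ, one_mul]; exact hκ1.le
        have h1 := smul_le_smul_of_nonneg_left hsmall (sub_nonneg.2 hκ1.le)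
        have h2 := smul_le_smul_of_nonneg_left hT2 hk
        have h3 : ((1 - κ₀) * σ + (1 / κ₀ - 1) * σ) • C ≤ (2 * σ / κ₀) • C := by
          refine smul_le_smul_of_nonneg_right ?_ hC0
          rw [← add_mul, le_div_iff₀ hκ]
          have : (1 - κ₀ + (1 / κ₀ - 1)) * κ₀ = 1 - κ₀ * κ₀ := by field_simp; ring
          calc _ = σ * ((1 - κ₀ + (1 / κ₀ - 1)) * κ₀) := by ring
            _ ≤ σ * 2 := mul_le_mul_of_nonneg_left (by rw [this]; nlinarith) hσ0
            _ = _ := by ring
        rw [add_smul, mul_smul, mul_smul] at h3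
        rw [smul_sub, sub_sub]
        exact sub_le_sub_left ((add_le_add h1 h2).trans h3) _
    _ = ∑ z ∈ Z, ((1 - κ₀) • (star (a z) * a z) - (1 / κ₀ - 1) • (star (b z) * b z)) := by
        rw [← hsplit, ← hone, Finset.sum_sub_distrib, Finset.smul_sum, Finset.smul_sum]
    _ ≤ _ := Finset.sum_le_sum fun z _ => by
        rw [hab]; exact le_star_add_mul_add hκ _ _

end Vale.Agent.P095.Weak
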