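import Vale.Agent.P095.Weak.Free
import Vale.Agent.P095.SI.Basic

/-! P095 Weak: elementary inequalities on rows. -/

open scoped ComplexOrder

namespace Vale.Agent.P095.Weak

variable {B : Type*} [CStarAlgebra B] [PartialOrder B] [StarOrderedRing B] {A : Submodule ℂ B}

omit [PartialOrder B] [StarOrderedRing B] in
/-- Products of the functional calculus with the identity in the middle. -/
theorem cfc_mul_self_mul {a : B} (ha : IsSelfAdjoint a) {f : ℝ → ℝ} (hf : Continuous f) :
    cfc f a * a * cfc f a = cfc (fun t => f t * t * f t) a := by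
  nth_rw 2 [← cfc_id' ℝ a ha]
  rw [← cfc_mul f (fun t => t) a hf.continuousOn continuous_id'.continuousOn,
    ← cfc_mul (fun t => f t * t) f a (hf.mul continuous_id').continuousOn hf.continuousOn]

/-- A soft square root of the support of `b`, factoring through `√b`. -/
theorem exists_soft_root {b : B} (hb : 0 ≤ b) {g : ℝ} (hg : 0 < g) :
    ∃ u w H : B, u = CFC.sqrt b * H ∧ star u = u ∧ star w = w ∧ u * b * u ≤ b ∧
      ‖w * b * w‖ ≤ g ∧ u * u + w * w = 1 := by
  have hne : ∀ t : ℝ, 0 < max t 0 + g := fun t => by linarith [le_max_right t 0]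
  set h : ℝ → ℝ := fun t => 1 / Real.sqrt (max t 0 + g) with hh
  have hhc : Continuous h :=
    continuous_const.div (by fun_prop) fun t => (Real.sqrt_pos.2 (hne t)).ne'
  have hwc : Continuous fun t => Real.sqrt g * h t := continuous_const.mul hhc
  have huc : Continuous fun t => Real.sqrt t * h t := Real.continuous_sqrt.mul hhc
  have hbs : IsSelfAdjoint b := IsSelfAdjoint.of_nonneg hb
  have hhh : ∀ t, 0 ≤ t → h t * h t = 1 / (t + g) := fun t ht => by
    simp only [hh]
    rw [max_eq_left ht, div_mul_div_comm, one_mul, Real.mul_self_sqrt (by linarith)]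
  have hqf : CFC.sqrt b = cfc Real.sqrt b := by
    rw [CFC.sqrt_eq_real_sqrt b hb,
      cfcₙ_eq_cfc (hf := Real.continuous_sqrt.continuousOn) (hf0 := Real.sqrt_zero)]
  refine ⟨cfc (fun t => Real.sqrt t * h t) b, cfc (fun t => Real.sqrt g * h t) b, cfc h b, ?_,
    (cfc_predicate _ b : IsSelfAdjoint _).star_eq, (cfc_predicate _ b : IsSelfAdjoint _).star_eq,
    ?_, ?_, ?_⟩
  · rw [hqf, cfc_mul Real.sqrt h b Real.continuous_sqrt.continuousOn hhc.continuousOn]
  · rw [cfc_mul_self_mul hbs huc]
    refine (cfc_le_iff (fun t => Real.sqrt t * h t * t * (Real.sqrt t * h t)) (fun t => t) b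
      ((huc.mul continuous_id').mul huc).continuousOn continuous_id'.continuousOn hbs).2
      (fun t ht => ?_) |>.trans_eq (cfc_id' ℝ b hbs)
    have h0 := spectrum_nonneg_of_nonneg hb ht
    calc Real.sqrt t * h t * t * (Real.sqrt t * h t)
        = Real.sqrt t * Real.sqrt t * t * (h t * h t) := by ring
      _ = t * (t / (t + g)) := by rw [hhh t h0, Real.mul_self_sqrt h0]; ring
      _ ≤ t := mul_le_of_le_one_right h0 (by rw [div_le_one (by linarith)]; linarith)
  · rw [cfc_mul_self_mul hbs hwc]
    refine norm_cfc_le hg.le fun t ht => ?_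
    have h0 := spectrum_nonneg_of_nonneg hb ht
    have e : Real.sqrt g * h t * t * (Real.sqrt g * h t) = g * (t / (t + g)) := by
      calc Real.sqrt g * h t * t * (Real.sqrt g * h t)
          = Real.sqrt g * Real.sqrt g * t * (h t * h t) := by ring
        _ = _ := by rw [hhh t h0, Real.mul_self_sqrt hg.le]; ring
    rw [e, Real.norm_of_nonneg (mul_nonneg hg.le (div_nonneg h0 (by linarith)))]
    exact mul_le_of_le_one_right hg.le (by rw [div_le_one (by linarith)]; linarith)
  · rw [← cfc_mul _ _ b huc.continuousOn huc.continuousOn,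
      ← cfc_mul _ _ b hwc.continuousOn hwc.continuousOn,
      ← cfc_add b (fun t => Real.sqrt t * h t * (Real.sqrt t * h t))
        (fun t => Real.sqrt g * h t * (Real.sqrt g * h t)) (huc.mul huc).continuousOn
        (hwc.mul hwc).continuousOn,
      ← cfc_const_one ℝ b hbs]
    refine cfc_congr fun t ht => ?_
    have h0 := spectrum_nonneg_of_nonneg hb ht
    show Real.sqrt t * h t * (Real.sqrt t * h t) +
      Real.sqrt g * h t * (Real.sqrt g * h t) = (1 : ℝ)
    calc Real.sqrt t * h t * (Real.sqrt t * h t) + Real.sqrt g * h t * (Real.sqrt g * h t)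
        = (Real.sqrt t * Real.sqrt t + Real.sqrt g * Real.sqrt g) * (h t * h t) := by ring
      _ = (t + g) * (1 / (t + g)) := by
          rw [hhh t h0, Real.mul_self_sqrt h0, Real.mul_self_sqrt hg.le]
      _ = 1 := mul_one_div_cancel (by linarith)

/-- Elements whose row square is below `β b` are nearly `√b` times elements, keeping that bound. -/
theorem exists_range_split (hA : SI.IsBimod A) {b : B} (hb : 0 ≤ b) {I : ℕ} (y : Fin I → B)
    (hy : ∀ i, y i ∈ A) {β : ℝ} (hβ : 0 ≤ β) (hsum : ∑ i, y i * star (y i) ≤ β • b) {η : ℝ}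
    (hη : 0 < η) :
    ∃ y' : Fin I → B, (∀ i, y' i ∈ A) ∧
      ∑ i, CFC.sqrt b * y' i * star (CFC.sqrt b * y' i) ≤ β • b ∧
      ∑ i, ‖star (CFC.sqrt b * y' i) * (CFC.sqrt b * y' i) - star (y i) * y i‖ ≤ η := by
  set g : ℝ := η / (I * β + 1) with hg
  have hden : 0 < (I : ℝ) * β + 1 := by positivity
  have hg0 : 0 < g := div_pos hη hden
  obtain ⟨u, w, H, huH, hus, hws, hubu, hwbw, huw⟩ := exists_soft_root hb hg0
  set q := CFC.sqrt b
  refine ⟨fun i => H * y i, fun i => (hA _ _ (hy i)).1, ?_, ?_⟩
  · calc ∑ i, q * (H * y i) * star (q * (H * y i))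
        = u * (∑ i, y i * star (y i)) * u := by
          simp only [← mul_assoc q, ← huH, star_mul, hus, Finset.mul_sum, Finset.sum_mul, mul_assoc]
      _ ≤ u * (β • b) * u := by
          simpa [hus] using star_left_conjugate_le_conjugate hsum u
      _ = β • (u * b * u) := by rw [mul_smul_comm, smul_mul_assoc]
      _ ≤ β • b := smul_le_smul_of_nonneg_left hubu hβ
  · have hi : ∀ i, ‖star (q * (H * y i)) * (q * (H * y i)) - star (y i) * y i‖ ≤
        β * g := by
      intro i
      have e : star (q * (H * y i)) * (q * (H * y i)) - star (y i) * y i =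
          -(star (w * y i) * (w * y i)) := by
        rw [← mul_assoc q, ← huH, star_mul, star_mul, hus, hws]
        calc star (y i) * u * (u * y i) - star (y i) * y i
            = star (y i) * (u * u) * y i - star (y i) * (u * u + w * w) * y i := by
              rw [huw, mul_one]; simp only [mul_assoc]
          _ = _ := by noncomm_ring
      have hyy : y i * star (y i) ≤ β • b :=
        (Finset.single_le_sum (f := fun i => y i * star (y i))
          (fun j _ => mul_star_self_nonneg _) (Finset.mem_univ i)).trans hsum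
      rw [e, norm_neg, CStarRing.norm_star_mul_self, ← CStarRing.norm_self_mul_star, star_mul, hws]
      calc ‖w * y i * (star (y i) * w)‖ = ‖w * (y i * star (y i)) * w‖ := by
            simp only [mul_assoc]
        _ ≤ ‖w * (β • b) * w‖ := by
            refine CStarAlgebra.norm_le_norm_of_nonneg_of_le ?_ ?_
            · simpa [hws] using star_left_conjugate_nonneg (mul_star_self_nonneg (y i)) w
            · simpa [hws] using star_left_conjugate_le_conjugate hyy w
        _ = β * ‖w * b * w‖ := by
            rw [mul_smul_comm, smul_mul_assoc, norm_smul, Real.norm_of_nonneg hβ]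
        _ ≤ β * g := mul_le_mul_of_nonneg_left hwbw hβ
    refine (Finset.sum_le_sum fun i _ => hi i).trans ?_
    rw [Finset.sum_const, Finset.card_univ, Fintype.card_fin, nsmul_eq_mul, hg, ← mul_assoc,
      ← mul_div_assoc, div_le_iff₀ hden]
    nlinarith

/-- A scalar operator bound holds with coefficients in `B`. -/
theorem sum_scalar_sq_le {R κ : Type*} [Fintype R] [Fintype κ] [DecidableEq κ] (v : R → κ → ℂ)
    {C : ℝ} (hC : 0 ≤ C)
    (hv : ∀ ξ : κ → ℂ, ∑ r, ‖∑ a, v r a * ξ a‖ ^ 2 ≤ C * ∑ a, ‖ξ a‖ ^ 2) (z : κ → B) :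
    ∑ r, star (∑ a, v r a • z a) * (∑ a, v r a • z a) ≤ C • ∑ a, star (z a) * z a := by
  classical
  set M : Matrix κ κ ℂ :=
    Matrix.of fun a c => (if a = c then (C : ℂ) else 0) - ∑ r, star (v r a) * v r c with hMdef
  have hM : ∀ a c, M a c = (if a = c then (C : ℂ) else 0) - ∑ r, star (v r a) * v r c :=
    fun a c => rfl
  have hMpsd : M.PosSemidef := by
    refine Matrix.PosSemidef.of_dotProduct_mulVec_nonneg ?_ fun ξ => ?_
    · ext a c
      simp only [Matrix.conjTranspose_apply, hM, star_sub, star_sum, star_mul', star_star]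
      congr 1
      · by_cases h : a = c
        · simp [h]
        · simp [h, Ne.symm h]
      · exact Finset.sum_congr rfl fun r _ => mul_comm _ _
    · have e1 : ∀ r, (∑ a, star (v r a * ξ a)) * (∑ c, v r c * ξ c) =
          ((‖∑ a, v r a * ξ a‖ ^ 2 : ℝ) : ℂ) := fun r => by
        rw [← star_sum, Complex.star_def, Complex.conj_mul']
        norm_cast
      have e : star ξ ⬝ᵥ M.mulVec ξ =
          ((C * ∑ a, ‖ξ a‖ ^ 2 - ∑ r, ‖∑ a, v r a * ξ a‖ ^ 2 : ℝ) : ℂ) := by
        have e2 : star ξ ⬝ᵥ M.mulVec ξ =
            ∑ a, (C : ℂ) * (star (ξ a) * ξ a) -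
              ∑ r, (∑ a, star (v r a * ξ a)) * (∑ c, v r c * ξ c) := by
          simp only [dotProduct, Matrix.mulVec, hM, Pi.star_apply, sub_mul,
            Finset.sum_sub_distrib, mul_sub, Finset.mul_sum, Finset.sum_mul, star_mul', ite_mul,
            zero_mul, Finset.sum_ite_eq, Finset.mem_univ, if_true]
          congr 1
          · exact Finset.sum_congr rfl fun a _ => by ring
          · calc _ = ∑ a, ∑ r, ∑ c, star (ξ a) * (star (v r a) * v r c * ξ c) :=
                  Finset.sum_congr rfl fun a _ => Finset.sum_comm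
              _ = ∑ r, ∑ a, ∑ c, star (ξ a) * (star (v r a) * v r c * ξ c) := Finset.sum_comm
              _ = ∑ r, ∑ c, ∑ a, star (ξ a) * (star (v r a) * v r c * ξ c) :=
                  Finset.sum_congr rfl fun r _ => Finset.sum_comm
              _ = _ := Finset.sum_congr rfl fun r _ => Finset.sum_congr rfl fun c _ =>
                  Finset.sum_congr rfl fun a _ => by ring
        rw [e2, Finset.sum_congr rfl fun r _ => e1 r, ← Finset.mul_sum,
          Finset.sum_congr rfl fun a _ => show star (ξ a) * ξ a = ((‖ξ a‖ ^ 2 : ℝ) : ℂ) by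
            rw [Complex.star_def, Complex.conj_mul']; norm_cast]
        push_cast
        rfl
      rw [e]
      exact Complex.zero_le_real.2 (sub_nonneg.2 (hv ξ))
  obtain ⟨W, hW⟩ : ∃ W : Matrix κ κ ℂ, M = star W * W := by
    open scoped MatrixOrder in exact CStarAlgebra.nonneg_iff_eq_star_mul_self.mp hMpsd.nonneg
  rw [← sub_nonneg]
  have e : C • ∑ a, star (z a) * z a - ∑ r, star (∑ a, v r a • z a) * (∑ a, v r a • z a) =
      ∑ s, star (∑ a, W s a • z a) * (∑ a, W s a • z a) := by
    have l : C • ∑ a, star (z a) * z a - ∑ r, star (∑ a, v r a • z a) * (∑ a, v r a • z a) =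
        ∑ a, ∑ c, M a c • (star (z a) * z c) := by
      simp only [hM, sub_smul, Finset.sum_sub_distrib, star_sum, star_smul, Finset.sum_mul,
        Finset.mul_sum, Finset.smul_sum, smul_mul_assoc, mul_smul_comm, smul_smul, Finset.sum_smul,
        ite_smul, zero_smul, Finset.sum_ite_eq, Finset.mem_univ, if_true, Complex.coe_smul]
      congr 1
      calc _ = ∑ r, ∑ a, ∑ c, (star (v r a) * v r c) • (star (z a) * z c) :=
            Finset.sum_congr rfl fun r _ => Finset.sum_comm.trans
              (Finset.sum_congr rfl fun a _ => Finset.sum_congr rfl fun c _ => by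
                first | rfl | rw [mul_comm (v r c)])
        _ = ∑ a, ∑ r, ∑ c, (star (v r a) * v r c) • (star (z a) * z c) := Finset.sum_comm
        _ = _ := Finset.sum_congr rfl fun a _ => Finset.sum_comm
    rw [l, hW]
    simp only [Matrix.mul_apply, Matrix.star_apply, star_sum, star_smul, Finset.sum_mul,
      Finset.mul_sum, Finset.sum_smul, smul_mul_assoc, mul_smul_comm]
    calc _ = ∑ a, ∑ s, ∑ c, (star (W s a) * W s c) • (star (z a) * z c) :=
          Finset.sum_congr rfl fun a _ => Finset.sum_comm
      _ = ∑ s, ∑ a, ∑ c, (star (W s a) * W s c) • (star (z a) * z c) := Finset.sum_comm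
      _ = ∑ s, ∑ c, ∑ a, (star (W s a) * W s c) • (star (z a) * z c) :=
          Finset.sum_congr rfl fun s _ => Finset.sum_comm
      _ = _ := Finset.sum_congr rfl fun s _ => Finset.sum_congr rfl fun c _ => by
          rw [Finset.smul_sum]
          exact Finset.sum_congr rfl fun a _ => by rw [smul_smul, mul_comm]
  rw [e]
  exact Finset.sum_nonneg fun s _ => star_mul_self_nonneg _

/-- Gram elements of sums. -/
theorem gram_sum_le {R : Type*} [Fintype R] (w : R → B) :
    star (∑ i, w i) * (∑ i, w i) ≤ (Fintype.card R : ℝ) • ∑ i, star (w i) * w i := by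
  classical
  have h := star_sum_mul_sum_le (σ := (Fintype.card R : ℝ)) (Nat.cast_nonneg _)
    (J := (Finset.univ : Finset R)) (y := fun _ => (1 : B)) (x := w) (by
      simp only [star_one, mul_one, Finset.sum_const, Finset.card_univ]
      rw [← Nat.cast_smul_eq_nsmul ℝ, norm_smul, Real.norm_natCast]
      refine mul_le_of_le_one_right (Nat.cast_nonneg _) ?_
      rcases subsingleton_or_nontrivial B with hB | hB
      · simp [Subsingleton.elim (1 : B) 0]
      · rw [CStarRing.norm_one])
  simpa using h

/-- An element factoring through `√b` is dominated by rows weighted with `b`. -/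
theorem gram_factor_le {N : ℕ} {b : B} (hb : 0 ≤ b) (s w : Fin N → B) (X : B) :
    star ((∑ i, s i * CFC.sqrt b * w i) * X) * ((∑ i, s i * CFC.sqrt b * w i) * X) ≤
      ∑ i, star ((Real.sqrt N * ‖s i‖) • (w i * X)) * b * ((Real.sqrt N * ‖s i‖) • (w i * X)) := by
  set q := CFC.sqrt b
  have hq : star q = q := (IsSelfAdjoint.of_nonneg (CFC.sqrt_nonneg b)).star_eq
  have hqq : q * q = b := CFC.sqrt_mul_sqrt_self b hb
  rw [Finset.sum_mul]
  refine (gram_sum_le fun i => s i * q * w i * X).trans ?_
  rw [Finset.smul_sum, Fintype.card_fin]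
  refine Finset.sum_le_sum fun i _ => ?_
  have hs : star (s i) * s i ≤ (‖s i‖ ^ 2) • (1 : B) := by
    rw [← Algebra.algebraMap_eq_smul_one, sq, ← CStarRing.norm_star_mul_self]
    exact IsSelfAdjoint.le_algebraMap_norm_self (ha := IsSelfAdjoint.star_mul_self (s i))
  have h := star_left_conjugate_le_conjugate hs (q * (w i * X))
  have e1 : star (s i * q * w i * X) * (s i * q * w i * X) =
      star (q * (w i * X)) * (star (s i) * s i) * (q * (w i * X)) := by
    simp only [star_mul, mul_assoc]
  have e2 : star (q * (w i * X)) * ((‖s i‖ ^ 2) • (1 : B)) * (q * (w i * X)) =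
      (‖s i‖ ^ 2) • (star (w i * X) * b * (w i * X)) := by
    rw [mul_smul_comm, smul_mul_assoc, mul_one, star_mul, hq, ← hqq]
    simp only [mul_assoc]
  have h' := smul_le_smul_of_nonneg_left (h.trans_eq e2) (Nat.cast_nonneg (α := ℝ) N)
  rw [← e1] at h'
  refine h'.trans_eq ?_
  simp only [star_smul, star_trivial, smul_mul_assoc, mul_smul_comm, smul_smul]
  congr 1
  rw [mul_mul_mul_comm, Real.mul_self_sqrt (Nat.cast_nonneg N), sq]

/-- The kernel of `T* T` in a quotient is the Gram matrix of the image of `T`. -/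
theorem qform_kerY {ι κ ρ Q : Type*} [Fintype ι] [DecidableEq ι] [Fintype κ] [DecidableEq κ]
    [Fintype ρ] [DecidableEq ρ] [Group Q] [Fintype Q] [DecidableEq Q] (row : ι → ρ) (col : ι → κ)
    (y : ι → B) (π : FreeGroup ι →* Q) (S : Finset (FreeGroup ι))
    (hS : ∀ u u', (FreeGroup.of u)⁻¹ * FreeGroup.of u' ∈ S) (z : κ × Q → B) :
    qform (kerQ S (kerY row col y) π) z = ∑ r, ∑ q,
      star (∑ u, if row u = r then y u * z (col u, (π (FreeGroup.of u))⁻¹ * q) else 0) *
        (∑ u, if row u = r then y u * z (col u, (π (FreeGroup.of u))⁻¹ * q) else 0) := by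
  classical
  have hL : qform (kerQ S (kerY row col y) π) z = ∑ u, ∑ u', ∑ b : Q,
      if row u = row u' then star (z (col u, π ((FreeGroup.of u)⁻¹ * FreeGroup.of u') * b)) *
        (star (y u) * y u') * z (col u', b) else 0 := by
    have hk : ∀ x x' : κ × Q, kerQ S (kerY row col y) π x x' = ∑ u, ∑ u',
        if row u = row u' ∧ col u = x.1 ∧ col u' = x'.1 ∧
          π ((FreeGroup.of u)⁻¹ * FreeGroup.of u') * x'.2 = x.2 then star (y u) * y u' else 0 := by
      intro x x'
      rw [kerQ]
      calc _ = ∑ t ∈ S, ∑ u, ∑ u', if π t * x'.2 = x.2 then (if row u = row u' ∧ col u = x.1 ∧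
            col u' = x'.1 ∧ (FreeGroup.of u)⁻¹ * FreeGroup.of u' = t then star (y u) * y u' else 0)
              else 0 := by
            refine Finset.sum_congr rfl fun t _ => ?_
            split_ifs with h
            · rfl
            · simp
        _ = _ := by
            rw [Finset.sum_comm]
            refine Finset.sum_congr rfl fun u _ => ?_
            rw [Finset.sum_comm]
            refine Finset.sum_congr rfl fun u' _ => ?_
            rw [Finset.sum_eq_single ((FreeGroup.of u)⁻¹ * FreeGroup.of u')]
            · by_cases h : π ((FreeGroup.of u)⁻¹ * FreeGroup.of u') * x'.2 = x.2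
              · rw [if_pos h]
                exact if_congr (by simp only [h, and_true]) rfl rfl
              · rw [if_neg h, if_neg fun h' => h h'.2.2.2]
            · intro t _ ht
              split_ifs with h1 h2
              · exact absurd h2.2.2.2.symm ht
              · rfl
              · rfl
            · exact fun h => absurd (hS u u') h
    simp only [qform, hk, Finset.mul_sum, Finset.sum_mul, mul_ite, ite_mul, mul_zero, zero_mul]
    rw [Finset.sum_congr rfl fun x _ => Finset.sum_comm, Finset.sum_comm]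
    refine Finset.sum_congr rfl fun u _ => ?_
    rw [Finset.sum_congr rfl fun x _ => Finset.sum_comm, Finset.sum_comm]
    refine Finset.sum_congr rfl fun u' _ => ?_
    rw [Finset.sum_comm]
    rw [Fintype.sum_prod_type, Finset.sum_eq_single (col u')]
    · refine Finset.sum_congr rfl fun b _ => ?_
      rw [Finset.sum_eq_single (col u, π ((FreeGroup.of u)⁻¹ * FreeGroup.of u') * b)]
      · simp
      · intro x _ hx
        refine if_neg fun h => hx ?_
        exact Prod.ext h.2.1.symm h.2.2.2.symm
      · exact fun h => absurd (Finset.mem_univ _) h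
    · exact fun k' _ hk' => Finset.sum_eq_zero fun b _ => Finset.sum_eq_zero fun x _ =>
        if_neg fun h => hk' h.2.2.1.symm
    · exact fun h => absurd (Finset.mem_univ _) h
  rw [hL]
  have hR : ∀ r, ∀ q : Q,
      star (∑ u, if row u = r then y u * z (col u, (π (FreeGroup.of u))⁻¹ * q) else 0) *
        (∑ u, if row u = r then y u * z (col u, (π (FreeGroup.of u))⁻¹ * q) else 0) =
      ∑ u, ∑ u', if row u = r ∧ row u' = r then
        star (z (col u, (π (FreeGroup.of u))⁻¹ * q)) * (star (y u) * y u') *
          z (col u', (π (FreeGroup.of u'))⁻¹ * q) else 0 := fun r q => by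
    rw [star_sum, Finset.sum_mul]
    refine Finset.sum_congr rfl fun u _ => ?_
    rw [Finset.mul_sum]
    refine Finset.sum_congr rfl fun u' _ => ?_
    by_cases h1 : row u = r <;> by_cases h2 : row u' = r <;> simp [h1, h2, mul_assoc]
  simp only [hR]
  calc _ = ∑ u, ∑ u', ∑ q : Q, ∑ r, if row u = r ∧ row u' = r then
        star (z (col u, (π (FreeGroup.of u))⁻¹ * q)) * (star (y u) * y u') *
          z (col u', (π (FreeGroup.of u'))⁻¹ * q) else 0 := by
        refine Finset.sum_congr rfl fun u _ => Finset.sum_congr rfl fun u' _ => ?_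
        rw [← Equiv.sum_comp (Equiv.mulLeft (π (FreeGroup.of u'))⁻¹)]
        refine Finset.sum_congr rfl fun q _ => ?_
        rw [Finset.sum_eq_single (row u) (fun r _ hr => if_neg fun h => hr h.1.symm)
          (fun h => absurd (Finset.mem_univ _) h)]
        simp only [Equiv.coe_mulLeft, map_mul, map_inv, mul_assoc, mul_inv_cancel_left, true_and,
          eq_comm]
    _ = ∑ u, ∑ u', ∑ r, ∑ q : Q, if row u = r ∧ row u' = r then
        star (z (col u, (π (FreeGroup.of u))⁻¹ * q)) * (star (y u) * y u') *
          z (col u', (π (FreeGroup.of u'))⁻¹ * q) else 0 :=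
        Finset.sum_congr rfl fun u _ => Finset.sum_congr rfl fun u' _ => Finset.sum_comm
    _ = ∑ u, ∑ r, ∑ q : Q, ∑ u', if row u = r ∧ row u' = r then
        star (z (col u, (π (FreeGroup.of u))⁻¹ * q)) * (star (y u) * y u') *
          z (col u', (π (FreeGroup.of u'))⁻¹ * q) else 0 :=
        Finset.sum_congr rfl fun u _ => Finset.sum_comm.trans
          (Finset.sum_congr rfl fun r _ => Finset.sum_comm)
    _ = _ := Finset.sum_comm.trans (Finset.sum_congr rfl fun r _ => Finset.sum_comm)

end Vale.Agent.P095.Weak
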