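import Vale.Agent.P095.Weak.Ideal
import Vale.Agent.P095.Weak.Dual
import Vale.Agent.P095.Weak.Free
import Vale.Agent.P095.Weak.CP
import Vale.Agent.P095.Weak.Clip
import Vale.Agent.P095.Weak.RowTools
import Mathlib.Analysis.CStarAlgebra.CStarMatrix

/-!
P095 Weak: if `M` times `e` is below `b` in all traces, then, in matrices, `2 J` copies of `e` are
below `J` copies of `b`.
-/

open scoped ComplexOrder

namespace Vale.Agent.P095.Weak

variable {B : Type*} [CStarAlgebra B] [PartialOrder B] [StarOrderedRing B] {A : Submodule ℂ B}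
  {d : B}

theorem sum_ite_mem {ι : Type*} [Fintype ι] {f : ι → B} {c : ι → Prop} [DecidablePred c]
    (h : ∀ i, f i ∈ A) : ∑ i, (if c i then f i else 0) ∈ A :=
  sum_mem fun i _ => by split_ifs <;> [exact h i; exact A.zero_mem]

/-- A small element in the middle is small. -/
theorem star_mul_mid_le {E a b : B} :
    star a * E * b + star (star a * E * b) ≤ ‖E‖ • (star a * a + star b * b) := by
  rcases (norm_nonneg E).eq_or_lt with h | h
  · rw [norm_eq_zero.1 h.symm]; simp
  have hle : star E * E ≤ (‖E‖ ^ 2) • (1 : B) := by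
    simpa [Algebra.algebraMap_eq_smul_one] using
      CStarAlgebra.star_mul_le_algebraMap_norm_sq (a := E)
  have h1 : star (E * b) * (E * b) ≤ (‖E‖ ^ 2) • (star b * b) := by
    have := star_left_conjugate_le_conjugate hle b
    simpa [star_mul, mul_assoc, mul_smul_comm, smul_mul_assoc] using this
  set k := ‖E‖
  have h0 : 0 ≤ star (k • a - E * b) * (k • a - E * b) := star_mul_self_nonneg _
  have e1 : star (k • a - E * b) * (k • a - E * b) =
      (k * k) • (star a * a) - k • (star a * E * b + star (star a * E * b)) +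
        star (E * b) * (E * b) := by
    simp only [star_sub, star_mul, star_smul, star_trivial, star_star, sub_mul, mul_sub,
      mul_smul_comm, smul_mul_assoc, smul_sub, smul_add, smul_smul, mul_assoc]
    abel
  rw [e1] at h0
  have h2 : 0 ≤ k • (k • (star a * a + star b * b) -
      (star a * E * b + star (star a * E * b))) := by
    refine h0.trans ((add_le_add le_rfl h1).trans_eq ?_)
    simp only [smul_sub, smul_add, smul_smul, sq]
    abel
  have h3 := smul_nonneg (inv_nonneg.2 h.le) h2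
  rw [smul_smul, inv_mul_cancel₀ h.ne', one_smul] at h3
  exact sub_nonneg.1 h3

/-- A kernel with small entries has a small quadratic form in every quotient. -/
theorem kerQ_pert_le {F Q κ : Type*} [Group F] [Group Q] [Fintype Q] [DecidableEq Q] [Fintype κ]
    [DecidableEq κ] (S : Finset F) (E : F → κ → κ → B) (π : F →* Q) (z : κ × Q → B) :
    qform (kerQ S E π) z + star (qform (kerQ S E π) z) ≤
      (2 * ∑ t ∈ S, ∑ k, ∑ k', ‖E t k k'‖) • ∑ a, star (z a) * z a := by
  have e1 : qform (kerQ S E π) z =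
      ∑ t ∈ S, ∑ k, ∑ k', ∑ q, star (z (k, π t * q)) * E t k k' * z (k', q) := by
    simp only [qform, kerQ, Finset.mul_sum, Finset.sum_mul, mul_ite, ite_mul, mul_zero, zero_mul]
    rw [Finset.sum_comm]
    refine (Finset.sum_congr rfl fun _ _ => Finset.sum_comm).trans ?_
    rw [Finset.sum_comm]
    refine Finset.sum_congr rfl fun t _ => ?_
    simp only [Fintype.sum_prod_type]
    calc ∑ k', ∑ q, ∑ k, ∑ q', (if π t * q = q' then star (z (k, q')) * E t k k' * z (k', q) else 0)
        = ∑ k', ∑ q, ∑ k, star (z (k, π t * q)) * E t k k' * z (k', q) := by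
          simp
      _ = ∑ k', ∑ k, ∑ q, star (z (k, π t * q)) * E t k k' * z (k', q) :=
          Finset.sum_congr rfl fun _ _ => Finset.sum_comm
      _ = _ := Finset.sum_comm
  rw [e1]
  simp only [star_sum, ← Finset.sum_add_distrib, Finset.mul_sum, Finset.sum_smul]
  refine Finset.sum_le_sum fun t _ => Finset.sum_le_sum fun k _ => Finset.sum_le_sum fun k' _ => ?_
  refine (Finset.sum_le_sum fun q _ => star_mul_mid_le).trans ?_
  rw [← Finset.smul_sum, Finset.sum_add_distrib, mul_smul, two_smul]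
  rw [← smul_add]
  refine smul_le_smul_of_nonneg_left (add_le_add ?_ ?_) (norm_nonneg _)
  · rw [Fintype.sum_prod_type]
    refine le_trans (le_of_eq ?_) (Finset.single_le_sum
      (f := fun k => ∑ q, star (z (k, q)) * z (k, q))
      (fun k _ => Finset.sum_nonneg fun q _ => star_mul_self_nonneg _) (Finset.mem_univ k))
    exact Fintype.sum_equiv (Equiv.mulLeft (π t)) _ _ fun q => rfl
  · rw [Fintype.sum_prod_type]
    exact Finset.single_le_sum (f := fun k => ∑ q, star (z (k, q)) * z (k, q))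
      (fun k _ => Finset.sum_nonneg fun q _ => star_mul_self_nonneg _) (Finset.mem_univ k')

/-- A kernel supported at the identity is diagonal in every quotient. -/
theorem kerQ_one {F Q κ : Type*} [Group F] [DecidableEq F] [Group Q] [Fintype Q] [DecidableEq Q]
    [Fintype κ] [DecidableEq κ] {S : Finset F} (hS : (1 : F) ∈ S) (D : B) (π : F →* Q)
    (z : κ × Q → B) :
    qform (kerQ S (fun t k k' => if t = 1 ∧ k = k' then D else 0) π) z =
      ∑ a, star (z a) * D * z a := by
  have e : ∀ a b : κ × Q, kerQ S (fun t k k' => if t = 1 ∧ k = k' then D else 0) π a b =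
      if a = b then D else 0 := fun a b => by
    rw [kerQ, Finset.sum_eq_single_of_mem 1 hS fun t _ ht => by simp [ht]]
    simp only [map_one, one_mul, true_and, Prod.ext_iff]
    by_cases h : b.2 = a.2
    · simp [h]
    · simp [h, Ne.symm h]
  simp [qform, e]

omit [PartialOrder B] [StarOrderedRing B] in
theorem qform_sub {a : Type*} [Fintype a] (M N : a → a → B) (z : a → B) :
    qform (fun i j => M i j - N i j) z = qform M z - qform N z := by
  simp only [qform, mul_sub, sub_mul, Finset.sum_sub_distrib]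

omit [PartialOrder B] [StarOrderedRing B] in
theorem kerQ_sub {F Q κ : Type*} [Group F] [Group Q] [DecidableEq Q] (S : Finset F)
    (M N : F → κ → κ → B) (π : F →* Q) (a b : κ × Q) :
    kerQ S (fun t k k' => M t k k' - N t k k') π a b = kerQ S M π a b - kerQ S N π a b := by
  simp only [kerQ, ← Finset.sum_sub_distrib]
  exact Finset.sum_congr rfl fun t _ => by split_ifs <;> simp

omit [PartialOrder B] [StarOrderedRing B] in
theorem kerY_star {ι κ ρ : Type*} [Fintype ι] [DecidableEq ι] [DecidableEq κ] [DecidableEq ρ]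
    (row : ι → ρ) (col : ι → κ) (y : ι → B) (t : FreeGroup ι) (k k' : κ) :
    kerY row col y t⁻¹ k k' = star (kerY row col y t k' k) := by
  simp only [kerY, star_sum, apply_ite star, star_mul, star_star, star_zero]
  rw [Finset.sum_comm]
  refine Finset.sum_congr rfl fun u _ => Finset.sum_congr rfl fun v _ => ?_
  refine if_congr ⟨fun ⟨h1, h2, h3, h4⟩ => ⟨h1.symm, h3, h2, ?_⟩,
    fun ⟨h1, h2, h3, h4⟩ => ⟨h1.symm, h3, h2, ?_⟩⟩ rfl rfl
  · rw [← inv_inv t, ← h4]; group
  · rw [← h4]; group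

/-- Two squares dominate the square of a sum. -/
theorem star_add_mul_add_le (a b : B) :
    star (a + b) * (a + b) ≤ (2 : ℝ) • (star a * a) + (2 : ℝ) • (star b * b) := by
  rw [← sub_nonneg]
  refine (star_mul_self_nonneg (a - b)).trans_eq ?_
  simp only [star_add, star_sub, add_mul, mul_add, sub_mul, mul_sub, two_smul]
  abel

theorem add_pert {e Z uK K P R : B} {c₁ c₂ : ℝ} (hnn : 0 ≤ P) (h1 : 0 ≤ Z + c₁ • P + R)
    (hR : IsSelfAdjoint R) (he : IsSelfAdjoint e) (hK : IsSelfAdjoint K) (hZ : Z = uK - e)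
    (hE : (uK - K) + star (uK - K) ≤ (2 * c₂) • P) : e ≤ K + (c₁ + c₂) • P + R := by
  have hP : IsSelfAdjoint P := IsSelfAdjoint.of_nonneg hnn
  have hs : IsSelfAdjoint uK := by
    have h2 := (((IsSelfAdjoint.of_nonneg h1).sub hR).sub
      ((IsSelfAdjoint.all c₁).smul hP)).add he
    rw [hZ] at h2
    simpa using h2
  rw [(hs.sub hK).star_eq, ← two_smul ℝ, mul_smul] at hE
  have h2 := smul_le_smul_of_nonneg_left hE (show (0 : ℝ) ≤ 2⁻¹ by norm_num)
  rw [smul_smul, smul_smul, inv_mul_cancel₀ (two_ne_zero' ℝ), one_smul, one_smul] at h2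
  rw [hZ] at h1
  rw [← sub_nonneg] at h2 ⊢
  refine (add_nonneg h1 h2).trans_eq ?_
  simp only [add_smul]
  abel

theorem le_smul_one {a : B} {r : ℝ} (ha : IsSelfAdjoint a) (hr : ‖a‖ ≤ r) : a ≤ r • (1 : B) := by
  refine (IsSelfAdjoint.le_algebraMap_norm_self (ha := ha)).trans ?_
  rw [Algebra.algebraMap_eq_smul_one]
  exact smul_le_smul_of_nonneg_right hr zero_le_one

theorem norm_conj_sub_le {u z : B} {δ : ℝ} (hu1 : ‖u‖ ≤ 1) (h1 : ‖u * z - z‖ < δ)
    (h2 : ‖z * u - z‖ < δ) : ‖u * z * u - z‖ ≤ 2 * δ := by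
  rw [show u * z * u - z = u * (z * u - z) + (u * z - z) by noncomm_ring]
  refine (norm_add_le _ _).trans ?_
  linarith [(norm_mul_le u (z * u - z)).trans (mul_le_of_le_one_left (norm_nonneg _) hu1)]

section Family

variable {ι κ R' : Type} [Fintype ι] [DecidableEq ι] [Fintype κ] [DecidableEq κ] [Fintype R']
  [DecidableEq R']

/-- The finite set carrying the kernel of a family of generators. -/
noncomputable def gens (ι : Type) [Fintype ι] [DecidableEq ι] : Finset (FreeGroup ι) :=
  insert 1 (Finset.univ.image fun v : ι × ι => (FreeGroup.of v.1)⁻¹ * FreeGroup.of v.2)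

theorem mem_gens (u u' : ι) : (FreeGroup.of u)⁻¹ * FreeGroup.of u' ∈ gens ι :=
  Finset.mem_insert_of_mem (Finset.mem_image.2 ⟨(u, u'), Finset.mem_univ _, rfl⟩)

/-- The rows of a family of generators in a quotient. -/
noncomputable def famRow {ρ Q : Type} [DecidableEq ρ] [Group Q] [DecidableEq Q] (row : ι → ρ)
    (col : ι → κ) (wy : ι → B) (π : FreeGroup ι →* Q) (r : ρ) (q : Q) (a : κ × Q) : B :=
  ∑ v, if row v = r ∧ col v = a.1 ∧ π (FreeGroup.of v) * a.2 = q then wy v else 0

theorem sum_famRow {ρ Q : Type} [DecidableEq ρ] [Group Q] [Fintype Q] [DecidableEq Q] (row : ι → ρ)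
    (col : ι → κ) (wy : ι → B) (π : FreeGroup ι →* Q) (r : ρ) (q : Q) (z : κ × Q → B) :
    ∑ a, famRow row col wy π r q a * z a =
      ∑ v, if row v = r then wy v * z (col v, (π (FreeGroup.of v))⁻¹ * q) else 0 := by
  simp only [famRow, Finset.sum_mul, ite_mul, zero_mul]
  rw [Finset.sum_comm]
  refine Finset.sum_congr rfl fun v _ => ?_
  rw [Finset.sum_eq_single (col v, (π (FreeGroup.of v))⁻¹ * q)]
  · simp
  · rintro a - ha
    refine if_neg fun ⟨_, h2, h3⟩ => ha ?_
    rw [← h3, h2, inv_mul_cancel_left]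
  · simp

/-- The Gram form of a family is dominated by rows weighted with `b`. -/
theorem qform_family_le {Q : Type} [Group Q] [Fintype Q] [DecidableEq Q] {b f : B} (hb0 : 0 ≤ b)
    {N : ℕ} (s w : Fin N → B) (hf : f = ∑ i, s i * CFC.sqrt b * w i) (row : ι → Option R')
    (col : ι → κ) (wy Y : ι → B)
    (hY : ∀ v, Y v = Option.elim (row v) f (fun _ => CFC.sqrt b) * wy v) (π : FreeGroup ι →* Q)
    (z : κ × Q → B) :
    qform (kerQ (gens ι) (kerY row col Y) π) z ≤
      ∑ r : R' × Q, star (∑ a, famRow row col wy π (some r.1) r.2 a * z a) * b *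
          (∑ a, famRow row col wy π (some r.1) r.2 a * z a) +
        ∑ r : Fin N × Q,
          star (∑ a, (Real.sqrt N * ‖s r.1‖) • (w r.1 * famRow row col wy π none r.2 a) * z a) * b *
            (∑ a, (Real.sqrt N * ‖s r.1‖) • (w r.1 * famRow row col wy π none r.2 a) * z a) := by
  have hrow : ∀ o q, (∑ v, if row v = o then Y v * z (col v, (π (FreeGroup.of v))⁻¹ * q) else 0) =
      Option.elim o f (fun _ => CFC.sqrt b) * ∑ a, famRow row col wy π o q a * z a := fun o q => by
    rw [sum_famRow, Finset.mul_sum]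
    refine Finset.sum_congr rfl fun v _ => ?_
    split_ifs with hv
    · rw [hY, hv, mul_assoc]
    · rw [mul_zero]
  have hbb : CFC.sqrt b * CFC.sqrt b = b := CFC.sqrt_mul_sqrt_self b hb0
  have hbs : star (CFC.sqrt b) = CFC.sqrt b :=
    (IsSelfAdjoint.of_nonneg (CFC.sqrt_nonneg b)).star_eq
  rw [qform_kerY row col Y π (gens ι) mem_gens z, Fintype.sum_option, add_comm]
  refine add_le_add (le_of_eq ?_) ?_
  · rw [Fintype.sum_prod_type]
    refine Finset.sum_congr rfl fun r _ => Finset.sum_congr rfl fun q _ => ?_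
    rw [hrow, Option.elim_some, star_mul, hbs]
    simp only [mul_assoc]
    rw [← mul_assoc (CFC.sqrt b) (CFC.sqrt b), hbb]
  · rw [Fintype.sum_prod_type, Finset.sum_comm]
    refine Finset.sum_le_sum fun q _ => ?_
    rw [hrow, Option.elim_none, hf]
    refine (gram_factor_le hb0 s w _).trans (le_of_eq (Finset.sum_congr rfl fun i _ => ?_))
    simp only [smul_mul_assoc, Finset.smul_sum, Finset.mul_sum, mul_assoc]

end Family

/-- Rows from few elements are dominated by rows weighted with `b`. -/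
theorem tail_le {κ Q : Type} [Fintype κ] [DecidableEq κ] [Fintype Q] [DecidableEq Q] {b : B}
    (hb0 : 0 ≤ b) {N' Nv K : ℕ} (s' w' : Fin N' → B) (c : Fin K → B) {η₁ C ε' : ℝ}
    (hη₁ : 0 ≤ η₁) (hC : 0 ≤ C) (hε' : 2 * (K : ℝ) * K * C * (η₁ * η₁) ≤ ε') {p : B}
    (hp : p = ∑ i, s' i * CFC.sqrt b * w' i) (hcp' : ∀ l, ‖c l - p * c l‖ ≤ η₁)
    (v : Fin Nv → κ × Q → Fin K → ℂ)
    (hvb : ∀ (l : Fin K) (ξ : κ × Q → ℂ), ∑ r, ‖∑ a, v r a l * ξ a‖ ^ 2 ≤ C * ∑ a, ‖ξ a‖ ^ 2)
    (z : κ × Q → B) :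
    ∑ r, star (∑ a, (∑ l, v r a l • c l) * z a) * (∑ a, (∑ l, v r a l • c l) * z a) ≤
      (∑ r : Fin N' × Fin Nv,
        star (∑ a, (Real.sqrt 2 * (Real.sqrt N' * ‖s' r.1‖)) •
            (w' r.1 * ∑ l, v r.2 a l • c l) * z a) * b *
          (∑ a, (Real.sqrt 2 * (Real.sqrt N' * ‖s' r.1‖)) •
            (w' r.1 * ∑ l, v r.2 a l • c l) * z a)) + ε' • ∑ a, star (z a) * z a := by
  set E : Fin Nv → B := fun r => ∑ a, (∑ l, v r a l • c l) * z a
  set P := ∑ a, star (z a) * z a
  have hP0 : 0 ≤ P := Finset.sum_nonneg fun a _ => star_mul_self_nonneg _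
  have hsplit : ∀ r, star (E r) * E r ≤
      (2 : ℝ) • (star (p * E r) * (p * E r)) +
        (2 : ℝ) • (star (E r - p * E r) * (E r - p * E r)) := fun r => by
    have := star_add_mul_add_le (p * E r) (E r - p * E r)
    rwa [add_sub_cancel] at this
  refine (Finset.sum_le_sum fun r _ => hsplit r).trans ?_
  rw [Finset.sum_add_distrib]
  refine add_le_add ?_ ?_
  · rw [hp, Fintype.sum_prod_type, Finset.sum_comm (γ := Fin N')]
    refine Finset.sum_le_sum fun r _ => ?_
    refine (smul_le_smul_of_nonneg_left (gram_factor_le hb0 s' w' (E r)) zero_le_two).trans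
      (le_of_eq ?_)
    rw [Finset.smul_sum]
    refine Finset.sum_congr rfl fun i _ => ?_
    have e2 : ∑ a, (Real.sqrt 2 * (Real.sqrt N' * ‖s' i‖)) • (w' i * ∑ l, v r a l • c l) * z a =
        (Real.sqrt 2 * (Real.sqrt N' * ‖s' i‖)) • (w' i * E r) := by
      simp only [E, Finset.smul_sum, Finset.mul_sum]
      refine Finset.sum_congr rfl fun a _ => ?_
      simp only [smul_mul_assoc, mul_smul_comm, Finset.sum_mul, Finset.mul_sum, Finset.smul_sum,
        mul_assoc]
    rw [e2]
    simp only [star_smul, star_trivial, smul_mul_assoc, mul_smul_comm, smul_smul]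
    congr 1
    calc 2 * (Real.sqrt N' * ‖s' i‖ * (Real.sqrt N' * ‖s' i‖))
        = Real.sqrt 2 * Real.sqrt 2 * (Real.sqrt N' * ‖s' i‖ * (Real.sqrt N' * ‖s' i‖)) := by
          rw [Real.mul_self_sqrt zero_le_two]
      _ = _ := by ring
  · rw [← Finset.smul_sum]
    have hD : ∀ r, E r - p * E r = ∑ l, (c l - p * c l) * ∑ a, v r a l • z a := fun r => by
      have e1 : E r = ∑ l, c l * ∑ a, v r a l • z a := by
        simp only [E, Finset.sum_mul, Finset.mul_sum, smul_mul_assoc, mul_smul_comm]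
        exact Finset.sum_comm
      rw [e1, Finset.mul_sum, ← Finset.sum_sub_distrib]
      exact Finset.sum_congr rfl fun l _ => by rw [sub_mul, mul_assoc]
    have h3 : ∀ r l, star ((c l - p * c l) * ∑ a, v r a l • z a) *
          ((c l - p * c l) * ∑ a, v r a l • z a) ≤
        (η₁ * η₁) • (star (∑ a, v r a l • z a) * ∑ a, v r a l • z a) := fun r l => by
      have hle' : star (c l - p * c l) * (c l - p * c l) ≤ (η₁ * η₁) • (1 : B) :=
        le_smul_one (IsSelfAdjoint.star_mul_self _) (by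
          rw [CStarRing.norm_star_mul_self]
          exact mul_le_mul (hcp' l) (hcp' l) (norm_nonneg _) hη₁)
      have := star_left_conjugate_le_conjugate hle' (∑ a, v r a l • z a)
      simpa [star_mul, mul_assoc, mul_smul_comm, smul_mul_assoc] using this
    have h2 : ∑ r, star (E r - p * E r) * (E r - p * E r) ≤ ((K : ℝ) * K * C * (η₁ * η₁)) • P := by
      calc ∑ r, star (E r - p * E r) * (E r - p * E r)
          ≤ ∑ r, (K : ℝ) • ∑ l, (η₁ * η₁) • (star (∑ a, v r a l • z a) * ∑ a, v r a l • z a) :=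
            Finset.sum_le_sum fun r _ => by
              rw [hD r]
              refine (gram_sum_le _).trans ?_
              rw [Fintype.card_fin]
              exact smul_le_smul_of_nonneg_left (Finset.sum_le_sum fun l _ => h3 r l) K.cast_nonneg
        _ = ((K : ℝ) * (η₁ * η₁)) •
            ∑ l, ∑ r, star (∑ a, v r a l • z a) * ∑ a, v r a l • z a := by
            rw [Finset.sum_comm (γ := Fin K)]
            simp only [← Finset.smul_sum, smul_smul]
        _ ≤ ((K : ℝ) * (η₁ * η₁)) • ∑ _l : Fin K, C • P :=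
            smul_le_smul_of_nonneg_left
              (Finset.sum_le_sum fun l _ => sum_scalar_sq_le (fun r a => v r a l) hC (hvb l) z)
              (by positivity)
        _ = _ := by
            rw [Finset.sum_const, Finset.card_univ, Fintype.card_fin, ← Nat.cast_smul_eq_nsmul ℝ,
              smul_smul, smul_smul]
            congr 1; ring
    refine (smul_le_smul_of_nonneg_left h2 zero_le_two).trans ?_
    rw [smul_smul]
    exact smul_le_smul_of_nonneg_right (by linarith) hP0

section Core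

variable {ι κ R' : Type} [Fintype ι] [DecidableEq ι] [Fintype κ] [DecidableEq κ] [Fintype R']
  [DecidableEq R']

/-- The kernel of a family, compressed by a unit and lowered, is positive on the free group. -/
theorem family_kernel_pos {row : ι → Option R'} {col : ι → κ} {Y : ι → B} {σ κ₀ : ℝ} {u D : B}
    (hus : star u = u) (hσ0 : 0 ≤ σ)
    (hσ : ∀ r, ‖∑ v, if row v = r then Y v * star (Y v) else 0‖ ≤ σ) (hκ : 0 < κ₀) (hκ1 : κ₀ < 1)
    (hD : ∀ k, D ≤ (1 - κ₀) • colGram col Y k - (2 * σ / κ₀) • (1 : B))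
    (W : Finset (FreeGroup ι)) (c : FreeGroup ι → κ → B) :
    0 ≤ ∑ h ∈ W, ∑ h' ∈ W, ∑ k, ∑ k', star (c h k) *
      (u * kerY row col Y (h * h'⁻¹) k k' * u -
        if h * h'⁻¹ = 1 ∧ k = k' then u * D * u else 0) * c h' k' := by
  have hfree := free_lower row col Y hσ0 hσ hκ hκ1 W fun h k => u * c h k
  have hd : ∑ h ∈ W, ∑ k, star (u * c h k) * D * (u * c h k) ≤
      ∑ h ∈ W, ∑ h' ∈ W, ∑ k, ∑ k',
        star (u * c h k) * kerY row col Y (h * h'⁻¹) k k' * (u * c h' k') :=
    (Finset.sum_le_sum fun h _ => Finset.sum_le_sum fun k _ =>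
      star_left_conjugate_le_conjugate (hD k) _).trans hfree
  rw [← sub_nonneg] at hd
  refine hd.trans_eq ?_
  simp only [mul_sub, sub_mul, Finset.sum_sub_distrib, mul_ite, ite_mul, mul_zero, zero_mul,
    star_mul, hus, mul_assoc, mul_inv_eq_one]
  congr 1
  refine Finset.sum_congr rfl fun h hh => ?_
  symm
  rw [Finset.sum_eq_single_of_mem h hh fun h' _ hne =>
    Finset.sum_eq_zero fun k _ => Finset.sum_eq_zero fun k' _ => if_neg fun h2 => hne h2.1.symm]
  simp

set_option maxHeartbeats 800000 in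
-- one long assembly
/-- Rows in a quotient dominating `e` up to `ε`, for a family of generators. -/
theorem exists_rows (hA : SI.IsSimpleIdeal A) (hcp : SI.HasCPApprox A) {e b f : B} (he : e ∈ A)
    (he0 : 0 ≤ e) (hb0 : 0 ≤ b) (hsbA : CFC.sqrt b ∈ A) (hsb0 : CFC.sqrt b ≠ 0) {N : ℕ}
    (s w : Fin N → B) (hf : f = ∑ i, s i * CFC.sqrt b * w i) (hfA : f ∈ A) (row : ι → Option R')
    (col : ι → κ) (wy Y : ι → B) (hwy : ∀ v, wy v ∈ A)
    (hY : ∀ v, Y v = Option.elim (row v) f (fun _ => CFC.sqrt b) * wy v) {σ κ₀ ε : ℝ} (hσ0 : 0 ≤ σ)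
    (hσ : ∀ r, ‖∑ v, if row v = r then Y v * star (Y v) else 0‖ ≤ σ) (hκ : 0 < κ₀) (hκ1 : κ₀ < 1)
    (hε : 0 < ε)
    (hD : ∀ k, e - (ε / 2) • (1 : B) ≤ (1 - κ₀) • colGram col Y k - (2 * σ / κ₀) • (1 : B)) :
    ∃ (Q : Type) (_ : Fintype Q) (_ : DecidableEq Q) (ρ : Type) (_ : Fintype ρ) (_ : DecidableEq ρ)
      (V : ρ → κ × Q → B), 0 < Fintype.card Q ∧
      Fintype.card ρ ≤ (Fintype.card R' + N + 1) * Fintype.card Q ∧ (∀ r a, V r a ∈ A) ∧
      ∀ z : κ × Q → B, ∑ a, star (z a) * e * z a ≤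
        ∑ r, star (∑ a, V r a * z a) * b * (∑ a, V r a * z a) + ε • ∑ a, star (z a) * z a := by
  classical
  have hAB := hA.2.1
  have hYA : ∀ v, Y v ∈ A := fun v => by
    rw [hY v]; exact (hAB _ _ (hwy v)).1
  set Ker := kerY row col Y
  have hKA : ∀ t k k', Ker t k k' ∈ A := fun t k k' =>
    sum_mem fun u _ => sum_mem fun u' _ => by
      split_ifs
      · exact (hAB _ _ (hYA u')).1
      · exact A.zero_mem
  set Kn : ℝ := ((gens ι).card : ℝ) * Fintype.card κ * Fintype.card κ with hKn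
  set δu : ℝ := ε / (64 * (Kn + 1)) with hδu
  have hKn0 : 0 ≤ Kn := by positivity
  obtain ⟨u, huA, hu0, hu1, hu⟩ := SI.exists_unit_approx hA
    (insert e ((gens ι ×ˢ (Finset.univ : Finset (κ × κ))).image fun v => Ker v.1 v.2.1 v.2.2))
    (by
      intro z hz
      rcases Finset.mem_insert.1 hz with rfl | hz
      · exact he
      · obtain ⟨v, -, rfl⟩ := Finset.mem_image.1 hz; exact hKA _ _ _)
    (show 0 < δu by positivity)
  have hus : star u = u := (IsSelfAdjoint.of_nonneg hu0).star_eq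
  set D : B := e - (ε / 2) • (1 : B) with hDdef
  have hDA : u * D * u ∈ A := (hAB _ _ huA).1
  have hDs : IsSelfAdjoint (u * D * u) := by
    have hD' : IsSelfAdjoint D := (IsSelfAdjoint.of_nonneg he0).sub
      (IsSelfAdjoint.of_nonneg (smul_nonneg (by positivity) zero_le_one))
    simpa [hus] using hD'.conjugate u
  let Zk : FreeGroup ι → κ → κ → B := fun t k k' =>
    u * Ker t k k' * u - if t = 1 ∧ k = k' then u * D * u else 0
  have hZA : ∀ t k k', Zk t k k' ∈ A := fun t k k' => A.sub_mem (hAB _ _ huA).1 (by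
    split_ifs
    · exact hDA
    · exact A.zero_mem)
  have hZsupp : ∀ t ∉ gens ι, ∀ k k', Zk t k k' = 0 := fun t ht k k' => by
    have h1 : t ≠ 1 := fun h1 => ht (h1 ▸ Finset.mem_insert_self _ _)
    have h2 : Ker t k k' = 0 := Finset.sum_eq_zero fun v _ => Finset.sum_eq_zero fun v' _ =>
      if_neg (by rintro ⟨_, _, _, h4⟩; exact ht (h4 ▸ mem_gens v v'))
    simp [Zk, h1, h2]
  have hZherm : ∀ t k k', Zk t⁻¹ k k' = star (Zk t k' k) := fun t k k' => by
    simp only [Zk, Ker, kerY_star, inv_eq_one, star_sub, star_mul, hus, apply_ite star,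
      star_zero, mul_assoc]
    congr 1
    refine if_congr ⟨fun h => ⟨h.1, h.2.symm⟩, fun h => ⟨h.1, h.2.symm⟩⟩ ?_ rfl
    have := hDs.star_eq
    simp only [star_mul, hus, mul_assoc] at this
    exact this.symm
  obtain ⟨K, c, C, hcA, hC, htr⟩ := exists_transfer hA hcp (gens ι) Zk hZA hZsupp hZherm
    (fun W c => family_kernel_pos hus hσ0 hσ hκ hκ1 hD W c) (γ := ε / 16) (by positivity)
  -- a factorisation through `√b` acting as a unit on the rows
  obtain ⟨η₁, hη₁, hη₁ε⟩ : ∃ η₁ > (0 : ℝ), 2 * (K : ℝ) * K * C * (η₁ * η₁) ≤ ε / 16 := by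
    set X := 2 * (K : ℝ) * K * C
    have hX : 0 ≤ X := by positivity
    set η₁ := min 1 (ε / (16 * (X + 1)))
    refine ⟨η₁, by positivity, ?_⟩
    have h1 : η₁ ≤ ε / (16 * (X + 1)) := min_le_right _ _
    rw [le_div_iff₀ (by positivity)] at h1
    have h2 : η₁ * η₁ ≤ η₁ := mul_le_of_le_one_left (by positivity) (min_le_left _ _)
    have h3 := mul_le_mul_of_nonneg_left h2 hX
    have h4 : 0 ≤ η₁ := by positivity
    nlinarith
  set Cn : ℝ := 1 + ∑ l, ‖c l‖
  have hCn : 1 ≤ Cn := le_add_of_nonneg_right (Finset.sum_nonneg fun _ _ => norm_nonneg _)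
  obtain ⟨w₀, hw₀A, -, -, hw₀⟩ := SI.exists_unit_approx hA (Finset.univ.image c)
    (by simp [hcA]) (half_pos hη₁)
  obtain ⟨N', s', w', hs'w', hp⟩ := SI.exists_approx_bi hA hsbA hsb0 hw₀A
    (show 0 < η₁ / 2 / Cn by positivity)
  set p := ∑ i, s' i * CFC.sqrt b * w' i with hpdef
  have hcp' : ∀ l, ‖c l - p * c l‖ ≤ η₁ := fun l => by
    have h1 := (hw₀ (c l) (Finset.mem_image_of_mem _ (Finset.mem_univ l))).1.le
    have h2 : ‖(w₀ - p) * c l‖ ≤ η₁ / 2 := by
      refine (norm_mul_le _ _).trans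
        ((mul_le_mul hp.le ?_ (norm_nonneg _) (by positivity)).trans_eq
          (div_mul_cancel₀ _ (show Cn ≠ 0 by positivity)))
      exact (Finset.single_le_sum (f := fun l => ‖c l‖) (fun _ _ => norm_nonneg _)
        (Finset.mem_univ l)).trans (le_add_of_nonneg_left zero_le_one)
    rw [show c l - p * c l = -(w₀ * c l - c l) + (w₀ - p) * c l by noncomm_ring]
    refine (norm_add_le _ _).trans ?_
    rw [norm_neg]; linarith
  obtain ⟨Q, hQg, hQf, hQd, π, Nv, v, hNv, hvb, hineq⟩ := htr (1 / (N' + 1)) (by positivity)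
  have hn : 0 < Fintype.card Q := Fintype.card_pos
  let V : (R' × Q) ⊕ ((Fin N × Q) ⊕ (Fin N' × Fin Nv)) → κ × Q → B :=
    Sum.elim (fun r => famRow row col wy π (some r.1) r.2)
      (Sum.elim (fun r a => (Real.sqrt N * ‖s r.1‖) • (w r.1 * famRow row col wy π none r.2 a))
        (fun r a => (Real.sqrt 2 * (Real.sqrt N' * ‖s' r.1‖)) •
          (w' r.1 * ∑ l, v r.2 a l • c l)))
  have hfamA : ∀ o q a, famRow row col wy π o q a ∈ A := fun o q a => sum_ite_mem hwy
  refine ⟨Q, hQf, hQd, _, inferInstance, inferInstance, V, hn, ?_, ?_, fun z => ?_⟩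
  · simp only [Fintype.card_sum, Fintype.card_prod, Fintype.card_fin]
    have h1 : N' * Nv ≤ Fintype.card Q := by
      rw [one_div, ← div_eq_inv_mul, le_div_iff₀ (by positivity)] at hNv
      have h2 : (N' : ℝ) * Nv ≤ Fintype.card Q := by nlinarith [Nat.cast_nonneg (α := ℝ) Nv]
      exact_mod_cast h2
    rw [add_mul, add_mul, one_mul]
    omega
  · rintro (r | r | r) a
    · exact hfamA _ _ _
    · show (Real.sqrt N * ‖s r.1‖) • _ ∈ A
      rw [← Complex.coe_smul]; exact A.smul_mem _ (hAB _ _ (hfamA _ _ _)).1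
    · show (Real.sqrt 2 * (Real.sqrt N' * ‖s' r.1‖)) • _ ∈ A
      rw [← Complex.coe_smul]
      exact A.smul_mem _ (hAB _ _ (sum_mem fun l _ => A.smul_mem _ (hcA l))).1
  -- the inequality
  set P := ∑ a, star (z a) * z a with hP
  have hP0 : 0 ≤ P := Finset.sum_nonneg fun a _ => star_mul_self_nonneg _
  have hfreeQ := qform_family_le hb0 s w hf row col wy Y hY π z
  have htail := tail_le hb0 s' w' c hη₁.le hC hη₁ε hpdef hcp' v hvb z
  set E : Fin Nv → B := fun r => ∑ a, (∑ l, v r a l • c l) * z a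
  set uK := qform (kerQ (gens ι) (fun t k k' => u * Ker t k k' * u) π) z
  set Du := ∑ a, star (z a) * (u * D * u) * z a
  have hdiag : qform (kerQ (gens ι) Zk π) z = uK - Du := by
    simp only [uK, Du]
    rw [← kerQ_one (show (1 : FreeGroup ι) ∈ gens ι from Finset.mem_insert_self _ _)
      (u * D * u) π z, ← qform_sub]
    exact congrArg (qform · z) (funext₂ fun a b => kerQ_sub (gens ι) _ _ π a b)
  have hKsa : IsSelfAdjoint (qform (kerQ (gens ι) Ker π) z) := by
    rw [show Ker = kerY row col Y from rfl, qform_kerY row col Y π (gens ι) mem_gens z]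
    exact IsSelfAdjoint.of_nonneg
      (Finset.sum_nonneg fun _ _ => Finset.sum_nonneg fun _ _ => star_mul_self_nonneg _)
  have hpert : (uK - qform (kerQ (gens ι) Ker π) z) +
      star (uK - qform (kerQ (gens ι) Ker π) z) ≤ (2 * (ε / 32)) • P := by
    have e1 : uK - qform (kerQ (gens ι) Ker π) z =
        qform (kerQ (gens ι) (fun t k k' => u * Ker t k k' * u - Ker t k k') π) z := by
      simp only [uK]
      rw [← qform_sub]
      exact congrArg (qform · z) (funext₂ fun a b => (kerQ_sub (gens ι) _ _ π a b).symm)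
    rw [e1]
    refine (kerQ_pert_le (gens ι) _ π z).trans (smul_le_smul_of_nonneg_right ?_ hP0)
    refine mul_le_mul_of_nonneg_left ?_ zero_le_two
    have hb3 : ∑ t ∈ gens ι, ∑ k, ∑ k', ‖u * Ker t k k' * u - Ker t k k'‖ ≤ Kn * (2 * δu) := by
      refine (Finset.sum_le_card_nsmul _ _ _ fun t ht => Finset.sum_le_card_nsmul _ _
        (Fintype.card κ • (2 * δu)) fun k _ =>
          Finset.sum_le_card_nsmul _ _ (2 * δu) fun k' _ => ?_).trans_eq ?_
      · obtain ⟨h1, h2⟩ := hu (Ker t k k') (Finset.mem_insert_of_mem (Finset.mem_image.2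
          ⟨(t, k, k'), Finset.mem_product.2 ⟨ht, Finset.mem_univ _⟩, rfl⟩))
        exact norm_conj_sub_le hu1 h1 h2
      · simp only [nsmul_eq_mul, Finset.card_univ, hKn]; ring
    refine hb3.trans ?_
    rw [hδu, ← mul_div_assoc, ← mul_div_assoc, div_le_iff₀ (by positivity)]
    nlinarith
  have hEsa : IsSelfAdjoint (∑ r, star (E r) * E r) :=
    IsSelfAdjoint.of_nonneg (Finset.sum_nonneg fun r _ => star_mul_self_nonneg _)
  have hDusa : IsSelfAdjoint Du := by
    rw [IsSelfAdjoint, star_sum]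
    exact Finset.sum_congr rfl fun a _ => (hDs.conjugate' (z a)).star_eq
  have hmain : Du ≤ qform (kerQ (gens ι) Ker π) z + (ε / 16 + ε / 32) • P +
      ∑ r, star (E r) * E r :=
    add_pert hP0 (hineq z) hEsa hDusa hKsa hdiag hpert
  have hDlow : ∑ a, star (z a) * e * z a ≤ Du + (ε / 2 + ε / 32) • P := by
    have h1 : e ≤ u * D * u + (ε / 2 + ε / 32) • (1 : B) := by
      have hue : e - u * e * u ≤ (ε / 32) • (1 : B) := by
        obtain ⟨h1, h2⟩ := hu e (Finset.mem_insert_self _ _)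
        refine le_smul_one ((IsSelfAdjoint.of_nonneg he0).sub
          (by simpa [hus] using (IsSelfAdjoint.of_nonneg he0).conjugate u)) ?_
        rw [norm_sub_rev]
        refine (norm_conj_sub_le hu1 h1 h2).trans ?_
        rw [hδu, ← mul_div_assoc, div_le_iff₀ (by positivity)]
        nlinarith
      have huu1 : (ε / 2) • (u * u) ≤ (ε / 2) • (1 : B) := by
        refine smul_le_smul_of_nonneg_left ?_ (by positivity)
        have := le_smul_one (r := 1) ((IsSelfAdjoint.of_nonneg hu0).mul_self_nonneg.isSelfAdjoint)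
          ((norm_mul_le _ _).trans (mul_le_one₀ hu1 (norm_nonneg _) hu1))
        rwa [one_smul] at this
      rw [← sub_nonneg] at hue huu1 ⊢
      refine (add_nonneg hue huu1).trans_eq ?_
      simp only [hDdef, mul_sub, sub_mul, mul_smul_comm, smul_mul_assoc, mul_one, add_smul]
      abel
    rw [hP, Finset.smul_sum, ← Finset.sum_add_distrib]
    refine Finset.sum_le_sum fun a _ => (star_left_conjugate_le_conjugate h1 (z a)).trans_eq ?_
    simp [mul_add, add_mul, mul_smul_comm, smul_mul_assoc]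
  have hsum : (∑ r, star (∑ a, V r a * z a) * b * (∑ a, V r a * z a)) =
      (∑ r, star (∑ a, V (.inl r) a * z a) * b * (∑ a, V (.inl r) a * z a)) +
        ((∑ r, star (∑ a, V (.inr (.inl r)) a * z a) * b *
            (∑ a, V (.inr (.inl r)) a * z a)) +
          ∑ r, star (∑ a, V (.inr (.inr r)) a * z a) * b *
            (∑ a, V (.inr (.inr r)) a * z a)) := by
    rw [Fintype.sum_sum_type, Fintype.sum_sum_type]
  rw [hsum]
  refine hDlow.trans ((add_le_add (hmain.trans (add_le_add (add_le_add hfreeQ le_rfl) htail))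
    le_rfl).trans ?_)
  simp only [V, Sum.elim_inl, Sum.elim_inr]
  rw [← sub_nonneg]
  refine (smul_nonneg (show (0 : ℝ) ≤ ε - (ε / 16 + ε / 32 + ε / 16 + (ε / 2 + ε / 32)) by
    linarith) hP0).trans_eq ?_
  simp only [sub_smul, add_smul]
  abel

end Core

theorem exists_matrix (S : SI.Setup (genIdeal d) A d) (hcp : SI.HasCPApprox A) {ε : ℝ}
    (hε : 0 < ε) :
    ∃ M : ℕ, 0 < M ∧ ∀ e b : B, ∀ (he : e ∈ genIdeal d) (hb : b ∈ genIdeal d),
      0 ≤ e → ‖e‖ ≤ 1 → 0 ≤ b → ‖b‖ ≤ 1 → b ≠ 0 →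
      (∀ τ, SI.IsNormTrace (genIdeal d) d τ → (M : ℝ) * (τ ⟨e, he⟩).re ≤ (τ ⟨b, hb⟩).re) →
      ∃ J : ℕ, 0 < J ∧ ∃ W : Fin J → Fin (2 * J) → B, (∀ j a, W j a ∈ A) ∧
        ‖CStarMatrix.ofMatrix (Matrix.of fun a a' : Fin (2 * J) =>
            (∑ j, star (W j a) * b * W j a') - if a = a' then e else 0)‖ ≤ ε := by
  classical
  obtain ⟨κ₀, hκ, hκ1, hκε⟩ : ∃ κ₀ : ℝ, 0 < κ₀ ∧ κ₀ < 1 ∧ κ₀ ≤ ε / 8 :=
    ⟨min (1 / 2) (ε / 8), by positivity, (min_le_left _ _).trans_lt (by norm_num),
      min_le_right _ _⟩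
  obtain ⟨L, hL⟩ := exists_nat_ge (32 / (κ₀ * ε) + 1)
  have hL1 : (1 : ℝ) ≤ L := by
    have : (0 : ℝ) < 32 / (κ₀ * ε) := by positivity
    linarith
  have hL0 : 0 < L := by exact_mod_cast lt_of_lt_of_le zero_lt_one hL1
  refine ⟨2 * (L + 2), by omega, fun e b he hb he0 he1 hb0 hb1 hbne h => ?_⟩
  set M := 2 * (L + 2) with hM
  have hM0 : (0 : ℝ) < M := by exact_mod_cast (show 0 < M by omega)
  have hA := S.simple
  have hAB := hA.2.1
  have hd0 := S.d_nonneg
  set sb := CFC.sqrt b with hsbdef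
  have hsbA : sb ∈ A := sqrt_mem hA.1 hAB (S.le hb) hb0
  have hsbb : sb * sb = b := CFC.sqrt_mul_sqrt_self b hb0
  have hsb0 : sb ≠ 0 := fun h0 => hbne (by rw [← hsbb, h0, zero_mul])
  obtain ⟨a₀, ha₀, -, -, had⟩ := S.d_unit
  obtain ⟨N, s, w, hw, hdf⟩ := exists_factor hA hsbA hsb0 ha₀ had (S.le S.d_mem)
  set m' := N + 1 with hm'
  set θ : ℝ := 1 / (L * M * m') with hθdef
  have hθ : 0 < θ := by positivity
  obtain ⟨I, Jy, x, y, hx, hy, hle, hge, hxx, hyy⟩ := exists_dual S he hb he0 hb0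
    (β := 1 / M) (θ := θ) (γ := ε / 16) (by positivity) hθ (by positivity) fun τ hτ => by
      rw [one_div, ← div_eq_inv_mul, le_div_iff₀ hM0, mul_comm]
      exact h τ hτ
  obtain ⟨y', hy'A, hyy', hy'G⟩ := exists_range_split hAB hb0 y hy
    (show (0 : ℝ) ≤ 1 / M by positivity) hyy (show 0 < ε / 32 by positivity)
  obtain ⟨x', hx'A, hxx', hx'G⟩ := exists_range_split hAB
    ((IsSelfAdjoint.of_nonneg hd0).mul_self_nonneg) x hx hθ.le hxx (show 0 < ε / 32 by positivity)
  rw [CFC.sqrt_mul_self d hd0] at hxx' hx'G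
  rw [← hsbdef] at hyy' hy'G
  set G := ∑ i, star (x i) * x i + ∑ j, star (y j) * y j with hG
  set G₀ := ∑ i, star (d * x' i) * (d * x' i) + ∑ j, star (sb * y' j) * (sb * y' j) with hG₀
  have hG0 : 0 ≤ G₀ := add_nonneg (Finset.sum_nonneg fun i _ => star_mul_self_nonneg _)
    (Finset.sum_nonneg fun i _ => star_mul_self_nonneg _)
  have hGp : 0 ≤ G := add_nonneg (Finset.sum_nonneg fun i _ => star_mul_self_nonneg _)
    (Finset.sum_nonneg fun i _ => star_mul_self_nonneg _)
  have hdiff : ‖G₀ - G‖ ≤ ε / 16 := by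
    have e1 : G₀ - G = ∑ i, (star (d * x' i) * (d * x' i) - star (x i) * x i) +
          ∑ j, (star (sb * y' j) * (sb * y' j) - star (y j) * y j) := by
      rw [hG₀, hG, Finset.sum_sub_distrib, Finset.sum_sub_distrib]; abel
    rw [e1]
    refine (norm_add_le _ _).trans ((add_le_add ((norm_sum_le _ _).trans hx'G)
      ((norm_sum_le _ _).trans hy'G)).trans (by linarith))
  have hlow : e - (ε / 2 - ε / 16) • (1 : B) ≤ (1 - κ₀) • G₀ := by
    have h1 : G - G₀ ≤ (ε / 16) • (1 : B) :=
      le_smul_one ((IsSelfAdjoint.of_nonneg hGp).sub (IsSelfAdjoint.of_nonneg hG0))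
        (by rw [norm_sub_rev]; exact hdiff)
    have hG1 : G ≤ (1 : ℝ) • (1 : B) := le_smul_one (IsSelfAdjoint.of_nonneg hGp)
      ((CStarAlgebra.norm_le_norm_of_nonneg_of_le hGp hle).trans he1)
    rw [one_smul] at hG1
    have h2 : κ₀ • G ≤ (ε / 8) • (1 : B) :=
      (smul_le_smul_of_nonneg_left hG1 hκ.le).trans
        (smul_le_smul_of_nonneg_right hκε zero_le_one)
    have h3 : (1 - κ₀) • (G - G₀) ≤ (ε / 16) • (1 : B) := by
      refine (smul_le_smul_of_nonneg_left h1 (by linarith)).trans ?_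
      rw [smul_smul]
      exact smul_le_smul_of_nonneg_right (mul_le_of_le_one_left (by positivity) (by linarith))
        zero_le_one
    have h0 : (0 : B) ≤ (ε / 2 - ε / 16 - ε / 8 - ε / 16 - ε / 16) • (1 : B) :=
      smul_nonneg (by linarith) zero_le_one
    rw [← sub_nonneg] at h2 h3 hge ⊢
    refine (add_nonneg (add_nonneg (add_nonneg h3 h2) hge) h0).trans_eq ?_
    simp only [sub_smul, one_smul, smul_sub]
    abel
  -- generators
  let ι := (Fin M × Fin m') × ((Fin L × Fin m') × Fin Jy ⊕ Fin I)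
  let row : ι → Option (Fin L × Fin m') := fun u => Sum.elim (fun v => some v.1) (fun _ => none) u.2
  set c₀ : ℝ := (Real.sqrt (L * m'))⁻¹ with hc₀
  have hc₀2 : c₀ * c₀ = 1 / (L * m') := by
    rw [hc₀, ← mul_inv, Real.mul_self_sqrt (by positivity), one_div]
  let wy : ι → B := fun u => Sum.elim (fun v => c₀ • y' v.2) (fun i => x' i) u.2
  let Y : ι → B := fun u => Option.elim (row u) d (fun _ => sb) * wy u
  have hwyA : ∀ v, wy v ∈ A := by
    rintro ⟨k, v | i⟩
    · show c₀ • y' v.2 ∈ A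
      rw [← Complex.coe_smul]; exact A.smul_mem _ (hy'A _)
    · exact hx'A i
  have hcol : ∀ k, colGram (Prod.fst : ι → Fin M × Fin m') Y k = G₀ := fun k => by
    rw [colGram, Fintype.sum_prod_type,
      Finset.sum_eq_single k (fun k' _ hk => by simp [hk]) (by simp)]
    simp only [Fintype.sum_sum_type, Fintype.sum_prod_type, Y, wy, row, Sum.elim_inl,
      Sum.elim_inr, Option.elim_some, Option.elim_none, star_smul, star_trivial, smul_mul_assoc,
      mul_smul_comm, smul_smul, hc₀2, if_true]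
    rw [hG₀, add_comm (∑ i, star (d * x' i) * (d * x' i))]
    congr 1
    simp only [← Finset.smul_sum, Finset.sum_const, Finset.card_univ, Fintype.card_fin,
      ← Nat.cast_smul_eq_nsmul ℝ, smul_smul]
    convert one_smul ℝ _ using 2
    field_simp
    exact div_self (Nat.cast_ne_zero.2 (by omega))
  have hσ : ∀ r, ‖∑ u, if row u = r then Y u * star (Y u) else 0‖ ≤ 1 / L := by
    intro r
    have key : ∀ {z v : B} {c q : ℝ}, 0 ≤ z → z ≤ c • v → ‖v‖ ≤ 1 → 0 ≤ c → 0 ≤ q →
        q * c ≤ 1 / L → ‖q • z‖ ≤ 1 / L := fun {z v c q} hz hzv hv hc hq hqc => by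
      rw [norm_smul, Real.norm_of_nonneg hq]
      refine le_trans (mul_le_mul_of_nonneg_left ?_ hq) hqc
      refine (CStarAlgebra.norm_le_norm_of_nonneg_of_le hz hzv).trans ?_
      rw [norm_smul, Real.norm_of_nonneg hc]
      exact mul_le_of_le_one_right hc hv
    rcases r with _ | r
    · have e1 : (∑ u, if row u = none then Y u * star (Y u) else 0) =
          ((M : ℝ) * m') • ∑ i, d * x' i * star (d * x' i) := by
        rw [Fintype.sum_prod_type]
        simp [row, Y, wy, Fintype.sum_sum_type, ← Nat.cast_smul_eq_nsmul ℝ]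
      rw [e1]
      refine key (Finset.sum_nonneg fun i _ => mul_star_self_nonneg _) hxx'
        ((norm_mul_le _ _).trans (mul_le_one₀ S.d_norm (norm_nonneg _) S.d_norm)) hθ.le
        (by positivity) (le_of_eq ?_)
      rw [hθdef]; field_simp
      exact div_self (Nat.cast_ne_zero.2 (by omega))
    · have e1 : (∑ u, if row u = some r then Y u * star (Y u) else 0) =
          ((M : ℝ) * m' * (1 / (L * m'))) • ∑ j, sb * y' j * star (sb * y' j) := by
        rw [Fintype.sum_prod_type]
        simp [row, Y, wy, Fintype.sum_sum_type, Fintype.sum_prod_type (α₁ := Fin L × Fin m'),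
          smul_smul, hc₀2, ← Nat.cast_smul_eq_nsmul ℝ, ← Finset.smul_sum]
      rw [e1]
      refine key (Finset.sum_nonneg fun i _ => mul_star_self_nonneg _) hyy' hb1 (by positivity)
        (by positivity) (le_of_eq ?_)
      field_simp
      exact div_self (Nat.cast_ne_zero.2 (by omega))
  have hσε : 2 * (1 / (L : ℝ)) / κ₀ ≤ ε / 16 := by
    have h32 : 32 / (κ₀ * ε) ≤ L := by linarith
    rw [div_le_iff₀ (by positivity)] at h32
    rw [mul_one_div, div_div, div_le_iff₀ (by positivity)]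
    nlinarith
  have hDle : ∀ k, e - (ε / 2) • (1 : B) ≤
      (1 - κ₀) • colGram (Prod.fst : ι → Fin M × Fin m') Y k - (2 * (1 / L) / κ₀) • (1 : B) :=
    fun k => by
      rw [hcol]
      have h1 := sub_le_sub hlow (smul_le_smul_of_nonneg_right hσε (zero_le_one (α := B)))
      refine le_trans (le_of_eq ?_) h1
      rw [sub_smul]
      abel
  obtain ⟨Q, hQf, hQd, ρ, hρf, hρd, V, hn, hcard, hVA, hineq⟩ := exists_rows hA hcp (S.le he) he0
    hb0 hsbA hsb0 s w hdf (S.le S.d_mem) row Prod.fst wy Y hwyA (fun _ => rfl)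
    (show (0 : ℝ) ≤ 1 / L by positivity) hσ hκ hκ1 hε hDle
  refine ⟨(L + 2) * m' * Fintype.card Q, by positivity,
    exists_clip hA ?_ ?_ (S.le he) he0 hb0 V hVA hε hineq⟩
  · refine hcard.trans (Nat.mul_le_mul_right _ ?_)
    simp only [Fintype.card_prod, Fintype.card_fin, hm']
    nlinarith
  · simp only [Fintype.card_prod, Fintype.card_fin, hM]
    ring

end Vale.Agent.P095.Weak
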