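import Vale.Agent.P095.Weak.Zone
import Vale.Agent.P095.Rel.Z.Tensor
import Vale.Agent.P095.SI.Trace
import Mathlib.Analysis.CStarAlgebra.CStarMatrix

/-!
P095 Weak: in a `Z`-stable algebra a matrix comparison of `2 J` copies with `J` copies gives two
single comparisons, and elements split off orthogonal equivalent halves.
-/

open scoped ComplexOrder WithCStarModule InnerProductSpace

namespace Vale.Agent.P095.Weak

open Vale.Agent.P101.Lit Vale.Agent.P095.Rel Vale.Agent.P095.Rel.Z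

section Generic

variable {R : Type*} [NormedRing R]

theorem norm_mul_le_of_le {a b : R} {x y : ℝ} (ha : ‖a‖ ≤ x) (hb : ‖b‖ ≤ y) :
    ‖a * b‖ ≤ x * y :=
  (norm_mul_le a b).trans (mul_le_mul ha hb (norm_nonneg b) ((norm_nonneg a).trans ha))

/-- Commutators with a product of contractions. -/
theorem norm_comm_mul_le {a b x : R} {δ γ : ℝ} (ha : ‖a‖ ≤ 1) (hb : ‖b‖ ≤ 1)
    (hax : ‖a * x - x * a‖ ≤ δ) (hbx : ‖b * x - x * b‖ ≤ γ) :
    ‖a * b * x - x * (a * b)‖ ≤ δ + γ := by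
  rw [show a * b * x - x * (a * b) = a * (b * x - x * b) + (a * x - x * a) * b by noncomm_ring]
  refine (norm_add_le _ _).trans ?_
  linarith [norm_mul_le_of_le ha hbx, norm_mul_le_of_le hax hb]

/-- The middle pair of a term moves together. -/
theorem norm_move_le {z₁ z₂ w₁ w₂ b t₁ t₂ : R} {K δ : ℝ} (hz₁ : ‖z₁‖ ≤ 1) (hz₂ : ‖z₂‖ ≤ 1)
    (hw₁ : ‖w₁‖ ≤ K) (hw₂ : ‖w₂‖ ≤ K) (ht₂ : ‖t₂‖ ≤ 1) (hbt : ‖t₁ * b - b * t₁‖ ≤ δ) :
    ‖z₁ * w₁ * t₁ * b * t₂ * w₂ * z₂ - z₁ * (w₁ * b * (t₁ * t₂) * w₂) * z₂‖ ≤ K ^ 2 * δ := by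
  rw [show z₁ * w₁ * t₁ * b * t₂ * w₂ * z₂ - z₁ * (w₁ * b * (t₁ * t₂) * w₂) * z₂ =
    z₁ * (w₁ * (t₁ * b - b * t₁) * t₂ * w₂) * z₂ by noncomm_ring]
  refine (norm_mul_le_of_le (norm_mul_le_of_le hz₁ (norm_mul_le_of_le (norm_mul_le_of_le
    (norm_mul_le_of_le hw₁ hbt) ht₂) hw₂)) hz₂).trans_eq ?_
  ring

/-- The middle pair moves outside. -/
theorem norm_out_le {z₁ z₂ w₁ w₂ b g₁ g₂ : R} {K δ : ℝ} (hz₁ : ‖z₁‖ ≤ 1) (hz₂ : ‖z₂‖ ≤ 1)
    (hw₁ : ‖w₁‖ ≤ K) (hw₂ : ‖w₂‖ ≤ K) (hb : ‖b‖ ≤ K) (hg₁ : ‖g₁‖ ≤ 1) (hg₂ : ‖g₂‖ ≤ 1)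
    (hw₁g : ‖g₁ * w₁ - w₁ * g₁‖ ≤ δ) (hbg : ‖g₁ * b - b * g₁‖ ≤ δ)
    (hw₂g : ‖g₂ * w₂ - w₂ * g₂‖ ≤ δ) :
    ‖z₁ * (w₁ * b * (g₁ * g₂) * w₂) * z₂ - z₁ * (g₁ * (w₁ * b * w₂) * g₂) * z₂‖ ≤
      3 * K ^ 2 * δ := by
  rw [show z₁ * (w₁ * b * (g₁ * g₂) * w₂) * z₂ - z₁ * (g₁ * (w₁ * b * w₂) * g₂) * z₂ =
    z₁ * (w₁ * b * g₁ * (g₂ * w₂ - w₂ * g₂) - w₁ * (g₁ * b - b * g₁) * (w₂ * g₂) -
      (g₁ * w₁ - w₁ * g₁) * b * (w₂ * g₂)) * z₂ by noncomm_ring]
  refine (norm_mul_le_of_le (norm_mul_le_of_le hz₁ ((norm_sub_le _ _).trans (add_le_add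
    ((norm_sub_le _ _).trans (add_le_add
      (norm_mul_le_of_le (norm_mul_le_of_le (norm_mul_le_of_le hw₁ hb) hg₁) hw₂g)
      (norm_mul_le_of_le (norm_mul_le_of_le hw₁ hbg) (norm_mul_le_of_le hw₂ hg₂))))
    (norm_mul_le_of_le (norm_mul_le_of_le hw₁g hb) (norm_mul_le_of_le hw₂ hg₂))))) hz₂).trans_eq ?_
  ring

end Generic

section Star

variable {B : Type*} [CStarAlgebra B]

theorem norm_star_comm (y x : B) :
    ‖star y * x - x * star y‖ = ‖y * star x - star x * y‖ := by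
  rw [← norm_star (star y * x - x * star y), norm_sub_rev]
  simp

variable [PartialOrder B] [StarOrderedRing B]

/-- A matrix moves a column of squares by at most its norm. -/
theorem norm_quad_le {n : ℕ} (E : CStarMatrix (Fin n) (Fin n) B) (Y : Fin n → B) :
    ‖∑ a, ∑ a', star (Y a) * E a a' * Y a'‖ ≤ ‖E‖ * ‖∑ a, star (Y a) * Y a‖ := by
  set v : C⋆ᵐᵒᵈ(B, Fin n → B) := (WithCStarModule.equiv _ _).symm fun a => star (Y a)
  have e1 : ⟪v, CStarMatrix.toCLM E v⟫_B = ∑ a, ∑ a', star (Y a) * E a a' * Y a' := by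
    rw [CStarMatrix.toCLM_apply_eq_sum]
    simp only [v, WithCStarModule.pi_inner, WithCStarModule.equiv_symm_pi_apply,
      WithCStarModule.inner_def, star_star, Finset.sum_mul]
    exact Finset.sum_comm
  have e2 : ⟪v, v⟫_B = ∑ a, star (Y a) * Y a := by
    simp [v, WithCStarModule.pi_inner, WithCStarModule.inner_def]
  rw [← e1, ← e2, ← CStarModule.norm_sq_eq B, CStarMatrix.norm_def]
  refine (CStarModule.norm_inner_le _).trans ?_
  have h := (CStarMatrix.toCLM E).le_opNorm v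
  nlinarith [norm_nonneg v]

end Star

variable {B : Type*} [CStarAlgebra B] [PartialOrder B] [StarOrderedRing B] {A : Submodule ℂ B}
  [IsUnitisation A] {j : ∀ i, St B (pp i) (qq i) → B}

/-- The image of a tensor has at most the norm of the tensor. -/
theorem norm_jt_le (Z : ZData A j) {m : ℕ} {u : B} (hu : u ∈ A) (hu1 : ‖u‖ ≤ 1)
    {h : St ℂ (pp m) (qq m)} (hh : ‖h‖ ≤ 1) : ‖j m (tensor m u h)‖ ≤ 1 :=
  (Z.norm_map _ _ (tensor_mem hu m h)).trans_le
    ((norm_tensor_le _ _ _).trans (mul_le_one₀ hu1 (norm_nonneg _) hh))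

theorem jt_mul (Z : ZData A j) {m : ℕ} {a b : B} (ha : a ∈ A) (hb : b ∈ A)
    (g h : St ℂ (pp m) (qq m)) :
    j m (tensor m a g) * j m (tensor m b h) = j m (tensor m (a * b) (g * h)) := by
  rw [← Z.map_mul m _ _ (tensor_mem ha m g) (tensor_mem hb m h), tensor_mul]

theorem jt_star (Z : ZData A j) {m : ℕ} {a : B} (ha : a ∈ A)
    (g : St ℂ (pp m) (qq m)) : star (j m (tensor m a g)) = j m (tensor m (star a) (star g)) := by
  rw [← Z.map_star m _ (tensor_mem ha m g), Rel.Z.star_tensor]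

theorem jt_sum (Z : ZData A j) {m : ℕ} {a : B} (ha : a ∈ A) {ι : Type*}
    (s : Finset ι) (g : ι → St ℂ (pp m) (qq m)) :
    ∑ x ∈ s, j m (tensor m a (g x)) = j m (tensor m a (∑ x ∈ s, g x)) := by
  induction s using Finset.cons_induction with
  | empty => simp [tensor_zero_right, Z.map_zero]
  | cons x s hx ih =>
    rw [Finset.sum_cons, Finset.sum_cons, tensor_add_right,
      Z.map_add m _ _ (tensor_mem ha m _) (tensor_mem ha m _), ih]

/-- Finitely many elements, seen in one deep stage: tensors with an approximate unit and a nearly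
commuting scalar part nearly commute with them. -/
theorem exists_deep (hA : SI.IsSimpleIdeal A) (Z : ZData A j) (X Y : Finset B)
    (hX : ∀ x ∈ X, x ∈ A) (hY : ∀ y ∈ Y, y ∈ A) {δ : ℝ} (hδ : 0 < δ) :
    ∃ i, ∃ G : Finset (St ℂ (pp i) (qq i)), ∃ ν > (0 : ℝ), ∃ u ∈ A, IsSelfAdjoint u ∧ ‖u‖ ≤ 1 ∧
      (∀ y ∈ Y, ‖u * u * y - y‖ ≤ δ) ∧ ∀ m (hm : i ≤ m),
        (∀ h : St ℂ (pp m) (qq m), ‖h‖ ≤ 1 →
          (∀ k ∈ G, ‖h * conn hm k - conn hm k * h‖ ≤ ν) →
          ∀ x ∈ X, ‖j m (tensor m u h) * x - x * j m (tensor m u h)‖ ≤ δ) ∧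
        ∀ x ∈ X, ‖x * j m (tensor m (u * u * (u * u)) 1) - x‖ ≤ δ := by
  classical
  choose L f hf hfx using fun x : {x // x ∈ X} => Z.dense x.1 (hX x.1 x.2) (δ / 16) (by positivity)
  set i := X.attach.sup L
  have hL : ∀ x, L x ≤ i := fun x => Finset.le_sup (Finset.mem_attach _ x)
  choose N c k hc hfc using fun x : {x // x ∈ X} => exists_tensor_approx_StI
    (conn_mem_StI (hL x) (hf x)) (show (0 : ℝ) < δ / 16 by positivity)
  set W := 1 + ∑ x : {x // x ∈ X}, ∑ l, (‖c x l‖ + 4 * ‖k x l‖) with hW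
  have hW0 : 1 ≤ W := le_add_of_nonneg_right
    (Finset.sum_nonneg fun x _ => Finset.sum_nonneg fun l _ => by positivity)
  obtain ⟨ν, hν0, hνW, hνd⟩ : ∃ ν : ℝ, 0 < ν ∧ ν * W ≤ δ / 4 ∧ 2 * ν ≤ δ :=
    ⟨δ / (4 * W), by positivity, le_of_eq (by field_simp),
      by rw [mul_div_assoc', div_le_iff₀ (by positivity)]; nlinarith⟩
  obtain ⟨u, huA, hu0, hu1, hu⟩ := SI.exists_unit_approx hA
    (Y ∪ X.attach.biUnion fun x => Finset.univ.image (c x))
    (fun y hy => (Finset.mem_union.1 hy).elim (hY y) fun hy => by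
      obtain ⟨x, -, hx⟩ := Finset.mem_biUnion.1 hy
      obtain ⟨l, -, rfl⟩ := Finset.mem_image.1 hx
      exact hc x l) hν0
  refine ⟨i, X.attach.biUnion fun x => Finset.univ.image (k x), ν, hν0, u, huA,
    IsSelfAdjoint.of_nonneg hu0, hu1, fun y hy => ?_, fun m hm => ?_⟩
  · have h1 := (hu y (Finset.mem_union_left _ hy)).1.le
    rw [show u * u * y - y = u * (u * y - y) + (u * y - y) by noncomm_ring]
    linarith [norm_add_le (u * (u * y - y)) (u * y - y), norm_mul_le_of_le hu1 h1]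
  have hcu : ∀ (x : {x // x ∈ X}) l, ‖u * c x l - c x l‖ ≤ ν ∧ ‖c x l * u - c x l‖ ≤ ν :=
    fun x l => by
      obtain ⟨h1, h2⟩ := hu (c x l) (Finset.mem_union_right _ (Finset.mem_biUnion.2
        ⟨x, Finset.mem_attach _ _, Finset.mem_image_of_mem _ (Finset.mem_univ l)⟩))
      exact ⟨h1.le, h2.le⟩
  have hkn : ∀ (x : {x // x ∈ X}) l, ‖conn hm (k x l)‖ ≤ ‖k x l‖ := fun x l =>
    (norm_conn hm _).le
  have hsum : ∀ x : {x // x ∈ X}, ∑ l, (‖c x l‖ + 4 * ‖k x l‖) ≤ W := fun x => by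
    rw [hW]
    linarith [Finset.single_le_sum
      (f := fun x : {x // x ∈ X} => ∑ l, (‖c x l‖ + 4 * ‖k x l‖))
      (fun x _ => Finset.sum_nonneg fun l _ => by positivity) (Finset.mem_univ x)]
  let T : {x // x ∈ X} → St B (pp m) (qq m) := fun x =>
    ∑ l, tensor m (c x l) (conn hm (k x l))
  have hTm : ∀ x, T x ∈ StI A (pp m) (qq m) := fun x =>
    Submodule.sum_mem _ fun l _ => tensor_mem (hc x l) _ _
  have hxT : ∀ x : {x // x ∈ X}, ‖x.1 - j m (T x)‖ ≤ δ / 8 := fun x => by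
    set g := conn ((hL x).trans hm) (f x)
    have hg : g ∈ StI A (pp m) (qq m) := conn_mem_StI _ (hf x)
    have h1 : ‖g - T x‖ ≤ δ / 16 := by
      have e : T x = conn hm (∑ l, tensor i (c x l) (k x l)) := by
        rw [_root_.map_sum]
        exact Finset.sum_congr rfl fun l _ => (conn_tensor hm _ _).symm
      rw [e, show g = conn hm (conn (hL x) (f x)) from (conn_conn _ _ _).symm, ← map_sub, norm_conn]
      exact hfc x
    have h2 : ‖x.1 - j m g‖ ≤ δ / 16 := by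
      rw [norm_sub_rev, Z.compat _ m _ _ (hf x)]
      exact (hfx x).le
    rw [← Z.norm_sub m _ _ hg (hTm x)] at h1
    linarith [norm_sub_le_norm_sub_add_norm_sub x.1 (j m g) (j m (T x))]
  refine ⟨fun h hh hhk x hx => ?_, fun x hx => ?_⟩
  · set y := tensor m u h
    have hy : y ∈ StI A (pp m) (qq m) := tensor_mem huA m h
    have hcomm : ‖y * T ⟨x, hx⟩ - T ⟨x, hx⟩ * y‖ ≤ δ / 2 := by
      refine (norm_tensor_comm_sum_le m u h (c ⟨x, hx⟩) fun l => conn hm (k ⟨x, hx⟩ l)).trans ?_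
      refine (Finset.sum_le_sum (g := fun l => ν * (‖c ⟨x, hx⟩ l‖ + 4 * ‖k ⟨x, hx⟩ l‖))
        fun l _ => ?_).trans ?_
      · obtain ⟨h1, h2⟩ := hcu ⟨x, hx⟩ l
        have h3 : ‖u * c ⟨x, hx⟩ l - c ⟨x, hx⟩ l * u‖ ≤ 2 * ν := by
          linarith [norm_sub_le_norm_sub_add_norm_sub (u * c ⟨x, hx⟩ l) (c ⟨x, hx⟩ l)
            (c ⟨x, hx⟩ l * u), norm_sub_rev (c ⟨x, hx⟩ l) (c ⟨x, hx⟩ l * u)]
        have h4 := hhk (k ⟨x, hx⟩ l) (Finset.mem_biUnion.2
          ⟨⟨x, hx⟩, Finset.mem_attach _ _, Finset.mem_image_of_mem _ (Finset.mem_univ l)⟩)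
        have t1 := mul_le_mul h3 (norm_mul_le_of_le hh (hkn ⟨x, hx⟩ l)) (norm_nonneg _)
          (by positivity)
        have t2 := mul_le_mul ((norm_mul_le (c ⟨x, hx⟩ l) u).trans
          (mul_le_of_le_one_right (norm_nonneg _) hu1)) h4 (norm_nonneg _) (norm_nonneg _)
        nlinarith [norm_nonneg (k ⟨x, hx⟩ l)]
      · rw [← Finset.mul_sum]
        exact (mul_le_mul_of_nonneg_left (hsum _) hν0.le).trans (hνW.trans (by linarith))
    rw [← Z.norm_sub m _ _ (mul_mem_StI y (hTm _)).1 (mul_mem_StI (T _) hy).1,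
      Z.map_mul m _ _ hy (hTm _), Z.map_mul m _ _ (hTm _) hy] at hcomm
    exact (norm_comm_le ((Z.norm_map m y hy).trans_le
      ((norm_tensor_le _ _ _).trans (mul_le_one₀ hu1 (norm_nonneg _) hh))) (hxT ⟨x, hx⟩)
      hcomm).trans (by linarith)
  · set v := u * u * (u * u)
    have hvA : v ∈ A := (hA.2.1 _ _ ((hA.2.1 u u huA).1)).1
    have hv1 : ‖v‖ ≤ 1 :=
      (norm_mul_le_of_le (norm_mul_le_of_le hu1 hu1) (norm_mul_le_of_le hu1 hu1)).trans_eq (by ring)
    have hcv : ∀ l, ‖c ⟨x, hx⟩ l * v - c ⟨x, hx⟩ l‖ ≤ 4 * ν := fun l => by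
      obtain ⟨-, h⟩ := hcu ⟨x, hx⟩ l
      set d := c ⟨x, hx⟩ l * u - c ⟨x, hx⟩ l
      rw [show c ⟨x, hx⟩ l * v - c ⟨x, hx⟩ l = d * (u * u * u) + d * (u * u) + d * u + d by
        simp only [d, v]; noncomm_ring]
      refine (norm_add_le _ _).trans ((add_le_add norm_add₃_le le_rfl).trans ?_)
      linarith [norm_mul_le_of_le h (norm_mul_le_of_le (norm_mul_le_of_le hu1 hu1) hu1),
        norm_mul_le_of_le h (norm_mul_le_of_le hu1 hu1), norm_mul_le_of_le h hu1]
    set y := tensor m v (1 : St ℂ (pp m) (qq m))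
    have hy : y ∈ StI A (pp m) (qq m) := tensor_mem hvA m 1
    have hTy : ‖T ⟨x, hx⟩ * y - T ⟨x, hx⟩‖ ≤ δ / 4 := by
      simp only [T, y, Finset.sum_mul, ← Finset.sum_sub_distrib, tensor_mul, mul_one,
        ← tensor_sub_left]
      refine (norm_sum_le _ _).trans ((Finset.sum_le_sum
        (g := fun l => ν * (‖c ⟨x, hx⟩ l‖ + 4 * ‖k ⟨x, hx⟩ l‖)) fun l _ => ?_).trans ?_)
      · refine (norm_tensor_le _ _ _).trans ((mul_le_mul (hcv l) (hkn ⟨x, hx⟩ l) (norm_nonneg _)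
          (by positivity)).trans ?_)
        nlinarith [norm_nonneg (c ⟨x, hx⟩ l)]
      · rw [← Finset.mul_sum]
        exact (mul_le_mul_of_nonneg_left (hsum _) hν0.le).trans hνW
    rw [← Z.norm_sub m _ _ (mul_mem_StI _ hy).1 (hTm _), Z.map_mul m _ _ (hTm _) hy] at hTy
    rw [show x * j m y - x = (x - j m (T ⟨x, hx⟩)) * j m y +
      (j m (T ⟨x, hx⟩) * j m y - j m (T ⟨x, hx⟩)) - (x - j m (T ⟨x, hx⟩)) by noncomm_ring]
    have hy1 : ‖j m y‖ ≤ 1 := (Z.norm_map m y hy).trans_le (by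
      rw [show y = cst B (pp m) (qq m) v from tensor_one m v]
      exact (NonUnitalStarAlgHom.norm_apply_le _ v).trans hv1)
    refine (norm_sub_le _ _).trans ((add_le_add (norm_add_le _ _) le_rfl).trans ?_)
    linarith [norm_mul_le_of_le (hxT ⟨x, hx⟩) hy1, hxT ⟨x, hx⟩]

theorem exists_pair (hA : SI.IsSimpleIdeal A) (Z : ZData A j) {e b : B} (he : e ∈ A) (hb : b ∈ A)
    {J : ℕ} (hJ : 0 < J) (W : Fin J → Fin (2 * J) → B) (hWA : ∀ l a, W l a ∈ A) {ε : ℝ}
    (hε : 0 < ε)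
    (hW : ‖CStarMatrix.ofMatrix (Matrix.of fun a a' : Fin (2 * J) =>
        (∑ l, star (W l a) * b * W l a') - if a = a' then e else 0)‖ ≤ ε) :
    ∃ r : Bool → B, (∀ s, r s ∈ A) ∧ ‖(∑ s, star (r s) * b * r s) - e‖ ≤ 4 * ε := by
  classical
  set K : ℝ := 1 + ‖b‖ + ∑ l, ∑ a, ‖W l a‖ with hK
  have hW0 : 0 ≤ ∑ l, ∑ a, ‖W l a‖ :=
    Finset.sum_nonneg fun l _ => Finset.sum_nonneg fun a _ => norm_nonneg _
  have hK1 : 1 ≤ K := by linarith [norm_nonneg b]
  have hWK : ∀ l a, ‖W l a‖ ≤ K := fun l a => by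
    have h1 := Finset.single_le_sum (f := fun a => ‖W l a‖) (fun a _ => norm_nonneg _)
      (Finset.mem_univ a)
    have h2 := Finset.single_le_sum (f := fun l => ∑ a, ‖W l a‖)
      (fun l _ => Finset.sum_nonneg fun a _ => norm_nonneg _) (Finset.mem_univ l)
    linarith [norm_nonneg b]
  have hbK : ‖b‖ ≤ K := by linarith
  set n : ℝ := ((2 * J : ℕ) : ℝ) with hn
  obtain ⟨δ, hδ0, hδ⟩ : ∃ δ : ℝ, 0 < δ ∧ (n * n * J * J * (4 * K ^ 2) + 2 * n + 1) * δ ≤ ε :=
    ⟨ε / (n * n * J * J * (4 * K ^ 2) + 2 * n + 1), by positivity,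
      le_of_eq (mul_div_cancel₀ _ (by positivity))⟩
  set X0 : Finset B := {e, b} ∪ Finset.univ.image fun p : Fin J × Fin (2 * J) => W p.1 p.2
  have hX0 : ∀ x ∈ X0, x ∈ A := fun x hx => by
    simp only [X0, Finset.mem_union, Finset.mem_insert, Finset.mem_singleton, Finset.mem_image,
      Finset.mem_univ, true_and] at hx
    rcases hx with (rfl | rfl) | ⟨p, rfl⟩ <;> solve_by_elim
  obtain ⟨i, G, ν, hν0, u, huA, husa, hu1, -, hdeep⟩ := exists_deep hA Z (X0 ∪ X0.image star) ∅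
    (fun x hx => (Finset.mem_union.1 hx).elim (hX0 x) fun hx => by
      obtain ⟨y, hy, rfl⟩ := Finset.mem_image.1 hx
      exact IsUnitisation.star_mem y (hX0 y hy))
    (by simp) hδ0
  obtain ⟨m, hm, ψ, g, t, z, hψ, hz⟩ := exists_zone i G hν0 hJ
  obtain ⟨hcomm, hunit⟩ := hdeep m hm
  have hX0' : ∀ x ∈ X0, ∀ y : B, (∀ x' ∈ X0 ∪ X0.image star, ‖y * x' - x' * y‖ ≤ δ) →
      ‖y * x - x * y‖ ≤ δ ∧ ‖star y * x - x * star y‖ ≤ δ ∧
      ‖y * star x - star x * y‖ ≤ δ ∧ ‖star y * star x - star x * star y‖ ≤ δ := fun x hx y hy =>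
    ⟨hy x (Finset.mem_union_left _ hx), (norm_star_comm y x).trans_le
      (hy _ (Finset.mem_union_right _ (Finset.mem_image_of_mem _ hx))),
      hy _ (Finset.mem_union_right _ (Finset.mem_image_of_mem _ hx)),
      (norm_star_comm y (star x)).trans_le (by
        rw [star_star]; exact hy x (Finset.mem_union_left _ hx))⟩
  have heX : e ∈ X0 := by simp [X0]
  have hbX : b ∈ X0 := by simp [X0]
  have hWX : ∀ l a, W l a ∈ X0 := fun l a => by
    simp only [X0, Finset.mem_union, Finset.mem_image, Finset.mem_univ, true_and]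
    exact Or.inr ⟨(l, a), rfl⟩
  set v := u * u * (u * u)
  have hu2 : u * u ∈ A := (hA.2.1 u u huA).1
  have hu21 : ‖u * u‖ ≤ 1 := (norm_mul_le_of_le hu1 hu1).trans_eq (one_mul 1)
  have hvA : v ∈ A := (hA.2.1 _ _ hu2).1
  let T : Bool → Fin J → B := fun s l => j m (tensor m u (t s l))
  let Za : Bool → Fin (2 * J) → B := fun s a => j m (tensor m u (z s a))
  let Gs : Bool → B := fun s => j m (tensor m u (g s))
  refine ⟨fun s => ∑ l, ∑ a, T s l * W l a * Za s a,
    fun s => A.sum_mem fun l _ => A.sum_mem fun a _ => (hA.2.1 _ _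
      ((hA.2.1 (T s l) _ (hWA l a)).1)).2, ?_⟩
  -- one side
  have hside : ∀ s, ‖star (∑ l, ∑ a, T s l * W l a * Za s a) * b *
      (∑ l, ∑ a, T s l * W l a * Za s a) - e * j m (tensor m v (ψ s))‖ ≤
      ε + (n * n * J * J * (4 * K ^ 2) + 2 * n) * δ := by
    intro s
    obtain ⟨hψc, hψ1, hg1, ht1, hz1, htt, hgz, hk⟩ := hz s
    have hTn : ∀ l, ‖T s l‖ ≤ 1 := fun l => norm_jt_le Z huA hu1 (ht1 l)
    have hZn : ∀ a, ‖Za s a‖ ≤ 1 := fun a => norm_jt_le Z huA hu1 (hz1 a)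
    have hGn : ‖Gs s‖ ≤ 1 := norm_jt_le Z huA hu1 hg1
    have hTc : ∀ l, ∀ x ∈ X0 ∪ X0.image star, ‖T s l * x - x * T s l‖ ≤ δ := fun l =>
      hcomm _ (ht1 l) fun k hk' => (hk k hk').2.1 l
    have hZc : ∀ a, ∀ x ∈ X0 ∪ X0.image star, ‖Za s a * x - x * Za s a‖ ≤ δ := fun a =>
      hcomm _ (hz1 a) fun k hk' => (hk k hk').2.2 a
    have hGc : ∀ x ∈ X0 ∪ X0.image star, ‖Gs s * x - x * Gs s‖ ≤ δ :=
      hcomm _ hg1 fun k hk' => (hk k hk').1
    have hTT : ∀ l l', star (T s l) * T s l' = if l = l' then star (Gs s) * Gs s else 0 := by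
      intro l l'
      simp only [T, Gs, jt_star Z huA, husa.star_eq, jt_mul Z huA huA, htt]
      split_ifs
      · rfl
      · rw [tensor_zero_right, Z.map_zero]
    let Y : Fin (2 * J) → B := fun a => Gs s * Za s a
    have hYY : ∑ a, star (Y a) * Y a = j m (tensor m v (ψ s)) := by
      have e : ∀ a, star (Y a) * Y a =
          j m (tensor m v (star (g s * z s a) * (g s * z s a))) := fun a => by
        simp only [Y, Gs, Za, jt_mul Z huA huA, jt_star Z hu2, star_mul,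
          husa.star_eq, jt_mul Z hu2 hu2, v]
      simp only [e, jt_sum Z hvA, hgz]
    have hv1 : ‖v‖ ≤ 1 := (norm_mul_le_of_le hu21 hu21).trans_eq (one_mul 1)
    have hYn : ‖∑ a, star (Y a) * Y a‖ ≤ 1 := by rw [hYY]; exact norm_jt_le Z hvA hv1 hψ1
    -- the expansion
    have hexp : star (∑ l, ∑ a, T s l * W l a * Za s a) * b * (∑ l, ∑ a, T s l * W l a * Za s a) =
        ∑ a, ∑ a', ∑ l, ∑ l', star (Za s a) * star (W l a) * star (T s l) * b * T s l' * W l' a' *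
          Za s a' := by
      rw [Finset.sum_comm (s := Finset.univ) (t := Finset.univ)
        (f := fun l a => T s l * W l a * Za s a), star_sum, Finset.sum_mul, Finset.sum_mul]
      refine Finset.sum_congr rfl fun a _ => ?_
      rw [Finset.mul_sum]
      refine Finset.sum_congr rfl fun a' _ => ?_
      rw [star_sum, Finset.sum_mul, Finset.sum_mul]
      refine Finset.sum_congr rfl fun l _ => ?_
      rw [Finset.mul_sum]
      exact Finset.sum_congr rfl fun l' _ => by simp only [star_mul, mul_assoc]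
    set S1 := ∑ a, ∑ a', star (Y a) * (∑ l, star (W l a) * b * W l a') * Y a' with hS1
    have h1 : ‖star (∑ l, ∑ a, T s l * W l a * Za s a) * b * (∑ l, ∑ a, T s l * W l a * Za s a) -
        S1‖ ≤ n * n * J * J * (4 * K ^ 2) * δ := by
      rw [hexp, hS1]
      have e : ∀ a a', star (Y a) * (∑ l, star (W l a) * b * W l a') * Y a' =
          ∑ l, ∑ l', if l = l' then star (Za s a) * (star (Gs s) * (star (W l a) * b * W l' a') *
            Gs s) * Za s a' else 0 := fun a a' => by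
        simp only [Finset.sum_ite_eq, Finset.mem_univ, if_true, Y, star_mul, Finset.mul_sum,
          Finset.sum_mul, mul_assoc]
      simp only [e, ← Finset.sum_sub_distrib]
      refine (norm_sum_le_of_le _ fun a _ => norm_sum_le_of_le _ fun a' _ => norm_sum_le_of_le _
        fun l _ => norm_sum_le_of_le _ fun l' _ => ?_).trans (le_of_eq (?_ :
          ∑ _a : Fin (2 * J), ∑ _a' : Fin (2 * J), ∑ _l : Fin J, ∑ _l' : Fin J, 4 * K ^ 2 * δ =
            _))
      · have h1 := norm_move_le (z₁ := star (Za s a)) (z₂ := Za s a') (w₁ := star (W l a))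
          (w₂ := W l' a') (t₁ := star (T s l)) (t₂ := T s l') ((norm_star _).trans_le (hZn a))
          (hZn a') ((norm_star _).trans_le (hWK l a)) (hWK l' a') (hTn l')
          (hX0' b hbX _ (hTc l)).2.1
        rw [hTT] at h1
        by_cases hll : l = l'
        · rw [if_pos hll] at h1 ⊢
          have h2 := norm_out_le (z₁ := star (Za s a)) (z₂ := Za s a') (w₁ := star (W l a))
            (w₂ := W l' a') (g₁ := star (Gs s)) (g₂ := Gs s) ((norm_star _).trans_le (hZn a))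
            (hZn a') ((norm_star _).trans_le (hWK l a)) (hWK l' a') hbK
            ((norm_star _).trans_le hGn) hGn (hX0' _ (hWX l a) _ hGc).2.2.2
            (hX0' b hbX _ hGc).2.1 (hX0' _ (hWX l' a') _ hGc).1
          exact (norm_sub_le_norm_sub_add_norm_sub _ _ _).trans ((add_le_add h1 h2).trans
            (le_of_eq (by ring)))
        · rw [if_neg hll] at h1 ⊢
          simp only [mul_zero, zero_mul, sub_zero] at h1 ⊢
          refine h1.trans ?_
          nlinarith [mul_nonneg (sq_nonneg K) hδ0.le]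
      · simp only [Finset.sum_const, Finset.card_univ, Fintype.card_fin, nsmul_eq_mul, hn]
        ring
    -- the matrix error and the diagonal
    set E : CStarMatrix (Fin (2 * J)) (Fin (2 * J)) B :=
      CStarMatrix.ofMatrix (Matrix.of fun a a' : Fin (2 * J) =>
        (∑ l, star (W l a) * b * W l a') - if a = a' then e else 0) with hE
    have hS1e : S1 = (∑ a, ∑ a', star (Y a) * E a a' * Y a') + ∑ a, star (Y a) * e * Y a := by
      rw [hS1, ← Finset.sum_add_distrib]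
      refine Finset.sum_congr rfl fun a _ => ?_
      have e1 : ∀ a', star (Y a) * E a a' * Y a' =
          star (Y a) * (∑ l, star (W l a) * b * W l a') * Y a' -
            if a = a' then star (Y a) * e * Y a' else 0 := fun a' => by
        simp only [hE, CStarMatrix.ofMatrix_apply, Matrix.of_apply, mul_sub, sub_mul, mul_ite,
          ite_mul, mul_zero, zero_mul]
      simp only [e1, Finset.sum_sub_distrib, Finset.sum_ite_eq, Finset.mem_univ, if_true,
        sub_add_cancel]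
    have h2 : ‖(∑ a, star (Y a) * e * Y a) - e * j m (tensor m v (ψ s))‖ ≤ 2 * n * δ := by
      rw [← hYY, Finset.mul_sum, ← Finset.sum_sub_distrib]
      refine (norm_sum_le_of_le _ fun a _ => ?_).trans (le_of_eq
        (?_ : ∑ _a : Fin (2 * J), 2 * δ = _))
      · rw [show star (Y a) * e * Y a - e * (star (Y a) * Y a) =
          (star (Za s a) * star (Gs s) * e - e * (star (Za s a) * star (Gs s))) * Y a by
            simp only [Y, star_mul]; noncomm_ring]
        refine (norm_mul_le_of_le (norm_comm_mul_le ((norm_star _).trans_le (hZn a))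
          ((norm_star _).trans_le hGn) (hX0' e heX _ (hZc a)).2.1 (hX0' e heX _ hGc).2.1)
          (norm_mul_le_of_le hGn (hZn a))).trans_eq ?_
        ring
      · simp only [Finset.sum_const, Finset.card_univ, Fintype.card_fin, nsmul_eq_mul, hn]
        ring
    have h3 : ‖∑ a, ∑ a', star (Y a) * E a a' * Y a'‖ ≤ ε :=
      (norm_quad_le E Y).trans ((mul_le_mul hW hYn (norm_nonneg _) hε.le).trans_eq (mul_one ε))
    rw [hS1e] at h1
    refine le_trans (le_of_eq (congrArg _ (show _ =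
      (star (∑ l, ∑ a, T s l * W l a * Za s a) * b * (∑ l, ∑ a, T s l * W l a * Za s a) -
        ((∑ a, ∑ a', star (Y a) * E a a' * Y a') + ∑ a, star (Y a) * e * Y a)) +
      (∑ a, ∑ a', star (Y a) * E a a' * Y a') +
      ((∑ a, star (Y a) * e * Y a) - e * j m (tensor m v (ψ s))) by abel))) ?_
    refine norm_add₃_le.trans ?_
    rw [add_mul]
    linarith
  have hsplit : e * j m (tensor m v (ψ true)) + e * j m (tensor m v (ψ false)) =
      e * j m (tensor m v 1) := by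
    rw [← mul_add, ← Z.map_add m _ _ (tensor_mem hvA m _) (tensor_mem hvA m _),
      ← tensor_add_right, hψ]
  have hu' := hunit e (Finset.mem_union_left _ heX)
  rw [Fintype.sum_bool]
  refine le_trans (le_of_eq (congrArg _ (show _ =
    (star (∑ l, ∑ a, T true l * W l a * Za true a) * b * (∑ l, ∑ a, T true l * W l a * Za true a) -
      e * j m (tensor m v (ψ true))) +
    (star (∑ l, ∑ a, T false l * W l a * Za false a) * b *
      (∑ l, ∑ a, T false l * W l a * Za false a) - e * j m (tensor m v (ψ false))) +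
    (e * j m (tensor m v 1) - e) by rw [← hsplit]; abel))) ?_
  refine norm_add₃_le.trans ?_
  have := hside true
  have := hside false
  linarith

/-- An element splits off two orthogonal equivalent pieces which are not small in norm. -/
theorem exists_split (hA : SI.IsSimpleIdeal A) (Z : ZData A j) {q : B} (hq : q ∈ A) (_hq1 : ‖q‖ ≤ 1)
    {η : ℝ} (hη : 0 < η) :
    ∃ s₁ s₂ : B, s₁ ∈ A ∧ s₂ ∈ A ∧ ‖s₁‖ ≤ 1 ∧ ‖s₂‖ ≤ 1 ∧
      ‖star s₂ * (star q * q) * s₂ - star (q * s₁) * (q * s₁)‖ ≤ η ∧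
      ‖star s₁ * (star q * q) * s₂‖ ≤ η ∧ ‖q‖ ^ 2 ≤ 16 * ‖q * s₁‖ ^ 2 + η := by
  classical
  set N := star q * q with hNdef
  have hNA : N ∈ A := (IsUnitisation.bimod (A := A) (star q) q hq).1
  have hNsa : star N = N := by rw [hNdef, star_mul, star_star]
  obtain ⟨δ, hδ0, hδη⟩ : ∃ δ : ℝ, 0 < δ ∧ 64 * δ ≤ η :=
    ⟨η / 64, by positivity, by linarith⟩
  obtain ⟨i, G, ν, hν0, u, huA, husa, hu1, -, hdeep⟩ :=
    exists_deep hA Z {N} ∅ (by simp [hNA]) (by simp) hδ0
  obtain ⟨m, hm, ψ, g, t, z, hψ, hz⟩ := exists_zone i G hν0 (J := 2) two_pos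
  obtain ⟨hcomm, hunit⟩ := hdeep m hm
  set v := u * u * (u * u)
  have hu2 : u * u ∈ A := (hA.2.1 u u huA).1
  have hvA : v ∈ A := (hA.2.1 _ _ hu2).1
  let P : Bool → B := fun s => N * j m (tensor m v (ψ s))
  have hsum : P true + P false = N * j m (tensor m v 1) := by
    simp only [P]
    rw [← mul_add, ← Z.map_add m _ _ (tensor_mem hvA m _) (tensor_mem hvA m _),
      ← tensor_add_right, hψ]
  have hbig : ∃ s, ‖q‖ ^ 2 ≤ 2 * ‖P s‖ + δ := by
    have h1 := hunit N (Finset.mem_singleton_self _)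
    rw [← hsum, norm_sub_rev] at h1
    have h2 : ‖N‖ = ‖q‖ ^ 2 := by rw [hNdef, CStarRing.norm_star_mul_self, sq]
    have h3 := norm_le_norm_sub_add N (P true + P false)
    have h4 := norm_add_le (P true) (P false)
    rcases le_total ‖P true‖ ‖P false‖ with h | h
    · exact ⟨false, by linarith⟩
    · exact ⟨true, by linarith⟩
  obtain ⟨s, hs⟩ := hbig
  obtain ⟨hψc, hψ1, hg1, ht1, hz1, htt, hgz, hk⟩ := hz s
  let T : Fin 2 → B := fun l => j m (tensor m u (t s l))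
  let Za : Fin (2 * 2) → B := fun a => j m (tensor m u (z s a))
  let Gs : B := j m (tensor m u (g s))
  have hTn : ∀ l, ‖T l‖ ≤ 1 := fun l => norm_jt_le Z huA hu1 (ht1 l)
  have hGn : ‖Gs‖ ≤ 1 := norm_jt_le Z huA hu1 hg1
  have hZn : ∀ a, ‖Za a‖ ≤ 1 := fun a => norm_jt_le Z huA hu1 (hz1 a)
  have hTc : ∀ l, ‖star (T l) * N - N * star (T l)‖ ≤ δ := fun l => by
    rw [norm_star_comm, hNsa]
    exact hcomm _ (ht1 l) (fun k hk' => (hk k hk').2.1 l) N (Finset.mem_singleton_self _)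
  have hZc : ∀ a, ‖star (Za a) * N - N * star (Za a)‖ ≤ δ := fun a => by
    rw [norm_star_comm, hNsa]
    exact hcomm _ (hz1 a) (fun k hk' => (hk k hk').2.2 a) N (Finset.mem_singleton_self _)
  have hTT : ∀ l l', star (T l) * T l' = if l = l' then star Gs * Gs else 0 := by
    intro l l'
    simp only [T, Gs, jt_star Z huA, husa.star_eq, jt_mul Z huA huA, htt]
    split_ifs
    · rfl
    · rw [tensor_zero_right, Z.map_zero]
  refine ⟨T 0, T 1, Z.mem m _ (tensor_mem huA m _), Z.mem m _ (tensor_mem huA m _), hTn 0, hTn 1,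
    ?_, ?_, ?_⟩
  · rw [show star (T 1) * N * T 1 - star (q * T 0) * (q * T 0) =
        (star (T 1) * N - N * star (T 1)) * T 1 - (star (T 0) * N - N * star (T 0)) * T 0 +
        N * (star (T 1) * T 1 - star (T 0) * T 0) by rw [star_mul, hNdef]; noncomm_ring,
      hTT, hTT, if_pos rfl, if_pos rfl, sub_self, mul_zero, add_zero]
    refine (norm_sub_le _ _).trans ?_
    linarith [norm_mul_le_of_le (hTc 1) (hTn 1), norm_mul_le_of_le (hTc 0) (hTn 0)]
  · rw [show star (T 0) * N * T 1 = (star (T 0) * N - N * star (T 0)) * T 1 +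
      N * (star (T 0) * T 1) by noncomm_ring, hTT, if_neg (by decide), mul_zero, add_zero]
    linarith [norm_mul_le_of_le (hTc 0) (hTn 1)]
  · have hqT : ‖N * (star Gs * Gs)‖ ≤ ‖q * T 0‖ ^ 2 + δ := by
      have h0 := hTT 0 0
      rw [if_pos rfl] at h0
      rw [← h0, show N * (star (T 0) * T 0) =
        star (q * T 0) * (q * T 0) - (star (T 0) * N - N * star (T 0)) * T 0 by
          rw [star_mul, hNdef]; noncomm_ring]
      refine (norm_sub_le _ _).trans (add_le_add (le_of_eq ?_) ?_)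
      · rw [CStarRing.norm_star_mul_self, sq]
      · exact (norm_mul_le_of_le (hTc 0) (hTn 0)).trans_eq (mul_one δ)
    have hP : ‖P s‖ ≤ 4 * (‖q * T 0‖ ^ 2 + 2 * δ) := by
      have e : j m (tensor m v (ψ s)) = ∑ a, star (Gs * Za a) * (Gs * Za a) := by
        simp only [Gs, Za, jt_mul Z huA huA, jt_star Z hu2, star_mul, husa.star_eq,
          jt_mul Z hu2 hu2, jt_sum Z hvA, ← hgz, v]
      simp only [P, e, Finset.mul_sum]
      refine (norm_sum_le_of_le _ fun a _ => ?_).trans (le_of_eq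
        (?_ : ∑ _a : Fin (2 * 2), (‖q * T 0‖ ^ 2 + 2 * δ) = _))
      · rw [show N * (star (Gs * Za a) * (Gs * Za a)) =
          star (Za a) * (N * (star Gs * Gs)) * Za a -
            (star (Za a) * N - N * star (Za a)) * (star Gs * (Gs * Za a)) by
              rw [star_mul]; noncomm_ring]
        refine (norm_sub_le _ _).trans ?_
        linarith [norm_mul_le_of_le (norm_mul_le_of_le ((norm_star _).trans_le (hZn a)) hqT)
            (hZn a),
          norm_mul_le_of_le (hZc a) (norm_mul_le_of_le ((norm_star Gs).trans_le hGn)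
            (norm_mul_le_of_le hGn (hZn a)))]
      · simp only [Finset.sum_const, Finset.card_univ, Fintype.card_fin, nsmul_eq_mul]
        norm_num
    nlinarith [sq_nonneg ‖q * T 0‖]

end Vale.Agent.P095.Weak
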