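import Vale.Agent.P095.SI.Defs
import Mathlib

/-!
P095, comparison by traces proved from `Z`-stability: definitions.
-/

open scoped ComplexOrder

namespace Vale.Agent.P095.Weak

variable {B : Type*} [CStarAlgebra B]

/-- The algebraic ideal generated by `d * d`. -/
noncomputable def genIdeal (d : B) : Submodule ℂ B :=
  Submodule.span ℂ (Set.range fun p : B × B => p.1 * (d * d) * p.2)

/-- Weak comparison by the traces on `P` normalised at `d`: small against bounded below. -/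
def WeakComp (P : Submodule ℂ B) (d : B) : Prop :=
  ∀ η > (0 : ℝ), ∀ δ > (0 : ℝ), ∃ θ > (0 : ℝ), ∀ q₁ q₂ : B, q₁ ∈ P → q₂ ∈ P → ‖q₁‖ ≤ 1 → ‖q₂‖ ≤ 1 →
    d * q₂ = q₂ → q₂ ≠ 0 →
    (∀ τ, SI.IsNormTrace P d τ → SI.tn P τ q₁ ^ 2 ≤ θ ∧ δ ≤ SI.tn P τ q₂ ^ 2) →
    ∃ r : B, ‖star r * (star q₂ * q₂) * r - star q₁ * q₁‖ ≤ η

/-- `A` is purely infinite (and simple): every nonzero positive element dominates every other. -/
def PureInf [PartialOrder B] (A : Submodule ℂ B) : Prop :=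
  ∀ a ∈ A, 0 ≤ a → ∀ b ∈ A, 0 ≤ b → b ≠ 0 → ∀ ε > (0 : ℝ), ∃ x ∈ A, ‖star x * b * x - a‖ < ε

/-- The quadratic form of a matrix over `B`. -/
noncomputable def qform {a : Type*} [Fintype a] (M : a → a → B) (z : a → B) : B :=
  ∑ i, ∑ j, star (z i) * M i j * z j

/-- The matrix on `κ × Q` of a finitely supported kernel on a group, pushed forward by `π`. -/
noncomputable def kerQ {F Q κ R : Type*} [Group F] [Group Q] [DecidableEq Q] [AddCommMonoid R]
    (S : Finset F) (Z : F → κ → κ → R) (π : F →* Q) (a b : κ × Q) : R :=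
  ∑ t ∈ S, if π t * b.2 = a.2 then Z t a.1 b.1 else 0

end Vale.Agent.P095.Weak
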