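import Vale.Agent.P095.Weak.Cover
import Vale.Agent.P095.Rel.Z.McDuff

/-! P095 Weak: halves with equal traces. -/

open scoped ComplexOrder WithCStarModule InnerProductSpace

namespace Vale.Agent.P095.Weak

open Vale.Agent.P101.Lit Vale.Agent.P095.Rel Vale.Agent.P095.Rel.Z

variable {B : Type*} [CStarAlgebra B] [PartialOrder B] [StarOrderedRing B] {A : Submodule ℂ B}
  [IsUnitisation A] {j : ∀ i, St B (pp i) (qq i) → B}

/-- The defect of a deep square-zero tensor is small against `d * d`. -/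
theorem defect_small {P : Submodule ℂ B} {d : B} (S : SI.Setup P A d) (Z : ZData A j)
    {τ : P →ₗ[ℂ] ℂ} (hτ : SI.IsNormTrace P d τ) {hc' g' : B} (hcA : hc' ∈ A) (hgA : g' ∈ A)
    (hcsa : IsSelfAdjoint hc') (hgc : g' * hc' = hc')
    (hcP : j 0 (cst B (pp 0) (qq 0) hc') ∈ P) {C : ℝ} (hC : 0 ≤ C)
    (hCb : SI.tn P τ (j 0 (cst B (pp 0) (qq 0) hc')) ≤ C * SI.tn P τ d) {u : B} (huA : u ∈ A)
    (husa : IsSelfAdjoint u) (hu1 : ‖u‖ ≤ 1) {m : ℕ} {h : St ℂ (pp m) (qq m)} (hh1 : ‖h‖ ≤ 1)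
    {η δ κ : ℝ} (hη : 0 < η) (hδ0 : 0 < δ) (hκ0 : 0 < κ) (hδ2 : 48 * δ ≤ η)
    (hce : ‖j 0 (cst B (pp 0) (qq 0) hc') * d - d‖ ≤ η / 24)
    (huy : ‖u * u * hc' - hc'‖ ≤ δ) (hκ : κ * (C * C) ≤ (η / 24) ^ 2)
    (hht : ∀ t, (∑ x, ((defect h * defect h : St ℂ (pp m) (qq m)) : Amb ℂ (pp m) (qq m)) t x x).re ≤
      κ * (pp m * qq m)) :
    SI.tn P τ ((j m (tensor m u h) * star (j m (tensor m u h)) +
      star (j m (tensor m u h)) * j m (tensor m u h) - 1) * (d * d)) ≤ η / 4 := by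
  have hb := S.bimod
  have hs := S.star_mem
  have ht := hτ.1
  have : Nontrivial B := S.d_nondeg.elim fun z hz => ⟨⟨z, 0, hz.1⟩⟩
  have hdn : SI.tn P τ d = 1 := SI.tn_d S hτ
  have hu2 : u * u ∈ A := (S.simple.2.1 u u huA).1
  set s₁ := j m (tensor m u h) with hs₁
  have hs₁n : ‖s₁‖ ≤ 1 := norm_jt_le Z huA hu1 hh1
  set Y := s₁ * star s₁ + star s₁ * s₁ - 1 with hY
  have hY3 : ‖Y‖ ≤ 3 := by
    have := norm_defect_le (R := B) ((norm_star s₁).trans_le hs₁n)
    rwa [star_star] at this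
  set z := j m (tensor m hc' (defect h))
  set c := j 0 (cst B (pp 0) (qq 0) hc') with hcdef
  have hdsa' : IsSelfAdjoint (defect h) :=
    ((IsSelfAdjoint.star_mul_self h).add (IsSelfAdjoint.mul_star_self h)).sub (IsSelfAdjoint.one _)
  have hzn : SI.tn P τ z ≤ η / 24 := by
    have h1 := tn_tensor_le Z S hcA hgA hcsa hgc hcP m hdsa' hht ht
    have h2 : SI.tn P τ c ≤ C := hCb.trans_eq (by rw [hdn, mul_one])
    refine le_of_pow_le_pow_left₀ two_ne_zero (by positivity) ?_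
    rw [sq]
    exact (h1.trans (mul_le_mul_of_nonneg_left (mul_le_mul h2 h2 (SI.tn_nonneg _) hC) hκ0.le)).trans
      hκ
  have hH : star h * h + h * star h = defect h + 1 := by simp [defect]
  have hH2 : ‖defect h + 1‖ ≤ 2 := by
    rw [← hH]
    linarith [norm_add_le (star h * h) (h * star h),
      norm_mul_le_of_le ((norm_star h).trans_le hh1) hh1,
      norm_mul_le_of_le hh1 ((norm_star h).trans_le hh1)]
  have huc : u * u * hc' ∈ A := (S.simple.2.1 _ _ hcA).1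
  have hYc : ‖Y * c - z‖ ≤ 2 * δ := by
    have hc1 : c = j m (tensor m hc' 1) := by
      rw [tensor_one, hcdef, ← Z.compat 0 m (Nat.zero_le m) _ (cst_mem_StI hcA), conn_cst]
    have e1 : s₁ * star s₁ + star s₁ * s₁ = j m (tensor m (u * u) (defect h + 1)) := by
      rw [hs₁, jt_star Z huA, husa.star_eq, jt_mul Z huA huA,
        jt_mul Z huA huA, ← Z.map_add m _ _ (tensor_mem hu2 m _) (tensor_mem hu2 m _),
        ← tensor_add_right, ← hH, add_comm (h * star h)]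
    have e2 : Y * c - z = j m (tensor m (u * u * hc' - hc') (defect h + 1)) := by
      rw [hY, sub_mul, one_mul, e1, hc1, jt_mul Z hu2 hcA, mul_one,
        ← Z.map_sub m _ _ (tensor_mem huc m _) (tensor_mem hcA m _),
        ← Z.map_sub m _ _ (Submodule.sub_mem _ (tensor_mem huc m _) (tensor_mem hcA m _))
          (tensor_mem hcA m _)]
      congr 1
      rw [tensor_sub_left, tensor_add_right, tensor_add_right]
      abel
    rw [e2, Z.norm_map _ _ (tensor_mem (A.sub_mem huc hcA) _ _)]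
    refine (norm_tensor_le _ _ _).trans ?_
    linarith [mul_le_mul huy hH2 (norm_nonneg _) hδ0.le]
  rw [show Y * (d * d) = (Y * (d - c * d) + (Y * c - z) * d) * d + z * (d * d) by noncomm_ring]
  have hzP : z ∈ P := by
    have e : z = j m (tensor m g' (defect h)) * c := by
      rw [hcdef, ← Z.compat 0 m (Nat.zero_le m) _ (cst_mem_StI hcA), conn_cst, ← tensor_one,
        jt_mul Z hgA hcA, hgc, mul_one]
    rw [e]
    exact (hb _ _ hcP).1
  refine (SI.tn_add_le hb hs ht (hb _ d S.d_mem).1 (hb _ _ hzP).2).trans ?_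
  have t1 := SI.tn_mul_left hb hs ht (Y * (d - c * d) + (Y * c - z) * d) S.d_mem
  rw [hdn, mul_one] at t1
  have t2 : SI.tn P τ (z * (d * d)) ≤ η / 24 :=
    (SI.tn_mul_right hb hs ht (d * d) hzP).trans
      ((mul_le_of_le_one_right (SI.tn_nonneg _)
        ((norm_mul_le_of_le S.d_norm S.d_norm).trans_eq (one_mul 1))).trans hzn)
  rw [norm_sub_rev] at hce
  linarith [norm_add_le (Y * (d - c * d)) ((Y * c - z) * d), norm_mul_le_of_le hY3 hce,
    norm_mul_le_of_le hYc S.d_norm]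

omit [IsUnitisation A] in
/-- An almost central square root of a matrix unit halves the traces. -/
theorem halves_trace {P : Submodule ℂ B} {d : B} (S : SI.Setup P A d) {q : B} (hq : q ∈ P)
    (hq1 : ‖q‖ ≤ 1) (hdq : d * q = q) {s₁ : B} (hs₁n : ‖s₁‖ ≤ 1) {η δ : ℝ} (hδ0 : 0 < δ)
    (hδ2 : 48 * δ ≤ η) {τ : P →ₗ[ℂ] ℂ} (hτ : SI.IsNormTrace P d τ)
    (HC : ∀ x ∈ [q, star q, d], ‖s₁ * x - x * s₁‖ ≤ δ)
    (hYd : SI.tn P τ ((s₁ * star s₁ + star s₁ * s₁ - 1) * (d * d)) ≤ η / 4) :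
    SI.tn P τ q ^ 2 ≤ 4 * SI.tn P τ (q * s₁) ^ 2 + η := by
  have hb := S.bimod
  have hs := S.star_mem
  have hdsa : IsSelfAdjoint d := IsSelfAdjoint.of_nonneg S.d_nonneg
  set N := star q * q with hNdef
  have ht := hτ.1
  have hdn : SI.tn P τ d = 1 := SI.tn_d S hτ
  have tnq : SI.tn P τ q ≤ 1 := by
    rw [← hdq]
    refine (SI.tn_mul_right hb hs ht q S.d_mem).trans ?_
    rw [hdn, one_mul]
    exact hq1
  have hqs : star q * d = star q := by
    have := congrArg star hdq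
    rwa [star_mul, hdsa.star_eq] at this
  have htr : ∀ (p : B) (b : B) (hp : p ∈ P),
      τ ⟨p * b, (hb b p hp).2⟩ = τ ⟨b * p, (hb b p hp).1⟩ := fun p b hp => ht.1 ⟨p, hp⟩ b _ _
  have hqsP : ∀ b : B, q * b ∈ P := fun b => (hb b q hq).2
  -- squares as traces
  have hsq : ∀ b : B, SI.tn P τ (q * b) ^ 2 =
      (τ ⟨q * (b * star b) * star q, (hb _ _ (hqsP _)).2⟩).re := fun b => by
    rw [sq, SI.tn_mul_self hb hs ht (hqsP b), SI.tip_eq (hb _ _ (hqsP b)).1]
    refine congrArg Complex.re (((congrArg τ (Subtype.ext ?_)).trans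
      (htr (q * b) (star (q * b)) (hqsP b)).symm).trans (congrArg τ (Subtype.ext ?_))) <;>
      simp [mul_assoc]
  set Y := s₁ * star s₁ + star s₁ * s₁ - 1 with hY
  have hYq : ‖Y * star q - star q * Y‖ ≤ 4 * δ ∧ ‖Y * d - d * Y‖ ≤ 4 * δ := by
    have e : ∀ x : B, ‖s₁ * x - x * s₁‖ ≤ δ → ‖s₁ * star x - star x * s₁‖ ≤ δ →
        ‖Y * x - x * Y‖ ≤ 4 * δ := fun x h1 h2 => by
      have h3 : ‖star s₁ * x - x * star s₁‖ ≤ δ := (norm_star_comm s₁ x).trans_le h2
      have h4 := norm_comm_mul_le hs₁n ((norm_star s₁).trans_le hs₁n) h1 h3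
      have h5 := norm_comm_mul_le ((norm_star s₁).trans_le hs₁n) hs₁n h3 h1
      rw [show Y * x - x * Y = (s₁ * star s₁ * x - x * (s₁ * star s₁)) +
        (star s₁ * s₁ * x - x * (star s₁ * s₁)) by rw [hY]; noncomm_ring]
      linarith [norm_add_le (s₁ * star s₁ * x - x * (s₁ * star s₁))
        (star s₁ * s₁ * x - x * (star s₁ * s₁))]
    exact ⟨e _ (HC _ (by simp)) (by rw [star_star]; exact HC _ (by simp)),
      e _ (HC _ (by simp)) (by rw [hdsa.star_eq]; exact HC _ (by simp))⟩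
  have hmid : |(τ ⟨q * Y * star q, (hb _ _ (hqsP _)).2⟩).re| ≤ η / 4 + 8 * δ := by
    have hin : q * Y * star q * d ∈ P := (hb _ d S.d_mem).1
    have e : τ ⟨q * Y * star q, (hb _ _ (hqsP _)).2⟩ = SI.tip P τ d (q * Y * star q * d) := by
      rw [SI.tip_eq (hb _ _ hin).1]
      refine congrArg τ (Subtype.ext ?_)
      show q * Y * star q = star d * (q * Y * star q * d)
      rw [hdsa.star_eq, mul_assoc (q * Y), hqs, ← mul_assoc d, ← mul_assoc d, hdq]
    rw [e]
    refine (Complex.abs_re_le_norm _).trans ((SI.abs_tip_le' hb hs ht S.d_mem hin).trans ?_)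
    rw [hdn, one_mul]
    have hN' : ‖q * star q‖ ≤ 1 :=
      (norm_mul_le_of_le hq1 ((norm_star q).trans_le hq1)).trans_eq (one_mul 1)
    rw [show q * Y * star q * d = (q * (Y * star q - star q * Y) - q * star q * (Y * d - d * Y)) * d
        + q * star q * (Y * (d * d)) by
      have h1 : q * star q * d = q * star q := by rw [mul_assoc, hqs]
      calc q * Y * star q * d = q * (Y * star q - star q * Y) * d + q * star q * Y * d := by
            noncomm_ring
        _ = q * (Y * star q - star q * Y) * d + q * star q * d * Y * d := by rw [h1]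
        _ = _ := by noncomm_ring]
    refine (SI.tn_add_le hb hs ht (hb _ d S.d_mem).1
      (hb _ _ (hb Y _ (hb d d S.d_mem).1).1).1).trans ?_
    have t1 := SI.tn_mul_left hb hs ht
      (q * (Y * star q - star q * Y) - q * star q * (Y * d - d * Y)) S.d_mem
    rw [hdn, mul_one] at t1
    have t2 := (SI.tn_mul_left hb hs ht (q * star q) (hb Y _ (hb d d S.d_mem).1).1).trans
      (mul_le_mul hN' hYd (SI.tn_nonneg _) zero_le_one)
    linarith [norm_sub_le (q * (Y * star q - star q * Y)) (q * star q * (Y * d - d * Y)),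
      norm_mul_le_of_le hq1 hYq.1, norm_mul_le_of_le hN' hYq.2]
  -- the two halves agree
  have hsum : SI.tn P τ (q * s₁) ^ 2 + SI.tn P τ (q * star s₁) ^ 2 =
      SI.tn P τ q ^ 2 + (τ ⟨q * Y * star q, (hb _ _ (hqsP _)).2⟩).re := by
    have h1 := hsq 1
    rw [mul_one] at h1
    rw [h1, hsq s₁, hsq (star s₁), ← Complex.add_re, ← Complex.add_re, ← map_add, ← map_add]
    refine congrArg Complex.re (congrArg τ (Subtype.ext ?_))
    simp only [Submodule.coe_add, hY, star_star, star_one]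
    noncomm_ring
  have hflip : |SI.tn P τ (q * s₁) ^ 2 - SI.tn P τ (q * star s₁) ^ 2| ≤ 2 * δ := by
    have hNP : N ∈ P := (hb _ q hq).1
    have hqd : q * star s₁ ∈ P := hqsP _
    have h2P : d * ((s₁ * q - q * s₁) * star s₁) ∈ P := (hb _ d S.d_mem).2
    have m1 : (s₁ * star q - star q * s₁) * d * (q * star s₁) ∈ P := (hb _ _ hqd).1
    have m2 : star q * (d * ((s₁ * q - q * s₁) * star s₁)) ∈ P := (hb _ _ h2P).1
    have e1 : (τ ⟨q * (s₁ * star s₁) * star q, (hb _ _ (hqsP _)).2⟩) =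
        τ ⟨N * s₁ * star s₁, (hb _ _ (hb _ _ hNP).2).2⟩ := by
      refine ((congrArg τ (Subtype.ext ?_)).trans
        (htr (q * (s₁ * star s₁)) (star q) (hqsP _))).trans (congrArg τ (Subtype.ext ?_)) <;>
        simp [hNdef, mul_assoc]
    have e2 : (τ ⟨q * (star s₁ * s₁) * star q, (hb _ _ (hqsP _)).2⟩) =
        τ ⟨s₁ * N * star s₁, (hb _ _ (hb _ _ hNP).1).2⟩ := by
      refine ((congrArg τ (Subtype.ext ?_)).trans
        (htr (q * star s₁) (s₁ * star q) hqd)).trans (congrArg τ (Subtype.ext ?_)) <;>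
        simp [hNdef, mul_assoc]
    have e3 : τ ⟨s₁ * N * star s₁, (hb _ _ (hb _ _ hNP).1).2⟩ -
        τ ⟨N * s₁ * star s₁, (hb _ _ (hb _ _ hNP).2).2⟩ = τ ⟨_, m1⟩ + τ ⟨_, m2⟩ := by
      rw [← map_sub, ← map_add]
      refine congrArg τ (Subtype.ext ?_)
      simp only [Submodule.coe_sub, Submodule.coe_add]
      rw [mul_assoc _ d, ← mul_assoc d q, hdq, ← mul_assoc (star q) d, hqs, hNdef]
      noncomm_ring
    have b1 : ‖τ ⟨_, m1⟩‖ ≤ δ := by
      have hmem : star ((s₁ * star q - star q * s₁) * d) ∈ P := hs _ (hb _ d S.d_mem).1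
      have e : τ ⟨_, m1⟩ =
          SI.tip P τ (star ((s₁ * star q - star q * s₁) * d)) (q * star s₁) := by
        rw [SI.tip_eq (hb _ _ hqd).1]
        exact congrArg τ (Subtype.ext (by rw [star_star]))
      rw [e]
      refine (SI.abs_tip_le' hb hs ht hmem hqd).trans ?_
      rw [SI.tn_star hb hs ht (hb _ d S.d_mem).1]
      refine (mul_le_mul (SI.tn_mul_left hb hs ht _ S.d_mem) (SI.tn_mul_right hb hs ht _ hq)
        (SI.tn_nonneg _) (mul_nonneg (norm_nonneg _) (SI.tn_nonneg _))).trans ?_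
      rw [hdn, mul_one]
      exact (mul_le_mul (HC _ (by simp)) (mul_le_one₀ tnq (norm_nonneg _)
        ((norm_star _).trans_le hs₁n)) (mul_nonneg (SI.tn_nonneg _) (norm_nonneg _))
          hδ0.le).trans_eq (mul_one δ)
    have b2 : ‖τ ⟨_, m2⟩‖ ≤ δ := by
      have e : τ ⟨_, m2⟩ = SI.tip P τ q (d * ((s₁ * q - q * s₁) * star s₁)) :=
        (SI.tip_eq (hb _ _ h2P).1).symm
      rw [e]
      refine (SI.abs_tip_le' hb hs ht hq h2P).trans ((mul_le_mul tnq
        (SI.tn_mul_right hb hs ht _ S.d_mem) (SI.tn_nonneg _) zero_le_one).trans ?_)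
      rw [hdn, one_mul, one_mul]
      exact (norm_mul_le_of_le (HC _ (by simp)) ((norm_star _).trans_le hs₁n)).trans_eq (mul_one δ)
    rw [hsq s₁, hsq (star s₁)]
    simp only [star_star]
    rw [e1, e2, abs_sub_comm, ← Complex.sub_re, e3]
    exact (Complex.abs_re_le_norm _).trans ((norm_add_le _ _).trans (by linarith))
  have := abs_le.1 hmid
  have := abs_le.1 hflip
  nlinarith [sq_nonneg (SI.tn P τ (q * s₁))]

/-- An element splits off two orthogonal equivalent halves with at least a quarter of its traces. -/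
theorem exists_half {P : Submodule ℂ B} {d : B} (S : SI.Setup P A d) (Z : ZData A j) {q : B}
    (hq : q ∈ P) (hq1 : ‖q‖ ≤ 1) (hdq : d * q = q) {η : ℝ} (hη : 0 < η) :
    ∃ s₁ s₂ : B, s₁ ∈ A ∧ s₂ ∈ A ∧ ‖s₁‖ ≤ 1 ∧ ‖s₂‖ ≤ 1 ∧
      ‖star s₂ * (star q * q) * s₂ - star (q * s₁) * (q * s₁)‖ ≤ η ∧
      ‖star s₁ * (star q * q) * s₂‖ ≤ η ∧
      ∀ τ, SI.IsNormTrace P d τ → SI.tn P τ q ^ 2 ≤ 4 * SI.tn P τ (q * s₁) ^ 2 + η := by
  classical
  have hb := S.bimod
  have hs := S.star_mem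
  have hdsa : IsSelfAdjoint d := IsSelfAdjoint.of_nonneg S.d_nonneg
  have hd0 : d ≠ 0 := fun h => by
    obtain ⟨z, hz, hdz⟩ := S.d_nondeg
    rw [h, zero_mul] at hdz
    exact hz hdz.symm
  obtain ⟨hc', g', hcA, hgA, hcsa, hgc, ⟨hcP, C, hC, hCb⟩, hce⟩ :=
    exists_cut S Z S.d_mem hd0 (show (0 : ℝ) < η / 24 by positivity)
  obtain ⟨δ₁, hδ₁, hcfc⟩ := SI.norm_cfc_comm (B := B) Real.continuous_sqrt 1
    (show (0 : ℝ) < η / 4 by positivity)
  obtain ⟨δ, hδ0, hδ1, hδ2⟩ : ∃ δ : ℝ, 0 < δ ∧ 3 * δ ≤ δ₁ / 2 ∧ 48 * δ ≤ η :=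
    ⟨min (δ₁ / 6) (η / 48), by positivity, by linarith [min_le_left (δ₁ / 6) (η / 48)],
      by linarith [min_le_right (δ₁ / 6) (η / 48)]⟩
  set N := star q * q with hNdef
  have hqA : q ∈ A := S.le hq
  have hNA : N ∈ A := (IsUnitisation.bimod (A := A) (star q) q hqA).1
  obtain ⟨i, G, ν, hν0, u, huA, husa, hu1, huy, hdeep⟩ := exists_deep S.simple Z
    {q, star q, N, d} {hc'}
    (fun x hx => by
      simp only [Finset.mem_insert, Finset.mem_singleton] at hx
      rcases hx with rfl | rfl | rfl | rfl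
      exacts [hqA, IsUnitisation.star_mem q hqA, hNA, S.le S.d_mem])
    (fun y hy => by rw [Finset.mem_singleton.1 hy]; exact hcA) hδ0
  obtain ⟨κ, hκ0, hκν, hκ⟩ : ∃ κ : ℝ, 0 < κ ∧ κ ≤ ν ∧ κ * (C * C) ≤ (η / 24) ^ 2 :=
    ⟨min ν ((η / 24) ^ 2 / (C * C + 1)), by positivity, min_le_left _ _,
      (mul_le_mul_of_nonneg_right (min_le_right _ _) (by positivity)).trans
        (by rw [div_mul_eq_mul_div, div_le_iff₀ (by positivity)]; nlinarith [sq_nonneg (η / 24)])⟩
  obtain ⟨m, hm, h, hh1, hhh, hhk, hht⟩ := exists_central_nilpotent i G hκ0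
  obtain ⟨hcomm, -⟩ := hdeep m hm
  have hu2 : u * u ∈ A := (S.simple.2.1 u u huA).1
  set s₁ := j m (tensor m u h) with hs₁
  have hs₁A : s₁ ∈ A := Z.mem m _ (tensor_mem huA m h)
  have hs₁n : ‖s₁‖ ≤ 1 := norm_jt_le Z huA hu1 hh1
  have hc : ∀ x ∈ ({q, star q, N, d} : Finset B), ‖s₁ * x - x * s₁‖ ≤ δ :=
    hcomm h hh1 fun k hk => (hhk k hk).trans hκν
  have hNsa : star N = N := by rw [hNdef, star_mul, star_star]
  have hcN : ‖s₁ * N - N * s₁‖ ≤ δ := hc N (by simp)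
  have hcN' : ‖star s₁ * N - N * star s₁‖ ≤ δ := by rw [norm_star_comm, hNsa]; exact hcN
  have hN1 : ‖N‖ ≤ 1 :=
    (norm_mul_le_of_le ((norm_star q).trans_le hq1) hq1).trans_eq (one_mul 1)
  have hs11 : s₁ * s₁ = 0 := by
    rw [hs₁, jt_mul Z huA huA, hhh, tensor_zero_right, Z.map_zero]
  set x := star s₁ * s₁ with hxdef
  have hxsa : IsSelfAdjoint x := IsSelfAdjoint.star_mul_self s₁
  have hx0 : 0 ≤ x := star_mul_self_nonneg s₁
  have hx1 : ‖x‖ ≤ 1 :=
    (norm_mul_le_of_le ((norm_star s₁).trans_le hs₁n) hs₁n).trans_eq (one_mul 1)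
  set s₂ := cfc Real.sqrt x with hs₂def
  have hs₂sa : star s₂ = s₂ := (cfc_predicate Real.sqrt x : IsSelfAdjoint s₂).star_eq
  have hs22 : s₂ * s₂ = x := by
    rw [hs₂def, ← cfc_mul _ _ x Real.continuous_sqrt.continuousOn Real.continuous_sqrt.continuousOn]
    conv_rhs => rw [← cfc_id' ℝ x hxsa]
    exact cfc_congr fun t ht => Real.mul_self_sqrt (spectrum_nonneg_of_nonneg hx0 ht)
  have hs₂n : ‖s₂‖ ≤ 1 := by
    have h1 := CStarRing.norm_star_mul_self (x := s₂)
    rw [hs₂sa, hs22] at h1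
    nlinarith [norm_nonneg s₂]
  have hs₂A : s₂ ∈ A := by
    refine IsUnitisation.closed.closure_subset (Metric.mem_closure_iff.2 fun r hr => ?_)
    obtain ⟨w, hw, hwr⟩ : ∃ w : ℝ, 0 < w ∧ w < r := ⟨r / 2, by positivity, by linarith⟩
    have hcont : Continuous fun t : ℝ => 1 / (Real.sqrt t + w) :=
      continuous_const.div (by fun_prop) fun t => by positivity
    refine ⟨x * cfc (fun t => 1 / (Real.sqrt t + w)) x,
      (IsUnitisation.bimod (A := A) _ x (IsUnitisation.bimod (A := A) (star s₁) s₁ hs₁A).1).2, ?_⟩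
    rw [dist_eq_norm, hs₂def]
    nth_rewrite 2 [← cfc_id' ℝ x hxsa]
    rw [← cfc_mul (fun t : ℝ => t) _ x continuous_id.continuousOn hcont.continuousOn,
      ← cfc_sub Real.sqrt (fun t : ℝ => t * (1 / (Real.sqrt t + w))) x Real.continuous_sqrt.continuousOn
        (continuous_id.mul hcont).continuousOn]
    refine (norm_cfc_le hw.le fun t ht => ?_).trans_lt hwr
    have ht0 := spectrum_nonneg_of_nonneg hx0 ht
    have h1 := Real.mul_self_sqrt ht0
    have h2 : 0 ≤ Real.sqrt t := Real.sqrt_nonneg t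
    rw [Real.norm_eq_abs, show Real.sqrt t - t * (1 / (Real.sqrt t + w)) =
      Real.sqrt t * w / (Real.sqrt t + w) by field_simp; nlinarith,
      abs_of_nonneg (by positivity), div_le_iff₀ (by positivity)]
    nlinarith
  have hs12 : star s₁ * s₂ = 0 := by
    have h1 : s₂ * s₁ = 0 := by
      rw [← CStarRing.star_mul_self_eq_zero_iff, star_mul, hs₂sa, mul_assoc, ← mul_assoc s₂ s₂,
        hs22, hxdef, mul_assoc, hs11, mul_zero, mul_zero]
    have := congrArg star h1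
    rwa [star_mul, hs₂sa, star_zero] at this
  have hcs₂ : ‖s₂ * N - N * s₂‖ ≤ η / 4 := by
    refine (hcfc x N hxsa hx1 hN1 ?_).le
    calc ‖x * N - N * x‖ ≤ δ + δ :=
          norm_comm_mul_le ((norm_star s₁).trans_le hs₁n) hs₁n hcN' hcN
      _ < δ₁ := by linarith
  refine ⟨s₁, s₂, hs₁A, hs₂A, hs₁n, hs₂n, ?_, ?_, fun τ hτ => ?_⟩
  · rw [hs₂sa, show star (q * s₁) * (q * s₁) = star s₁ * N * s₁ by
      rw [star_mul, hNdef]; noncomm_ring,
      show s₂ * N * s₂ - star s₁ * N * s₁ = (s₂ * N - N * s₂) * s₂ -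
        (star s₁ * N - N * star s₁) * s₁ + N * (s₂ * s₂ - x) by rw [hxdef]; noncomm_ring,
      hs22, sub_self, mul_zero, add_zero]
    refine (norm_sub_le _ _).trans ?_
    linarith [norm_mul_le_of_le hcs₂ hs₂n, norm_mul_le_of_le hcN' hs₁n]
  · rw [show star s₁ * N * s₂ = (star s₁ * N - N * star s₁) * s₂ + N * (star s₁ * s₂) by
      noncomm_ring, hs12, mul_zero, add_zero]
    linarith [norm_mul_le_of_le hcN' hs₂n]
  exact halves_trace S hq hq1 hdq hs₁n hδ0 hδ2 hτ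
    (fun x hx => hc x (by
      simp only [List.mem_cons, List.not_mem_nil, or_false] at hx
      rcases hx with rfl | rfl | rfl <;> simp))
    (defect_small S Z hτ hcA hgA hcsa hgc hcP hC (hCb τ hτ.1) huA husa hu1 hh1 hη hδ0 hκ0 hδ2 hce
      (huy _ (Finset.mem_singleton_self _)) hκ hht)

end Vale.Agent.P095.Weak
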