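import Vale.Agent.P095.Weak.Assemble
import Vale.Agent.P095.Weak.Cover
import Vale.Agent.P095.Weak.Half
import Vale.Agent.P095.Weak.Bound

/-! P095 Weak: comparison by traces in `Z`-stable algebras, and the traceless case. -/

open scoped ComplexOrder

namespace Vale.Agent.P095.Weak

open Vale.Agent.P101.Lit Vale.Agent.P095.Rel Vale.Agent.P095.Rel.Z

variable {B : Type*} [CStarAlgebra B] [PartialOrder B] [StarOrderedRing B] {A : Submodule ℂ B}
  {d : B} [IsUnitisation A] {j : ∀ i, St B (pp i) (qq i) → B}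

omit [IsUnitisation A] in
theorem re_trace_gram (S : SI.Setup (genIdeal d) A d) {τ : genIdeal d →ₗ[ℂ] ℂ}
    (hτ : SI.IsTraceOn (genIdeal d) τ) {q : B} (hq : q ∈ genIdeal d)
    (h : star q * q ∈ genIdeal d) :
    (τ ⟨star q * q, h⟩).re = SI.tn (genIdeal d) τ q ^ 2 := by
  rw [sq, SI.tn_mul_self S.bimod S.star_mem hτ hq, SI.tip_eq h]

omit [IsUnitisation A] in
theorem norm_gram_le_one {q : B} (hq : ‖q‖ ≤ 1) : ‖star q * q‖ ≤ 1 := by
  rw [CStarRing.norm_star_mul_self]; exact mul_le_one₀ hq (norm_nonneg _) hq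

/-- Matrix comparison turned into a sum of two single comparisons. -/
theorem exists_single (S : SI.Setup (genIdeal d) A d) (hcp : SI.HasCPApprox A) (Z : ZData A j)
    {ε : ℝ} (hε : 0 < ε) :
    ∃ M : ℕ, 0 < M ∧ ∀ q₁ q₂ : B, q₁ ∈ genIdeal d → q₂ ∈ genIdeal d → ‖q₁‖ ≤ 1 → ‖q₂‖ ≤ 1 →
      q₂ ≠ 0 → (∀ τ, SI.IsNormTrace (genIdeal d) d τ →
        (M : ℝ) * SI.tn (genIdeal d) τ q₁ ^ 2 ≤ SI.tn (genIdeal d) τ q₂ ^ 2) →
      ∃ r : Bool → B, (∀ s, r s ∈ A) ∧
        ‖(∑ s, star (r s) * (star q₂ * q₂) * r s) - star q₁ * q₁‖ ≤ 4 * ε := by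
  obtain ⟨M, hM, H⟩ := exists_matrix S hcp hε
  refine ⟨M, hM, fun q₁ q₂ h₁ h₂ n₁ n₂ hne h => ?_⟩
  have he := (S.bimod (star q₁) q₁ h₁).1
  have hb := (S.bimod (star q₂) q₂ h₂).1
  obtain ⟨J, hJ, W, hWA, hW⟩ := H _ _ he hb (star_mul_self_nonneg q₁) (norm_gram_le_one n₁)
    (star_mul_self_nonneg q₂) (norm_gram_le_one n₂)
    (fun h0 => hne ((CStarRing.star_mul_self_eq_zero_iff q₂).1 h0))
    fun τ hτ => by rw [re_trace_gram S hτ.1 h₁, re_trace_gram S hτ.1 h₂]; exact h τ hτ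
  exact exists_pair S.simple Z (S.le he) (S.le hb) hJ W hWA hε hW

omit [IsUnitisation A] in
/-- Two comparisons with two orthogonal equivalent halves make one comparison. -/
theorem exists_glue {q q' s₁ s₂ : B} (hs₁ : s₁ ∈ A) (hs₂ : s₂ ∈ A) (hA : SI.IsBimod A)
    (hq' : q' = q * s₁) {ηh : ℝ}
    (h2 : ‖star s₂ * (star q * q) * s₂ - star q' * q'‖ ≤ ηh)
    (h12 : ‖star s₁ * (star q * q) * s₂‖ ≤ ηh) {e : ℝ} (he : 0 < e) (r : Bool → B) {a : B}
    (ha : ‖a‖ ≤ 1) {η₁ : ℝ} (hη₁ : η₁ ≤ 1)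
    (hr : ‖(∑ s, star (r s) * (star (cutq e q') * cutq e q') * r s) - a‖ ≤ η₁) :
    ∃ x ∈ A, ‖star x * (star q * q) * x - a‖ ≤ η₁ + 3 * (2 / Real.sqrt e) ^ 2 * ηh := by
  set b' := star (cutq e q') * cutq e q'
  rw [Fintype.sum_bool] at hr
  have hpos : ∀ s, 0 ≤ star (r s) * b' * r s := fun s =>
    star_left_conjugate_nonneg (star_mul_self_nonneg _) _
  have hsum : ‖star (r true) * b' * r true + star (r false) * b' * r false‖ ≤ 4 := by
    linarith [norm_le_norm_add_norm_sub' (star (r true) * b' * r true +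
      star (r false) * b' * r false) a]
  obtain ⟨R₁, hR₁, hn₁⟩ := exists_bounded_exact he (q := q') (r₀ := r true)
    ((CStarAlgebra.norm_le_norm_of_nonneg_of_le (hpos _)
      (le_add_of_nonneg_right (hpos false))).trans hsum)
  obtain ⟨R₂, hR₂, hn₂⟩ := exists_bounded_exact he (q := q') (r₀ := r false)
    ((CStarAlgebra.norm_le_norm_of_nonneg_of_le (hpos _)
      (le_add_of_nonneg_left (hpos true))).trans hsum)
  refine ⟨s₁ * R₁ + s₂ * R₂, add_mem (hA R₁ s₁ hs₁).2 (hA R₂ s₂ hs₂).2, ?_⟩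
  have h21 : ‖star s₂ * (star q * q) * s₁‖ ≤ ηh := by
    rw [← norm_star, star_mul, star_mul, star_mul, star_star, star_star]
    simpa only [mul_assoc] using h12
  have e1 : star (s₁ * R₁ + s₂ * R₂) * (star q * q) * (s₁ * R₁ + s₂ * R₂) - a =
      (star (r true) * b' * r true + star (r false) * b' * r false - a) +
        (star R₂ * (star s₂ * (star q * q) * s₂ - star q' * q') * R₂ +
          star R₁ * (star s₁ * (star q * q) * s₂) * R₂ +
          star R₂ * (star s₂ * (star q * q) * s₁) * R₁) := by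
    rw [← hR₁, ← hR₂, hq', star_add, star_mul, star_mul, star_mul]
    noncomm_ring
  rw [e1]
  set R := 2 / Real.sqrt e
  have hR : 0 ≤ R := by positivity
  have tri : ∀ {u v : B} (w : B), ‖u‖ ≤ R → ‖v‖ ≤ R → ‖w‖ ≤ ηh →
      ‖star u * w * v‖ ≤ R ^ 2 * ηh := fun {u v} w hu hv hw => by
    refine (norm_mul₃_le).trans ?_
    rw [norm_star, show R ^ 2 * ηh = R * ηh * R by ring]
    exact mul_le_mul (mul_le_mul hu hw (norm_nonneg _) hR) hv (norm_nonneg _)
      (mul_nonneg hR ((norm_nonneg w).trans hw))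
  refine (norm_add_le _ _).trans (add_le_add hr ?_)
  refine (norm_add₃_le).trans ?_
  linarith [tri _ hn₂ hn₂ h2, tri _ hn₁ hn₂ h12, tri _ hn₂ hn₁ h21]

omit [IsUnitisation A] in
/-- An element with a cut of its own has a unit in `A`. -/
theorem exists_unit_cfc (hA : SI.IsBimod A) {a : B} (ha : a ∈ A) (ha0 : 0 ≤ a) {e : ℝ}
    (he : 0 < e) {f : ℝ → ℝ} (hf : Continuous f) (hfe : ∀ t, t ≤ e → f t = 0) :
    ∃ u ∈ A, u * cfc f a = cfc f a := by
  have hg : Continuous fun t : ℝ => 1 / max t e :=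
    continuous_const.div (by fun_prop) fun t => (he.trans_le (le_max_right t e)).ne'
  refine ⟨cfc (fun t : ℝ => 1 / max t e) a * a, (hA _ a ha).1, ?_⟩
  have hsa : IsSelfAdjoint a := IsSelfAdjoint.of_nonneg ha0
  nth_rw 2 [← cfc_id' ℝ a hsa]
  rw [← cfc_mul _ _ a hg.continuousOn (by fun_prop),
    ← cfc_mul (fun t : ℝ => 1 / max t e * t) f a (hg.mul continuous_id').continuousOn hf.continuousOn]
  refine cfc_congr fun t _ => ?_
  rcases le_total t e with ht | ht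
  · simp [hfe t ht]
  · rw [max_eq_left ht, one_div_mul_cancel (he.trans_le ht).ne', one_mul]

theorem pureInf_of_no_trace (S : SI.Setup (genIdeal d) A d) (hcp : SI.HasCPApprox A)
    (Z : ZData A j) (h : ¬ ∃ τ, SI.IsNormTrace (genIdeal d) d τ) : PureInf A := by
  intro a ha ha0 b hb hb0 hbne ε hε
  have hA := S.simple
  have hsA : d * d ≠ 0 := SI.d_sq_ne_zero S
  -- normalise
  set ka := ‖a‖ + 1 with hka
  have hka0 : 0 < ka := by positivity
  have hkb : 0 < ‖b‖ := norm_pos_iff.2 hbne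
  set a' := ka⁻¹ • a with ha'
  set b' := ‖b‖⁻¹ • b with hb'
  have ha'A : a' ∈ A := by rw [ha', ← Complex.coe_smul]; exact A.smul_mem _ ha
  have hb'A : b' ∈ A := by rw [hb', ← Complex.coe_smul]; exact A.smul_mem _ hb
  have ha'0 : 0 ≤ a' := smul_nonneg (by positivity) ha0
  have hb'0 : 0 ≤ b' := smul_nonneg (by positivity) hb0
  have ha'1 : ‖a'‖ ≤ 1 := by
    rw [ha', norm_smul, Real.norm_of_nonneg (by positivity), inv_mul_le_one₀ hka0]; linarith
  have hb'1 : ‖b'‖ = 1 := by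
    rw [hb', norm_smul, norm_inv, norm_norm, inv_mul_cancel₀ hkb.ne']
  obtain ⟨ε', hε', hε'1, hε'ε⟩ : ∃ ε' > (0 : ℝ), ε' ≤ 1 ∧ ka * (3 * ε') < ε :=
    ⟨min 1 (ε / (4 * ka)), lt_min one_pos (by positivity), min_le_left _ _, by
      calc ka * (3 * min 1 (ε / (4 * ka))) ≤ ka * (3 * (ε / (4 * ka))) := by
            gcongr; exact min_le_right _ _
        _ = 3 / 4 * ε := by field_simp
        _ < ε := by linarith⟩
  -- the two cuts
  set fa : ℝ → ℝ := fun t => Real.sqrt (max 0 (t - ε')) with hfa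
  set fb : ℝ → ℝ := fun t => Real.sqrt (max 0 (t - 1 / 2)) with hfb
  set q₁ := cfc fa a'
  set q := cfc fb b'
  obtain ⟨ua, hua, huaq⟩ := exists_unit_cfc hA.2.1 ha'A ha'0 hε' (f := fa) (by fun_prop)
    fun t ht => by simp [hfa, ht]
  obtain ⟨ub, hub, hubq⟩ := exists_unit_cfc hA.2.1 hb'A hb'0 (by norm_num : (0 : ℝ) < 1 / 2)
    (f := fb) (by fun_prop) fun t ht => by
      simp only [hfb]; rw [max_eq_left (by linarith), Real.sqrt_zero]
  have hq₁P : q₁ ∈ genIdeal d := mem_genIdeal_of_unit hA (S.le S.d_mem) hsA hua huaq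
  have hqP : q ∈ genIdeal d := mem_genIdeal_of_unit hA (S.le S.d_mem) hsA hub hubq
  have hnorm : ∀ (f : ℝ → ℝ) (e : ℝ) (x : B), 0 ≤ x → ‖x‖ ≤ 1 → 0 ≤ e →
      f = (fun t => Real.sqrt (max 0 (t - e))) → ‖cfc f x‖ ≤ 1 := by
    intro f e x hx hx1 he hf
    refine norm_cfc_le zero_le_one fun t ht => ?_
    rw [hf, Real.norm_of_nonneg (Real.sqrt_nonneg _), Real.sqrt_le_one]
    refine max_le zero_le_one ?_
    have h1 := norm_apply_le_norm_cfc (fun y : ℝ => y) x ht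
    rw [cfc_id' ℝ x (IsSelfAdjoint.of_nonneg hx)] at h1
    linarith [(Real.le_norm_self t).trans (h1.trans hx1)]
  have hn₁ : ‖q₁‖ ≤ 1 := hnorm fa ε' a' ha'0 ha'1 hε'.le rfl
  have hnq : ‖q‖ ≤ 1 := hnorm fb (1 / 2) b' hb'0 hb'1.le (by norm_num) rfl
  have hgram : ∀ (e : ℝ) (x : B), star (cfc (fun t => Real.sqrt (max 0 (t - e))) x) *
      cfc (fun t => Real.sqrt (max 0 (t - e))) x = cfc (fun t => max 0 (t - e)) x := by
    intro e x
    rw [(cfc_predicate _ x : IsSelfAdjoint _).star_eq, ← cfc_mul _ _ x (by fun_prop) (by fun_prop)]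
    exact cfc_congr fun t _ => Real.mul_self_sqrt (le_max_left _ _)
  have hclose : ∀ (e : ℝ) (x : B), 0 ≤ e → 0 ≤ x →
      ‖cfc (fun t => max 0 (t - e)) x - x‖ ≤ e := by
    intro e x he hx
    nth_rw 2 [← cfc_id' ℝ x (IsSelfAdjoint.of_nonneg hx)]
    rw [← cfc_sub _ _ x (by fun_prop) (by fun_prop)]
    refine norm_cfc_le he fun t ht => ?_
    have h0 := spectrum_nonneg_of_nonneg hx ht
    rw [Real.norm_eq_abs, abs_le]
    rcases le_total t e with ht' | ht'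
    · rw [max_eq_left (sub_nonpos.2 ht')]; constructor <;> linarith
    · rw [max_eq_right (sub_nonneg.2 ht')]; constructor <;> linarith
  have hq2 : 1 / 2 ≤ ‖q‖ ^ 2 := by
    rw [sq, ← CStarRing.norm_star_mul_self, show star q * q = _ from hgram (1 / 2) b']
    linarith [norm_le_norm_add_norm_sub' b' (cfc (fun t : ℝ => max 0 (t - 1 / 2)) b'),
      norm_sub_rev b' (cfc (fun t : ℝ => max 0 (t - 1 / 2)) b'),
      hclose (1 / 2) b' (by norm_num) hb'0]
  -- the halves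
  set R : ℝ := 2 / Real.sqrt (1 / 256) with hR
  set ηh : ℝ := min (1 / 8) (ε' / (3 * R ^ 2 + 1))
  have hηh : 0 < ηh := by positivity
  obtain ⟨s₁, s₂, hs₁, hs₂, hn, -, h22, h12, hlow⟩ :=
    exists_split hA Z (S.le hqP) hnq hηh
  set q' := q * s₁ with hq'
  have hq'1 : ‖q'‖ ≤ 1 := (norm_mul_le _ _).trans (mul_le_one₀ hnq (norm_nonneg _) hn)
  set q'' := cutq (1 / 256) q'
  have he : (0 : ℝ) < 1 / 256 := by norm_num
  have hq''P : q'' ∈ genIdeal d := (S.bimod _ _ (S.bimod s₁ q hqP).2).2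
  have hne : q'' ≠ 0 := by
    intro h0
    have h3 := norm_sub_cutq_le he q'
    change ‖q' - q''‖ ≤ _ at h3
    rw [h0, sub_zero, show Real.sqrt (1 / 256 : ℝ) = 1 / 16 by
      rw [show (1 / 256 : ℝ) = (1 / 16) ^ 2 by norm_num,
        Real.sqrt_sq (by norm_num : (0 : ℝ) ≤ 1 / 16)]] at h3
    have h4 := pow_le_pow_left₀ (norm_nonneg _) h3 2
    have h5 : ηh ≤ 1 / 8 := min_le_left _ _
    norm_num at h4
    linarith [hlow]
  obtain ⟨M, -, hM⟩ := exists_single S hcp Z (show 0 < ε' / 4 by positivity)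
  obtain ⟨r, -, hr⟩ := hM q₁ q'' hq₁P hq''P hn₁ ((norm_cutq_le he q').trans hq'1) hne
    fun τ hτ => absurd ⟨τ, hτ⟩ h
  obtain ⟨x, hxA, hx⟩ := exists_glue (A := A) hs₁ hs₂ hA.2.1 hq' h22 h12 he r
    (norm_gram_le_one hn₁) (show 4 * (ε' / 4) ≤ 1 by linarith) hr
  have hxq : ‖star x * (star q * q) * x - a'‖ ≤ 3 * ε' := by
    have hηε : 3 * R ^ 2 * ηh ≤ ε' := by
      have h5 : ηh ≤ ε' / (3 * R ^ 2 + 1) := min_le_right _ _
      rw [le_div_iff₀ (by positivity : (0 : ℝ) < 3 * R ^ 2 + 1)] at h5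
      linarith [hηh]
    have := hclose ε' a' hε'.le ha'0
    rw [show star q₁ * q₁ = _ from hgram ε' a', ← hR] at hx
    refine ((norm_sub_le_norm_sub_add_norm_sub _ _ _).trans (add_le_add hx this)).trans ?_
    rw [mul_div_cancel₀ ε' (by norm_num : (4 : ℝ) ≠ 0)]
    linarith
  -- back to `a` and `b`
  set h₀ := cfc (fun t => Real.sqrt (wt (1 / 2) t)) b'
  have hh₀ : star q * q = h₀ * b' * h₀ := by
    have hw : Continuous fun t => Real.sqrt (wt (1 / 2 : ℝ) t) :=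
      (continuous_wt (by norm_num)).sqrt
    rw [show star q * q = _ from hgram (1 / 2) b']
    nth_rw 2 [← cfc_id' ℝ b' (IsSelfAdjoint.of_nonneg hb'0)]
    simp only [h₀]
    rw [← cfc_mul _ _ b' hw.continuousOn (by fun_prop),
      ← cfc_mul (fun t => Real.sqrt (wt (1 / 2) t) * t) (fun t => Real.sqrt (wt (1 / 2) t)) b'
        (hw.mul continuous_id').continuousOn hw.continuousOn]
    refine cfc_congr fun t _ => ?_
    rw [mul_right_comm, Real.mul_self_sqrt (wt_mem (by norm_num) t).1, mul_comm, wt,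
      SI.mul_cut (by norm_num)]
  set κ : ℝ := Real.sqrt (ka * ‖b‖⁻¹) with hκ
  refine ⟨κ • (h₀ * x), by rw [← Complex.coe_smul]; exact A.smul_mem _ (hA.2.1 h₀ x hxA).1, ?_⟩
  have e1 : star (κ • (h₀ * x)) * b * (κ • (h₀ * x)) - a =
      ka • (star x * (star q * q) * x - a') := by
    rw [hh₀, smul_sub, ha', smul_smul, mul_inv_cancel₀ hka0.ne', one_smul, hb']
    have hh0s : star h₀ = h₀ := (cfc_predicate _ b' : IsSelfAdjoint h₀).star_eq
    simp only [star_smul, star_mul, star_trivial, hh0s, smul_mul_assoc, mul_smul_comm, smul_smul,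
      mul_assoc]
    rw [hκ, Real.mul_self_sqrt (by positivity)]
  rw [e1, norm_smul, Real.norm_of_nonneg hka0.le]
  calc ka * ‖star x * (star q * q) * x - a'‖ ≤ ka * (3 * ε') := by gcongr
    _ < ε := hε'ε

theorem weakComp_of_zStable (S : SI.Setup (genIdeal d) A d) (hcp : SI.HasCPApprox A)
    (Z : ZData A j) : WeakComp (genIdeal d) d := by
  intro η hη δ hδ
  set η₀ := min 1 η
  have hη₀ : 0 < η₀ := lt_min one_pos hη
  have he : 0 < δ / 32 := by positivity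
  obtain ⟨M, hM, hsingle⟩ := exists_single S hcp Z (show 0 < η₀ / 8 by positivity)
  refine ⟨δ / 32 / M, by positivity, fun q₁ q₂ h₁ h₂ n₁ n₂ hd hne h => ?_⟩
  by_cases hτ : ∃ τ, SI.IsNormTrace (genIdeal d) d τ
  swap
  · obtain ⟨x, -, hx⟩ := pureInf_of_no_trace S hcp Z hτ (star q₁ * q₁)
      (S.le (S.bimod (star q₁) q₁ h₁).1) (star_mul_self_nonneg q₁) (star q₂ * q₂)
      (S.le (S.bimod (star q₂) q₂ h₂).1) (star_mul_self_nonneg q₂)
      (fun h0 => hne ((CStarRing.star_mul_self_eq_zero_iff q₂).1 h0)) η hη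
    exact ⟨x, hx.le⟩
  set R : ℝ := 2 / Real.sqrt (δ / 32)
  set ηh : ℝ := min (δ / 2) (η₀ / 2 / (3 * R ^ 2 + 1))
  have hηh : 0 < ηh := by positivity
  obtain ⟨s₁, s₂, hs₁, hs₂, hn, -, h22, h12, hlow⟩ := exists_half S Z h₂ n₂ hd hηh
  set q' := q₂ * s₁ with hq'
  have hq'P : q' ∈ genIdeal d := (S.bimod s₁ q₂ h₂).2
  set q'' := cutq (δ / 32) q'
  have hq''P : q'' ∈ genIdeal d := (S.bimod _ _ hq'P).2
  have hdq' : d * q' = q' := by rw [hq', ← mul_assoc, hd]
  have hdq'' : d * q'' = q'' := by simp only [q'', cutq, ← mul_assoc, hdq']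
  have hq'1 : ‖q'‖ ≤ 1 := (norm_mul_le _ _).trans (mul_le_one₀ n₂ (norm_nonneg _) hn)
  have hbig : ∀ τ, SI.IsNormTrace (genIdeal d) d τ →
      δ / 32 ≤ SI.tn (genIdeal d) τ q'' ^ 2 := fun τ hτ' => by
    have hb := S.bimod
    have hs := S.star_mem
    have h1 := hlow τ hτ'
    have h2 := (h τ hτ').2
    have hsplit : SI.tn (genIdeal d) τ q' ≤ SI.tn (genIdeal d) τ q'' + Real.sqrt (δ / 32) := by
      calc SI.tn (genIdeal d) τ q' = SI.tn (genIdeal d) τ (q'' + (q' - q'')) := by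
            rw [add_sub_cancel]
        _ ≤ _ := (SI.tn_add_le hb hs hτ'.1 hq''P ((genIdeal d).sub_mem hq'P hq''P)).trans
            (add_le_add le_rfl ?_)
      have hle := SI.tn_mul_right hb hs hτ'.1 (q' - q'') S.d_mem
      rw [mul_sub, hdq', hdq'', SI.tn_d S hτ', one_mul] at hle
      exact hle.trans (norm_sub_cutq_le he q')
    have h3 : δ / 8 ≤ SI.tn (genIdeal d) τ q' ^ 2 := by
      have : ηh ≤ δ / 2 := min_le_left _ _
      linarith
    have h4 : 2 * Real.sqrt (δ / 32) ≤ SI.tn (genIdeal d) τ q' := by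
      have e : (2 * Real.sqrt (δ / 32)) ^ 2 = δ / 8 := by
        rw [mul_pow, Real.sq_sqrt he.le]; ring
      nlinarith [SI.tn_nonneg (P := genIdeal d) (τ := τ) q', Real.sqrt_nonneg (δ / 32)]
    exact (Real.sqrt_le_iff.1 (show Real.sqrt (δ / 32) ≤ SI.tn (genIdeal d) τ q'' by linarith)).2
  have hne' : q'' ≠ 0 := by
    obtain ⟨τ, hτ'⟩ := hτ
    intro h0
    have := hbig τ hτ'
    rw [h0, show SI.tn (genIdeal d) τ (0 : B) = 0 by
      have := SI.tn_smul S.bimod S.star_mem hτ'.1 (0 : ℂ) (genIdeal d).zero_mem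
      simpa using this] at this
    norm_num at this
    linarith
  obtain ⟨r, -, hr⟩ := hsingle q₁ q'' h₁ hq''P n₁ ((norm_cutq_le he q').trans hq'1) hne'
    fun τ hτ' => by
      have h1 := (h τ hτ').1
      have h2 := mul_le_mul_of_nonneg_left h1 (Nat.cast_nonneg (α := ℝ) M)
      rw [mul_div_cancel₀ _ (by exact_mod_cast hM.ne' : (M : ℝ) ≠ 0)] at h2
      exact h2.trans (hbig τ hτ')
  have hη1 : 4 * (η₀ / 8) ≤ 1 := by linarith [min_le_left 1 η]
  obtain ⟨x, -, hx⟩ := exists_glue (A := A) hs₁ hs₂ S.simple.2.1 hq' h22 h12 he r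
    (norm_gram_le_one n₁) hη1 hr
  refine ⟨x, hx.trans ?_⟩
  have hηε : (3 * R ^ 2 + 1) * ηh ≤ η₀ / 2 := by
    have h5 : ηh ≤ η₀ / 2 / (3 * R ^ 2 + 1) := min_le_right _ _
    rw [le_div_iff₀ (by positivity : (0 : ℝ) < 3 * R ^ 2 + 1)] at h5
    linarith
  linarith [min_le_right 1 η]

end Vale.Agent.P095.Weak
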