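import Vale.Agent.P095.Weak.Defs

/-!
P095 Weak: a scalar kernel which is positive on a free group is, in a suitable finite quotient,
positive up to `γ` and up to a small number of vectors.
-/

open scoped ComplexOrder

namespace Vale.Agent.P095.Weak

namespace QuotAux

open Matrix

section Spectral

variable {n : Type*} [Fintype n] [DecidableEq n] {X : Matrix n n ℂ} (hX : X.IsHermitian)

/-- The coordinate of `ξ` along the `r`-th eigenvector. -/
noncomputable def coef (ξ : n → ℂ) (r : n) : ℂ :=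
  ∑ b, star ((hX.eigenvectorUnitary : Matrix n n ℂ) b r) * ξ b

theorem aeval_apply (p : Polynomial ℝ) (a b : n) :
    Polynomial.aeval X p a b = ∑ r, (hX.eigenvectorUnitary : Matrix n n ℂ) a r *
      ((p.eval (hX.eigenvalues r) : ℝ) : ℂ) * star ((hX.eigenvectorUnitary : Matrix n n ℂ) b r) := by
  set φ : Matrix n n ℂ →ₐ[ℝ] Matrix n n ℂ :=
    (((Unitary.conjStarAlgAut ℂ _ hX.eigenvectorUnitary).toAlgEquiv).restrictScalars ℝ).toAlgHom
  have hd : φ (diagonal (RCLike.ofReal ∘ hX.eigenvalues)) = X := hX.spectral_theorem.symm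
  have h1 : Polynomial.aeval X p =
      φ (diagonal fun r => ((p.eval (hX.eigenvalues r) : ℝ) : ℂ)) := by
    conv_lhs => rw [← hd, Polynomial.aeval_algHom_apply]
    congr 1
    change Polynomial.aeval (diagonalAlgHom ℝ (RCLike.ofReal ∘ hX.eigenvalues)) p = _
    rw [Polynomial.aeval_algHom_apply]
    change diagonal _ = _
    congr 1
    funext r
    change (Pi.evalAlgHom ℝ (fun _ : n => ℂ) r) (Polynomial.aeval _ p) = _
    rw [← Polynomial.aeval_algHom_apply]
    exact Polynomial.aeval_algebraMap_apply_eq_algebraMap_eval _ p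
  rw [h1]
  change (((hX.eigenvectorUnitary : Matrix n n ℂ) *
    (diagonal (fun r => ((p.eval (hX.eigenvalues r) : ℝ) : ℂ)) : Matrix n n ℂ) *
    star (hX.eigenvectorUnitary : Matrix n n ℂ)) : Matrix n n ℂ) a b = _
  simp [Matrix.mul_apply, diagonal, star_apply, mul_ite, Finset.sum_ite_eq']

theorem sum_form (p : Polynomial ℝ) (ξ : n → ℂ) :
    (∑ a, ∑ b, star (ξ a) * Polynomial.aeval X p a b * ξ b).re =
      ∑ r, p.eval (hX.eigenvalues r) * ‖coef hX ξ r‖ ^ 2 := by
  have h : ∑ a, ∑ b, star (ξ a) * Polynomial.aeval X p a b * ξ b =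
      ∑ r, ((p.eval (hX.eigenvalues r) : ℝ) : ℂ) * (star (coef hX ξ r) * coef hX ξ r) := by
    simp only [aeval_apply hX, coef, Finset.mul_sum, Finset.sum_mul, star_sum, star_mul', star_star]
    rw [Finset.sum_comm]
    refine Eq.trans ?_ Finset.sum_comm
    refine Finset.sum_congr rfl fun b _ => ?_
    rw [Finset.sum_comm]
    refine Finset.sum_congr rfl fun r _ => Finset.sum_congr rfl fun a _ => ?_
    ring
  rw [h, Complex.re_sum]
  refine Finset.sum_congr rfl fun r _ => ?_
  rw [Complex.star_def, Complex.conj_mul', ← Complex.ofReal_pow, ← Complex.ofReal_mul,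
    Complex.ofReal_re]

theorem sum_sq (ξ : n → ℂ) : ∑ r, ‖coef hX ξ r‖ ^ 2 = ∑ a, ‖ξ a‖ ^ 2 := by
  have h := sum_form hX 1 ξ
  simp only [map_one, one_apply, Polynomial.eval_one, one_mul, mul_ite, mul_one, mul_zero,
    ite_mul, zero_mul, Finset.sum_ite_eq, Finset.mem_univ, if_true, Complex.re_sum] at h
  rw [← h]
  refine Finset.sum_congr rfl fun a _ => ?_
  rw [Complex.star_def, Complex.conj_mul', ← Complex.ofReal_pow, Complex.ofReal_re]

theorem diag_re (p : Polynomial ℝ) (a : n) : (Polynomial.aeval X p a a).re =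
    ∑ r, p.eval (hX.eigenvalues r) * ‖(hX.eigenvectorUnitary : Matrix n n ℂ) a r‖ ^ 2 := by
  rw [aeval_apply hX, Complex.re_sum]
  refine Finset.sum_congr rfl fun r _ => ?_
  rw [mul_right_comm, Complex.star_def, Complex.mul_conj', ← Complex.ofReal_pow,
    ← Complex.ofReal_mul, Complex.ofReal_re, mul_comm]

theorem diag_le (p : Polynomial ℝ) (a : n) {c : ℝ}
    (hc : ∀ r, p.eval (hX.eigenvalues r) ≤ c) : (Polynomial.aeval X p a a).re ≤ c := by
  have h1 := diag_re hX 1 a
  simp only [map_one, Matrix.one_apply_eq, Polynomial.eval_one, one_mul, Complex.one_re] at h1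
  rw [diag_re hX]
  refine (Finset.sum_le_sum fun r _ => mul_le_mul_of_nonneg_right (hc r) (by positivity)).trans ?_
  rw [← Finset.mul_sum, ← h1, mul_one]

theorem sum_eval (p : Polynomial ℝ) :
    ∑ a, (Polynomial.aeval X p a a).re = ∑ r, p.eval (hX.eigenvalues r) := by
  simp only [diag_re hX]
  rw [Finset.sum_comm]
  refine Finset.sum_congr rfl fun r _ => ?_
  have h := congrFun (congrFun (Unitary.coe_star_mul_self hX.eigenvectorUnitary) r) r
  simp only [Matrix.mul_apply, star_apply, one_apply_eq] at h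
  have h' := congrArg Complex.re h
  simp only [Complex.re_sum, Complex.one_re, Complex.star_def, Complex.conj_mul',
    ← Complex.ofReal_pow, Complex.ofReal_re] at h'
  rw [← Finset.mul_sum, h', mul_one]

theorem abs_eigenvalue_le {C : ℝ} (hC : ∀ a, ∑ b, ‖X a b‖ ≤ C) (r : n) :
    |hX.eigenvalues r| ≤ C := by
  have hev : Module.End.HasEigenvalue (Matrix.toLin' X) (hX.eigenvalues r : ℂ) := by
    refine Module.End.hasEigenvalue_of_hasEigenvector (x := ⇑(hX.eigenvectorBasis r)) ⟨?_, ?_⟩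
    · rw [Module.End.mem_eigenspace_iff, Matrix.toLin'_apply, hX.mulVec_eigenvectorBasis]
      rfl
    · exact fun h => hX.eigenvectorBasis.orthonormal.ne_zero r (WithLp.ofLp_eq_zero 2 |>.1 h)
  obtain ⟨k, hk⟩ := eigenvalue_mem_ball hev
  rw [mem_closedBall_iff_norm] at hk
  have h2 := norm_le_insert' ((hX.eigenvalues r : ℂ)) (X k k)
  rw [Complex.norm_real, Real.norm_eq_abs] at h2
  have h3 := Finset.sum_erase_add Finset.univ (fun b => ‖X k b‖) (Finset.mem_univ k)
  linarith [hC k]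

end Spectral

/-- Products of at most `m` elements of `S`. -/
def ball {G : Type*} [Group G] [DecidableEq G] (S : Finset G) : ℕ → Finset G
  | 0 => {1}
  | m + 1 => ball S m ∪ (S ×ˢ ball S m).image fun x => x.1 * x.2

section Ball

variable {G : Type*} [Group G] [DecidableEq G] {S : Finset G}

theorem ball_mono {m D : ℕ} (h : m ≤ D) : ball S m ⊆ ball S D := by
  induction h with
  | refl => exact subset_rfl
  | step _ ih => exact ih.trans Finset.subset_union_left

theorem one_mem_ball (D : ℕ) : (1 : G) ∈ ball S D :=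
  ball_mono D.zero_le (Finset.mem_singleton_self 1)

theorem mul_mem_ball {m : ℕ} {t h : G} (ht : t ∈ S) (hh : h ∈ ball S m) :
    t * h ∈ ball S (m + 1) :=
  Finset.mem_union_right _ (Finset.mem_image.2 ⟨(t, h), Finset.mk_mem_product ht hh, rfl⟩)

end Ball

section Window

set_option linter.unusedSectionVars false

variable {G : Type*} [Group G] [DecidableEq G] {κ : Type} [Fintype κ] [DecidableEq κ]

/-- The compression of the kernel to a window. -/
def win (f : G → κ → κ → ℂ) (W : Finset G) : Matrix (κ × W) (κ × W) ℂ :=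
  Matrix.of fun a b => f ((a.2 : G) * (b.2 : G)⁻¹) a.1 b.1

variable {S : Finset G} {f : G → κ → κ → ℂ}

theorem mem_of_pow_ne_zero (hsupp : ∀ t ∉ S, ∀ k k', f t k k' = 0) {D : ℕ} (k : κ) :
    ∀ {m : ℕ} (a : κ) (h : ↥(ball S D)),
      (win f (ball S D) ^ m) (a, h) (k, ⟨1, one_mem_ball D⟩) ≠ 0 → (h : G) ∈ ball S m := by
  intro m
  induction m with
  | zero =>
    intro a h hne
    rw [pow_zero, one_apply] at hne
    split at hne
    · rename_i e
      simp only [Prod.mk.injEq] at e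
      rw [e.2]
      exact one_mem_ball 0
    · exact absurd rfl hne
  | succ m ih =>
    intro a h hne
    rw [pow_succ', Matrix.mul_apply] at hne
    obtain ⟨⟨b, h'⟩, -, hne⟩ := Finset.exists_ne_zero_of_sum_ne_zero hne
    obtain ⟨h1, h2⟩ := mul_ne_zero_iff.1 hne
    have hS : (h : G) * (h' : G)⁻¹ ∈ S := by
      by_contra hc
      exact h1 (hsupp _ hc _ _)
    simpa using mul_mem_ball hS (ih b h' h2)

variable {Q : Type} [Group Q] [Fintype Q] [DecidableEq Q] (π : G →* Q)

/-- The kernel on a quotient, for any group. -/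
noncomputable def quo (S : Finset G) (f : G → κ → κ → ℂ) : Matrix (κ × Q) (κ × Q) ℂ :=
  Matrix.of fun a b => kerQ S f π a b

theorem quo_step (hsupp : ∀ t ∉ S, ∀ k k', f t k k' = 0) {W : Finset G} (v : κ → W → ℂ)
    (hv : ∀ b h, v b h ≠ 0 → ∀ t ∈ S, t * (h : G) ∈ W) (a : κ) (q'' q : Q) :
    (∑ b : κ, ∑ q' : Q, quo π S f (a, q'') (b, q') *
        ∑ h : W, if π h * q = q' then v b h else 0) =
      ∑ u : W, if π u * q = q'' then ∑ b : κ, ∑ h : W, win f W (a, u) (b, h) * v b h else 0 := by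
  calc _ = ∑ b : κ, ∑ h : W, quo π S f (a, q'') (b, π h * q) * v b h := by
        refine Finset.sum_congr rfl fun b _ => ?_
        simp only [Finset.mul_sum, mul_ite, mul_zero]
        rw [Finset.sum_comm]
        exact Finset.sum_congr rfl fun h _ => by simp
    _ = ∑ b : κ, ∑ h : W, ∑ u : W,
          if π u * q = q'' then win f W (a, u) (b, h) * v b h else 0 := by
        refine Finset.sum_congr rfl fun b _ => Finset.sum_congr rfl fun h _ => ?_
        by_cases h0 : v b h = 0
        · simp [h0]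
        simp only [← ite_zero_mul, ← Finset.sum_mul]
        congr 1
        simp only [quo, win, kerQ, Matrix.of_apply]
        rw [Finset.sum_coe_sort W
          (fun u => if π u * q = q'' then f (u * (h : G)⁻¹) a b else 0)]
        have hsub : S.image (· * (h : G)) ⊆ W := fun u hu => by
          obtain ⟨t, ht, rfl⟩ := Finset.mem_image.1 hu
          exact hv b h h0 t ht
        rw [← Finset.sum_subset hsub, Finset.sum_image fun x _ y _ e => mul_right_cancel e]
        · refine Finset.sum_congr rfl fun t _ => ?_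
          simp [mul_assoc]
        · intro u _ hu
          have : u * (h : G)⁻¹ ∉ S := fun hc => hu (Finset.mem_image.2 ⟨_, hc, by simp⟩)
          simp [hsupp _ this]
    _ = _ := by
        rw [Finset.sum_congr rfl fun b _ => Finset.sum_comm, Finset.sum_comm]
        refine Finset.sum_congr rfl fun u _ => ?_
        by_cases hu : π u * q = q'' <;> simp [hu]

theorem quo_pow (hsupp : ∀ t ∉ S, ∀ k k', f t k k' = 0) {D : ℕ} :
    ∀ {m : ℕ}, m ≤ D → ∀ (a k : κ) (q' q : Q), (quo π S f ^ m) (a, q') (k, q) =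
      ∑ h : ↥(ball S D), if π h * q = q' then
        (win f (ball S D) ^ m) (a, h) (k, ⟨1, one_mem_ball D⟩) else 0 := by
  intro m
  induction m with
  | zero =>
    intro _ a k q' q
    rw [Finset.sum_eq_single (⟨1, one_mem_ball D⟩ : ↥(ball S D))]
    · simp only [map_one, one_mul, pow_zero, one_apply, Prod.mk.injEq, and_true]
      by_cases h' : q' = q
      · subst h'; simp
      · simp [h', Ne.symm h']
    · intro h _ hh
      simp [pow_zero, one_apply, hh]
    · simp
  | succ m ih =>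
    intro hm a k q'' q
    rw [pow_succ', Matrix.mul_apply, Fintype.sum_prod_type]
    simp only [ih (Nat.le_of_succ_le hm)]
    rw [quo_step π hsupp (fun b h => (win f (ball S D) ^ m) (b, h) (k, ⟨1, one_mem_ball D⟩))
      (fun b h h0 t ht => ball_mono hm (mul_mem_ball ht (mem_of_pow_ne_zero hsupp k b h h0)))]
    refine Finset.sum_congr rfl fun u _ => ?_
    rw [pow_succ', Matrix.mul_apply, Fintype.sum_prod_type]

theorem quo_diag (hsupp : ∀ t ∉ S, ∀ k k', f t k k' = 0) {D m : ℕ} (hm : m ≤ D)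
    (hπ : ∀ t ∈ ball S D, π t = 1 → t = 1) (k : κ) (q : Q) :
    (quo π S f ^ m) (k, q) (k, q) =
      (win f (ball S D) ^ m) (k, ⟨1, one_mem_ball D⟩) (k, ⟨1, one_mem_ball D⟩) := by
  rw [quo_pow π hsupp hm, Finset.sum_eq_single (⟨1, one_mem_ball D⟩ : ↥(ball S D))]
  · simp
  · intro h _ hh
    rw [if_neg]
    intro e
    exact hh (Subtype.ext (hπ h h.2 (by simpa using e)))
  · simp

theorem quo_row (a : κ × Q) : ∑ b, ‖quo π S f a b‖ ≤ ∑ t ∈ S, ∑ k, ∑ k', ‖f t k k'‖ := by
  refine (Finset.sum_le_sum fun b _ => norm_sum_le _ _).trans ?_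
  rw [Finset.sum_comm]
  refine Finset.sum_le_sum fun t _ => ?_
  refine le_trans (le_of_eq ?_)
    (Finset.single_le_sum (f := fun k => ∑ k', ‖f t k k'‖) (fun _ _ => by positivity)
      (Finset.mem_univ a.1))
  rw [Fintype.sum_prod_type]
  refine Finset.sum_congr rfl fun k' _ => ?_
  rw [Finset.sum_eq_single ((π t)⁻¹ * a.2)]
  · simp
  · intro q _ hq
    rw [if_neg, norm_zero]
    intro e
    exact hq (by rw [← e]; simp)
  · simp

theorem quo_herm (hsupp : ∀ t ∉ S, ∀ k k', f t k k' = 0)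
    (hherm : ∀ t k k', f t⁻¹ k k' = star (f t k' k)) : (quo π S f).IsHermitian := by
  refine Matrix.IsHermitian.ext fun a b => ?_
  have hext : ∀ (g : G → ℂ), (∀ t ∉ S, g t = 0) →
      ∑ t ∈ S, g t = ∑ t ∈ S ∪ S.image (·⁻¹), g t := fun g hg =>
    Finset.sum_subset Finset.subset_union_left fun t _ ht => hg t ht
  simp only [quo, Matrix.of_apply, kerQ, star_sum]
  rw [hext _ (fun t ht => by simp [hsupp t ht]), hext _ (fun t ht => by simp [hsupp t ht])]
  refine Finset.sum_nbij' (·⁻¹) (·⁻¹) ?_ ?_ (fun t _ => inv_inv t) (fun t _ => inv_inv t) ?_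
  · intro t ht
    simp only [Finset.mem_coe, Finset.mem_union, Finset.mem_image] at ht ⊢
    rcases ht with h | ⟨u, hu, rfl⟩
    · exact Or.inr ⟨t, h, rfl⟩
    · exact Or.inl (by simpa using hu)
  · intro t ht
    simp only [Finset.mem_coe, Finset.mem_union, Finset.mem_image] at ht ⊢
    rcases ht with h | ⟨u, hu, rfl⟩
    · exact Or.inr ⟨t, h, rfl⟩
    · exact Or.inl (by simpa using hu)
  · intro t _
    have e : π t * a.2 = b.2 ↔ π t⁻¹ * b.2 = a.2 := by
      rw [map_inv, inv_mul_eq_iff_eq_mul, eq_comm]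
    by_cases h : π t * a.2 = b.2
    · rw [if_pos h, if_pos (e.1 h), hherm]
    · rw [if_neg h, if_neg fun h' => h (e.2 h'), star_zero]

theorem win_psd (hherm : ∀ t k k', f t⁻¹ k k' = star (f t k' k))
    (hpos : ∀ (W : Finset G) (ξ : G → κ → ℂ),
      0 ≤ ∑ h ∈ W, ∑ h' ∈ W, ∑ k, ∑ k', star (ξ h k) * f (h * h'⁻¹) k k' * ξ h' k')
    (W : Finset G) : (win f W).PosSemidef := by
  refine Matrix.posSemidef_iff_dotProduct_mulVec.2
    ⟨Matrix.IsHermitian.ext fun a b => ?_, fun x => ?_⟩
  · simp only [win, Matrix.of_apply]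
    rw [← hherm, _root_.mul_inv_rev, inv_inv]
  let ξ : G → κ → ℂ := fun g k => if hg : g ∈ W then x (k, ⟨g, hg⟩) else 0
  have hx : ∀ (k : κ) (g : ↥W), x (k, g) = ξ g k := fun k g => by simp [ξ]
  simp only [dotProduct, mulVec, win, Matrix.of_apply, Pi.star_apply, Fintype.sum_prod_type, hx,
    Finset.mul_sum]
  refine le_of_le_of_eq (hpos W ξ) ?_
  rw [← Finset.sum_coe_sort W, Finset.sum_comm (s := (Finset.univ : Finset κ))]
  refine Finset.sum_congr rfl fun h _ => ?_
  rw [← Finset.sum_coe_sort W]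
  rw [Finset.sum_comm (s := (Finset.univ : Finset ↥W))]
  refine Finset.sum_congr rfl fun k _ => ?_
  rw [Finset.sum_comm]
  exact Finset.sum_congr rfl fun k' _ => Finset.sum_congr rfl fun h' _ => by ring

theorem win_row (hsupp : ∀ t ∉ S, ∀ k k', f t k k' = 0) (W : Finset G) (a : κ × ↥W) :
    ∑ b, ‖win f W a b‖ ≤ ∑ t ∈ S, ∑ k, ∑ k', ‖f t k k'‖ := by
  rw [Fintype.sum_prod_type, Finset.sum_comm]
  refine le_trans ?_ (Finset.sum_le_sum fun t _ =>
    Finset.single_le_sum (f := fun k => ∑ k', ‖f t k k'‖) (fun _ _ => by positivity)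
      (Finset.mem_univ a.1))
  simp only [win, Matrix.of_apply]
  rw [Finset.sum_coe_sort W (fun u => ∑ k', ‖f ((a.2 : G) * u⁻¹) a.1 k'‖)]
  rw [← Finset.sum_image (f := fun t => ∑ k', ‖f t a.1 k'‖) (g := fun u => (a.2 : G) * u⁻¹)
    (fun x _ y _ e => inv_injective (mul_left_cancel e))]
  set U := W.image fun u => (a.2 : G) * u⁻¹
  refine (Finset.sum_le_sum_of_subset_of_nonneg (Finset.subset_union_right (s₁ := S))
    fun _ _ _ => by positivity).trans_eq ?_
  exact (Finset.sum_subset Finset.subset_union_left fun t _ ht => by simp [hsupp t ht]).symm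

end Window

theorem exists_sep {ι : Type} [DecidableEq ι] (W : Finset (FreeGroup ι)) :
    ∃ (Q : Type) (_ : Group Q) (_ : Fintype Q) (_ : DecidableEq Q) (π : FreeGroup ι →* Q),
      ∀ t ∈ W, π t = 1 → t = 1 := by
  classical
  set E : Finset (FreeGroup ι) :=
    insert 1 (W.biUnion fun w => w.toWord.tails.toFinset.image FreeGroup.mk) with hE
  let eqv : ∀ i, {e : ↥E // FreeGroup.of i * (e : FreeGroup ι) ∈ E} ≃
      {e : ↥E // (FreeGroup.of i)⁻¹ * (e : FreeGroup ι) ∈ E} := fun i =>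
    { toFun := fun e => ⟨⟨FreeGroup.of i * (e.1 : FreeGroup ι), e.2⟩, by simp [e.1.2]⟩
      invFun := fun e => ⟨⟨(FreeGroup.of i)⁻¹ * (e.1 : FreeGroup ι), e.2⟩, by simp [e.1.2]⟩
      left_inv := fun e => by ext; simp
      right_inv := fun e => by ext; simp }
  let π : FreeGroup ι →* Equiv.Perm ↥E := FreeGroup.lift fun i => (eqv i).extendSubtype
  refine ⟨Equiv.Perm ↥E, inferInstance, inferInstance, inferInstance, π, fun t ht h1 => ?_⟩
  have h1E : (1 : FreeGroup ι) ∈ E := Finset.mem_insert_self _ _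
  have key : ∀ L, (∀ L', L' <:+ L → FreeGroup.mk L' ∈ E) →
      (π (FreeGroup.mk L) ⟨1, h1E⟩ : FreeGroup ι) = FreeGroup.mk L := by
    intro L
    induction L with
    | nil =>
      intro _
      rw [← FreeGroup.one_eq_mk, map_one]
      rfl
    | cons x L ih =>
      intro hL
      obtain ⟨i, b⟩ := x
      have h2 := ih fun L' h' => hL L' (h'.trans (List.suffix_cons _ _))
      have hmem := hL L (List.suffix_cons _ _)
      have hx := hL _ List.suffix_rfl
      have e2 : π (FreeGroup.mk L) ⟨1, h1E⟩ = ⟨FreeGroup.mk L, hmem⟩ := Subtype.ext h2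
      cases b with
      | true =>
        have e : FreeGroup.mk ((i, true) :: L) = FreeGroup.of i * FreeGroup.mk L := rfl
        rw [e] at hx ⊢
        rw [map_mul, Equiv.Perm.mul_apply, e2]
        simp only [π, FreeGroup.lift_apply_of]
        rw [Equiv.extendSubtype_apply_of_mem (eqv i) ⟨FreeGroup.mk L, hmem⟩ hx]
        rfl
      | false =>
        have e : FreeGroup.mk ((i, false) :: L) = (FreeGroup.of i)⁻¹ * FreeGroup.mk L := rfl
        rw [e] at hx ⊢
        rw [map_mul, Equiv.Perm.mul_apply, e2]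
        have h3 : (⟨FreeGroup.mk L, hmem⟩ : ↥E) =
            π (FreeGroup.of i) ⟨(FreeGroup.of i)⁻¹ * FreeGroup.mk L, hx⟩ := by
          simp only [π, FreeGroup.lift_apply_of]
          rw [Equiv.extendSubtype_apply_of_mem _ _ (by simp [hmem])]
          exact Subtype.ext (by simp [eqv])
        rw [h3, map_inv, Equiv.Perm.inv_def, Equiv.symm_apply_apply]
  have h4 := key t.toWord fun L' h' => Finset.mem_insert_of_mem (Finset.mem_biUnion.2
    ⟨t, ht, Finset.mem_image.2 ⟨L', by simpa using h', rfl⟩⟩)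
  rw [FreeGroup.mk_toWord, h1] at h4
  exact h4.symm

/-- A polynomial close to the indicator of the negative axis. -/
theorem exists_poly (C : ℝ) {γ γ' : ℝ} (hγ : 0 < γ) (hγ' : 0 < γ') :
    ∃ p : Polynomial ℝ, ∀ x : ℝ, |x| ≤ C → -γ' ≤ p.eval x ∧ (x < -γ → 1 - γ' ≤ p.eval x) ∧
      (0 ≤ x → p.eval x ≤ γ') := by
  set g : ℝ → ℝ := fun x => max 0 (min 1 (-x / γ)) with hg
  have hc : Continuous g := by rw [hg]; fun_prop
  obtain ⟨p, hp⟩ := exists_polynomial_near_of_continuousOn (-C) C g hc.continuousOn γ' hγ'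
  refine ⟨p, fun x hx => ?_⟩
  have h := abs_lt.1 (hp x (abs_le.1 hx))
  refine ⟨?_, fun hneg => ?_, fun hpos => ?_⟩
  · have : (0 : ℝ) ≤ g x := le_max_left _ _
    linarith [h.1]
  · have : (1 : ℝ) ≤ g x := le_trans (le_min le_rfl (by rw [le_div_iff₀ hγ]; linarith))
      (le_max_right _ _)
    linarith [h.1]
  · have : g x ≤ 0 := max_le le_rfl ((min_le_right _ _).trans
      (div_nonpos_of_nonpos_of_nonneg (by linarith) hγ.le))
    linarith [h.2]

end QuotAux

open QuotAux Matrix in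
theorem exists_quotient {ι κ : Type} [Fintype ι] [DecidableEq ι] [Fintype κ] [DecidableEq κ]
    (S : Finset (FreeGroup ι)) (f : FreeGroup ι → κ → κ → ℂ)
    (hsupp : ∀ t ∉ S, ∀ k k', f t k k' = 0) (hherm : ∀ t k k', f t⁻¹ k k' = star (f t k' k))
    (hpos : ∀ (W : Finset (FreeGroup ι)) (ξ : FreeGroup ι → κ → ℂ),
      0 ≤ ∑ h ∈ W, ∑ h' ∈ W, ∑ k, ∑ k', star (ξ h k) * f (h * h'⁻¹) k k' * ξ h' k')
    {γ : ℝ} (hγ : 0 < γ) :
    ∃ (Q : Type) (_ : Group Q) (_ : Fintype Q) (_ : DecidableEq Q) (π : FreeGroup ι →* Q) (N : ℕ)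
      (v : Fin N → κ × Q → ℂ), (N : ℝ) ≤ γ * Fintype.card Q ∧
      (∀ ξ : κ × Q → ℂ, ∑ r, ‖∑ a, v r a * ξ a‖ ^ 2 ≤
        (∑ t ∈ S, ∑ k, ∑ k', ‖f t k k'‖) * ∑ a, ‖ξ a‖ ^ 2) ∧
      ∀ ξ : κ × Q → ℂ, 0 ≤ (∑ a, ∑ b, star (ξ a) * kerQ S f π a b * ξ b).re +
        γ * ∑ a, ‖ξ a‖ ^ 2 + ∑ r, ‖∑ a, v r a * ξ a‖ ^ 2 := by
  classical
  set C := ∑ t ∈ S, ∑ k, ∑ k', ‖f t k k'‖ with hC
  set γ' := γ / (2 * Fintype.card κ + 1) with hγ'def
  have hγ' : 0 < γ' := by positivity
  obtain ⟨p, hp⟩ := exists_poly C hγ hγ'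
  set D := p.natDegree
  obtain ⟨Q, _, _, _, π, hπ⟩ := exists_sep (ball S D)
  have hX : (quo π S f).IsHermitian := quo_herm π hsupp hherm
  have hY := (win_psd hherm hpos (ball S D))
  set lam := hX.eigenvalues
  have hlam : ∀ r, |lam r| ≤ C := abs_eigenvalue_le hX (quo_row π)
  have hdiag : ∀ (k : κ) (q : Q), (Polynomial.aeval (quo π S f) p (k, q) (k, q)).re ≤ γ' := by
    intro k q
    have e : Polynomial.aeval (quo π S f) p (k, q) (k, q) = Polynomial.aeval (win f (ball S D)) p
        (k, ⟨1, one_mem_ball D⟩) (k, ⟨1, one_mem_ball D⟩) := by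
      simp only [Polynomial.aeval_eq_sum_range, Matrix.sum_apply, Matrix.smul_apply]
      refine Finset.sum_congr rfl fun m hm => ?_
      rw [quo_diag π hsupp (Nat.lt_succ_iff.1 (Finset.mem_range.1 hm)) hπ]
    rw [e]
    exact diag_le hY.1 p _ fun r => (hp _ (abs_eigenvalue_le hY.1 (win_row hsupp _) r)).2.2
      (hY.eigenvalues_nonneg r)
  set P : Finset (κ × Q) := Finset.univ.filter fun r => lam r < -γ with hP
  have hcard : (P.card : ℝ) ≤ γ * Fintype.card Q := by
    have h1 : ∑ r, (if r ∈ P then (1 : ℝ) else 0) - γ' * Fintype.card (κ × Q) ≤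
        ∑ r, p.eval (lam r) := by
      rw [show γ' * (Fintype.card (κ × Q) : ℝ) = ∑ _r : κ × Q, γ' by simp [mul_comm],
        ← Finset.sum_sub_distrib]
      refine Finset.sum_le_sum fun r _ => ?_
      obtain ⟨h0, hn, -⟩ := hp _ (hlam r)
      split_ifs with hr
      · exact hn (Finset.mem_filter.1 hr).2
      · linarith
    have h2 : ∑ r, p.eval (lam r) ≤ γ' * Fintype.card (κ × Q) := by
      rw [← sum_eval hX p, show γ' * (Fintype.card (κ × Q) : ℝ) = ∑ _r : κ × Q, γ' by
        simp [mul_comm]]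
      exact Finset.sum_le_sum fun a _ => hdiag a.1 a.2
    rw [Finset.sum_boole, Finset.filter_mem_eq_inter, Finset.univ_inter] at h1
    rw [Fintype.card_prod, Nat.cast_mul] at h1 h2
    have h3 : γ' * (2 * Fintype.card κ + 1) = γ := div_mul_cancel₀ _ (by positivity)
    nlinarith [mul_nonneg hγ'.le (Nat.cast_nonneg (α := ℝ) (Fintype.card Q))]
  let e := P.equivFin
  let v : Fin P.card → κ × Q → ℂ := fun r a =>
    (Real.sqrt (-lam (e.symm r)) : ℂ) *
      star ((hX.eigenvectorUnitary : Matrix (κ × Q) (κ × Q) ℂ) a (e.symm r))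
  have hv : ∀ ξ : κ × Q → ℂ, ∑ r, ‖∑ a, v r a * ξ a‖ ^ 2 =
      ∑ r ∈ P, -lam r * ‖coef hX ξ r‖ ^ 2 := by
    intro ξ
    rw [← Finset.sum_coe_sort P, ← e.symm.sum_comp]
    refine Finset.sum_congr rfl fun r => ?_
    intro _
    have hr := (Finset.mem_filter.1 (e.symm r).2).2
    simp only [v, mul_assoc, ← Finset.mul_sum, norm_mul, mul_pow, Complex.norm_real,
      Real.norm_eq_abs, sq_abs, coef]
    rw [Real.sq_sqrt (by linarith)]
  refine ⟨Q, inferInstance, inferInstance, inferInstance, π, P.card, v, hcard, fun ξ => ?_,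
    fun ξ => ?_⟩
  · rw [hv, ← sum_sq hX ξ, Finset.mul_sum]
    refine (Finset.sum_le_sum fun r _ => mul_le_mul_of_nonneg_right ?_ (by positivity)).trans
      (Finset.sum_le_sum_of_subset_of_nonneg (Finset.subset_univ _) fun r _ _ => ?_)
    · exact (neg_le_abs _).trans (hlam r)
    · exact mul_nonneg ((abs_nonneg _).trans (hlam r)) (by positivity)
  · have h1 := sum_form hX Polynomial.X ξ
    simp only [Polynomial.aeval_X, Polynomial.eval_X] at h1
    have h2 : (∑ a, ∑ b, star (ξ a) * kerQ S f π a b * ξ b).re =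
        ∑ r, lam r * ‖coef hX ξ r‖ ^ 2 := h1
    rw [h2, hv, ← sum_sq hX ξ, Finset.mul_sum, ← Finset.univ_inter P, ← Finset.filter_mem_eq_inter,
      Finset.sum_filter, ← Finset.sum_add_distrib, ← Finset.sum_add_distrib]
    refine Finset.sum_nonneg fun r _ => ?_
    have hs : 0 ≤ ‖coef hX ξ r‖ ^ 2 := by positivity
    split_ifs with hr
    · nlinarith
    · have : -γ ≤ lam r := by
        by_contra hc
        exact hr (Finset.mem_filter.2 ⟨Finset.mem_univ r, not_le.1 hc⟩)
      nlinarith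

end Vale.Agent.P095.Weak
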