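import Mathlib

/-!
P095 Weak: finite matrices for the deep stages: a unital copy of `M_a` in `M_(K a)` is standard, so
it leaves a commuting copy of `M_K`; partial isometries moving blocks of `R` indices.
-/

open scoped Kronecker
open Matrix

namespace Vale.Agent.P095.Weak.Zone

variable {m o n l : Type*} [Fintype m] [DecidableEq m] [Fintype o] [DecidableEq o] [Fintype n]
  [DecidableEq n] [Fintype l] [DecidableEq l]

/-- Conjugation by a unitary between two index sets. -/
noncomputable def conjHom (U : Matrix m o ℂ) (h1 : Uᴴ * U = 1) (h2 : U * Uᴴ = 1) :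
    Matrix o o ℂ →⋆ₐ[ℂ] Matrix m m ℂ where
  toFun A := U * A * Uᴴ
  map_one' := by rw [Matrix.mul_one, h2]
  map_mul' A B := by
    simp only [Matrix.mul_assoc]
    rw [← Matrix.mul_assoc Uᴴ U, h1, Matrix.one_mul]
  map_zero' := by simp
  map_add' A B := by rw [Matrix.mul_add, Matrix.add_mul]
  commutes' r := by
    rw [Algebra.algebraMap_eq_smul_one, Algebra.algebraMap_eq_smul_one, Matrix.mul_smul,
      Matrix.smul_mul, Matrix.mul_one, h2]
  map_star' A := by
    simp only [Matrix.star_eq_conjTranspose, Matrix.conjTranspose_mul,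
      Matrix.conjTranspose_conjTranspose, Matrix.mul_assoc]

@[simp] theorem conjHom_apply (U : Matrix m o ℂ) (h1 : Uᴴ * U = 1) (h2 : U * Uᴴ = 1)
    (A : Matrix o o ℂ) : conjHom U h1 h2 A = U * A * Uᴴ := rfl

/-- `x ↦ x ⊗ 1`. -/
noncomputable def kronL (o : Type*) [Fintype o] [DecidableEq o] :
    Matrix m m ℂ →⋆ₐ[ℂ] Matrix (m × o) (m × o) ℂ where
  toFun x := x ⊗ₖ (1 : Matrix o o ℂ)
  map_one' := one_kronecker_one
  map_mul' x y := by rw [← mul_kronecker_mul, Matrix.one_mul]
  map_zero' := zero_kronecker _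
  map_add' x y := add_kronecker _ _ _
  commutes' r := by
    rw [Algebra.algebraMap_eq_smul_one, Algebra.algebraMap_eq_smul_one, smul_kronecker,
      one_kronecker_one]
  map_star' x := by
    simp only [Matrix.star_eq_conjTranspose, conjTranspose_kronecker, conjTranspose_one]

/-- `y ↦ 1 ⊗ y`. -/
noncomputable def kronR (m : Type*) [Fintype m] [DecidableEq m] :
    Matrix o o ℂ →⋆ₐ[ℂ] Matrix (m × o) (m × o) ℂ where
  toFun y := (1 : Matrix m m ℂ) ⊗ₖ y
  map_one' := one_kronecker_one
  map_mul' x y := by rw [← mul_kronecker_mul, Matrix.one_mul]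
  map_zero' := kronecker_zero _
  map_add' x y := kronecker_add _ _ _
  commutes' r := by
    rw [Algebra.algebraMap_eq_smul_one, Algebra.algebraMap_eq_smul_one, kronecker_smul,
      one_kronecker_one]
  map_star' x := by
    simp only [Matrix.star_eq_conjTranspose, conjTranspose_kronecker, conjTranspose_one]

@[simp] theorem kronL_apply (x : Matrix m m ℂ) : kronL o x = x ⊗ₖ (1 : Matrix o o ℂ) := rfl

@[simp] theorem kronR_apply (y : Matrix o o ℂ) : kronR m y = (1 : Matrix m m ℂ) ⊗ₖ y := rfl

/-- Renaming the indices. -/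
noncomputable def reindexHom (e : m ≃ o) : Matrix o o ℂ →⋆ₐ[ℂ] Matrix m m ℂ where
  toFun A := A.submatrix e e
  map_one' := submatrix_one_equiv e
  map_mul' A B := (submatrix_mul_equiv A B _ e _).symm
  map_zero' := rfl
  map_add' A B := rfl
  commutes' r := by
    ext x y
    simp [Matrix.algebraMap_matrix_apply]
  map_star' A := rfl

@[simp] theorem reindexHom_apply (e : m ≃ o) (A : Matrix o o ℂ) (x y : m) :
    reindexHom e A x y = A (e x) (e y) := rfl

/-- A projection of trace `K` is `Y Yᴴ` for an isometry `Y` with `K` columns. -/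
theorem exists_isometry_of_proj (P : Matrix n n ℂ) (hP : P.IsHermitian) (hP2 : P * P = P) {K : ℕ}
    (htr : P.trace = K) : ∃ Y : Matrix n (Fin K) ℂ, Yᴴ * Y = 1 ∧ Y * Yᴴ = P := by
  classical
  set U : Matrix n n ℂ := (hP.eigenvectorUnitary : Matrix n n ℂ)
  have hU1 : Uᴴ * U = 1 := Unitary.coe_star_mul_self hP.eigenvectorUnitary
  have hU2 : U * Uᴴ = 1 := Unitary.coe_mul_star_self hP.eigenvectorUnitary
  set D : Matrix n n ℂ := diagonal fun i => (hP.eigenvalues i : ℂ) with hD
  have hspec : P = U * D * Uᴴ := by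
    have h := hP.spectral_theorem
    rw [Unitary.conjStarAlgAut_apply] at h
    exact h
  have hDD : D * D = D := by
    have h : Uᴴ * (P * P) * U = Uᴴ * P * U := by rw [hP2]
    have e : ∀ Z, Uᴴ * (U * Z * Uᴴ) * U = Z := fun Z => by
      simp only [Matrix.mul_assoc]
      rw [hU1, Matrix.mul_one, ← Matrix.mul_assoc, hU1, Matrix.one_mul]
    rw [hspec] at h
    rw [show U * D * Uᴴ * (U * D * Uᴴ) = U * (D * D) * Uᴴ from
      ((conjHom U hU1 hU2).map_mul' D D).symm, e, e] at h
    exact h
  set S := Finset.univ.filter fun i => hP.eigenvalues i = 1 with hS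
  have h01 : ∀ i, (hP.eigenvalues i : ℂ) = if i ∈ S then 1 else 0 := by
    intro i
    have h := congrFun (congrFun hDD i) i
    rw [hD, diagonal_mul_diagonal, diagonal_apply_eq, diagonal_apply_eq, ← Complex.ofReal_mul,
      Complex.ofReal_inj] at h
    rcases eq_or_ne (hP.eigenvalues i) 0 with h0 | h0
    · simp [hS, h0]
    · have h1 : hP.eigenvalues i = 1 := mul_left_cancel₀ h0 (by rw [h, mul_one])
      simp [hS, h1]
  have hcard : S.card = K := by
    have h : P.trace = D.trace := by
      rw [hspec, trace_mul_cycle, hU1, Matrix.one_mul]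
    rw [htr, hD, trace_diagonal, Finset.sum_congr rfl fun i _ => h01 i, Finset.sum_boole] at h
    have h' : (K : ℂ) = (S.card : ℂ) := by rw [h, Finset.filter_univ_mem]
    exact_mod_cast h'.symm
  set e : Fin K ≃ S := (S.equivFinOfCardEq hcard).symm
  refine ⟨U.submatrix id (fun l => (e l : n)), ?_, ?_⟩
  · rw [conjTranspose_submatrix, ← submatrix_mul _ _ _ _ _ Function.bijective_id, hU1]
    exact submatrix_one _ (Subtype.val_injective.comp e.injective)
  · rw [hspec]
    ext x y
    rw [mul_apply, mul_apply]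
    simp only [conjTranspose_apply, submatrix_apply, id_eq, hD, mul_diagonal, h01, mul_ite, mul_one,
      mul_zero, ite_mul, zero_mul]
    rw [Finset.sum_ite_mem, Finset.univ_inter, ← Finset.sum_coe_sort S]
    exact e.sum_comp fun i : S => U x i * star (U y i)

/-- A unital copy of `M_a` in `M_n`, `n = K a`, is conjugate to `x ↦ x ⊗ 1`. -/
theorem exists_unitary_of_hom {a K : ℕ} (ha : 0 < a) (hn : Fintype.card n = K * a)
    (θ : Matrix (Fin a) (Fin a) ℂ →⋆ₐ[ℂ] Matrix n n ℂ) :
    ∃ V : Matrix n (Fin a × Fin K) ℂ, Vᴴ * V = 1 ∧ V * Vᴴ = 1 ∧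
      ∀ x, θ x = V * (x ⊗ₖ (1 : Matrix (Fin K) (Fin K) ℂ)) * Vᴴ := by
  classical
  set z : Fin a := ⟨0, ha⟩
  let e : Fin a → Fin a → Matrix n n ℂ := fun i j => θ (Matrix.single i j 1)
  have hee : ∀ i j k l, e i j * e k l = if j = k then e i l else 0 := by
    intro i j k l
    simp only [e, ← map_mul]
    split_ifs with h
    · subst h; rw [single_mul_single_same, one_mul]
    · rw [single_mul_single_of_ne _ _ _ _ h, map_zero]
  have hstar : ∀ i j, (e i j)ᴴ = e j i := by
    intro i j
    simp only [e, ← Matrix.star_eq_conjTranspose, ← map_star]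
    rw [Matrix.star_eq_conjTranspose, conjTranspose_single, star_one]
  have htr : (e z z).trace = K := by
    have h1 : ∀ i, (e i i).trace = (e z z).trace := fun i => by
      have h2 := hee i z z i
      have h3 := hee z i i z
      rw [if_pos rfl] at h2 h3
      rw [← h2, ← h3, trace_mul_comm]
    have h2 : ∑ i, e i i = 1 := by
      rw [← map_sum, sum_single_one, map_one]
    have h3 := congrArg Matrix.trace h2
    rw [trace_sum, Finset.sum_congr rfl fun i _ => h1 i, trace_one, hn] at h3
    simp only [Finset.sum_const, Finset.card_univ, Fintype.card_fin, nsmul_eq_mul,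
      Nat.cast_mul] at h3
    exact mul_left_cancel₀ (Nat.cast_ne_zero.2 ha.ne') (h3.trans (mul_comm _ _))
  obtain ⟨Y, hY1, hY2⟩ := exists_isometry_of_proj (e z z)
    (by rw [Matrix.IsHermitian, hstar]) (by rw [hee, if_pos rfl]) htr
  have hPY : e z z * Y = Y := by rw [← hY2, Matrix.mul_assoc, hY1, Matrix.mul_one]
  let V : Matrix n (Fin a × Fin K) ℂ := Matrix.of fun x il => (e il.1 z * Y) x il.2
  have hV1 : Vᴴ * V = 1 := by
    ext il jl
    have h : (Vᴴ * V) il jl = ((e il.1 z * Y)ᴴ * (e jl.1 z * Y)) il.2 jl.2 := rfl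
    rw [h, conjTranspose_mul, hstar, Matrix.mul_assoc, ← Matrix.mul_assoc (e z il.1), hee]
    by_cases hij : il.1 = jl.1
    · rw [if_pos hij, hPY, hY1]
      simp [one_apply, Prod.ext_iff, hij]
    · rw [if_neg hij, Matrix.zero_mul, Matrix.mul_zero, one_apply,
        if_neg fun h' => hij (congrArg Prod.fst h')]
      rfl
  have hcard : Fintype.card (Fin a × Fin K) = Fintype.card n := by
    rw [Fintype.card_prod, Fintype.card_fin, Fintype.card_fin, hn, mul_comm]
  have hV2 : V * Vᴴ = 1 := (mul_eq_one_comm_of_equiv (Fintype.equivOfCardEq hcard)).1 hV1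
  refine ⟨V, hV1, hV2, fun x => ?_⟩
  have key : θ x * V = V * (x ⊗ₖ (1 : Matrix (Fin K) (Fin K) ℂ)) := by
    ext y il
    have h : (θ x * V) y il = (θ x * (e il.1 z * Y)) y il.2 := rfl
    have hx : θ x * e il.1 z = ∑ i, x i il.1 • e i z := by
      have hm : x * Matrix.single il.1 z 1 = ∑ i, x i il.1 • Matrix.single i z (1 : ℂ) := by
        ext r s
        by_cases hs : s = z
        · subst hs
          simp [Matrix.sum_apply, Matrix.single_apply]
        · simp [Matrix.sum_apply, Ne.symm hs, Matrix.mul_apply]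
      simp only [e, ← map_smul, ← map_sum, ← map_mul, hm]
    rw [h, ← Matrix.mul_assoc, hx, Matrix.sum_mul, Matrix.sum_apply, Matrix.mul_apply,
      Fintype.sum_prod_type]
    refine Finset.sum_congr rfl fun i _ => ?_
    rw [Finset.sum_eq_single il.2]
    · simp [V, Matrix.smul_mul, Matrix.smul_apply, mul_comm]
    · intro l _ hl
      simp [one_apply, hl]
    · simp
  rw [← key, Matrix.mul_assoc, hV2, Matrix.mul_one]

/-- A copy of `M_a` pushed into `M_n ⊗ 1` leaves a commuting copy of `M_K` with the same end. -/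
theorem exists_commutant_hom [Nonempty l] {a K : ℕ} (ha : 0 < a)
    (hn : Fintype.card n = K * a) (eN : m ≃ n × l)
    (emb : Matrix (Fin a) (Fin a) ℂ →⋆ₐ[ℂ] Matrix o o ℂ) (V₀ : Matrix m o ℂ)
    (h1 : V₀ᴴ * V₀ = 1) (h2 : V₀ * V₀ᴴ = 1)
    (hend : ∀ x, ∃ A, V₀ * emb x * V₀ᴴ = reindexHom eN (kronL l A)) :
    ∃ E : Matrix (Fin K) (Fin K) ℂ →⋆ₐ[ℂ] Matrix o o ℂ, (∀ x y, Commute (E y) (emb x)) ∧
      ∀ y, ∃ A, V₀ * E y * V₀ᴴ = reindexHom eN (kronL l A) := by
  classical
  obtain ⟨l₀⟩ := ‹Nonempty l›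
  set ι := (reindexHom eN).comp (kronL (m := n) l) with hι
  have hinj : Function.Injective ι := fun A B hAB => by
    ext i j
    simpa [hι] using congrFun (congrFun hAB (eN.symm (i, l₀))) (eN.symm (j, l₀))
  set H := (conjHom V₀ h1 h2).comp emb
  choose f hf using hend
  let θ : Matrix (Fin a) (Fin a) ℂ →⋆ₐ[ℂ] Matrix n n ℂ :=
    { toFun := f
      map_one' := hinj (by rw [map_one]; exact (hf 1).symm.trans (map_one H))
      map_mul' := fun x y => hinj (by
        rw [map_mul]
        exact ((hf (x * y)).symm.trans (map_mul H x y)).trans (congrArg₂ (· * ·) (hf x) (hf y)))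
      map_zero' := hinj (by rw [map_zero]; exact (hf 0).symm.trans (map_zero H))
      map_add' := fun x y => hinj (by
        rw [map_add]
        exact ((hf (x + y)).symm.trans (map_add H x y)).trans (congrArg₂ (· + ·) (hf x) (hf y)))
      commutes' := fun r => hinj (by
        rw [AlgHomClass.commutes]; exact (hf _).symm.trans (AlgHomClass.commutes H r))
      map_star' := fun x => hinj (by
        rw [map_star]
        exact ((hf (star x)).symm.trans (map_star H x)).trans (congrArg star (hf x))) }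
  obtain ⟨V, hV1, hV2, hV⟩ := exists_unitary_of_hom ha hn θ
  set W := conjHom V₀ᴴ (by rw [conjTranspose_conjTranspose, h2])
    (by rw [conjTranspose_conjTranspose, h1])
  have hW : ∀ A, V₀ * W A * V₀ᴴ = A := fun A => by
    simp only [W, conjHom_apply, conjTranspose_conjTranspose, Matrix.mul_assoc]
    rw [h2, Matrix.mul_one, ← Matrix.mul_assoc, h2, Matrix.one_mul]
  refine ⟨W.comp (ι.comp ((conjHom V hV1 hV2).comp (kronR (Fin a)))), fun x y => ?_,
    fun y => ⟨_, hW _⟩⟩
  have e : emb x = W (ι (θ x)) := by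
    show emb x = W (reindexHom eN (kronL l (f x)))
    rw [← hf x]
    simp only [W, conjHom_apply, conjTranspose_conjTranspose, Matrix.mul_assoc]
    rw [h1, Matrix.mul_one, ← Matrix.mul_assoc, h1, Matrix.one_mul]
  rw [e, hV x]
  refine Commute.map (Commute.map ?_ ι) W
  show Commute (conjHom V hV1 hV2 (1 ⊗ₖ y)) (conjHom V hV1 hV2 (x ⊗ₖ 1))
  refine Commute.map ?_ _
  show (1 : Matrix (Fin a) (Fin a) ℂ) ⊗ₖ y * x ⊗ₖ 1 = x ⊗ₖ 1 * 1 ⊗ₖ y
  rw [← mul_kronecker_mul, ← mul_kronecker_mul, Matrix.one_mul, Matrix.mul_one, Matrix.one_mul,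
    Matrix.mul_one]

/-- The block `a` of `R` indices, moved to the first `R` indices. -/
def shiftMat (K R a : ℕ) : Matrix (Fin K) (Fin K) ℂ :=
  Matrix.of fun x y => if x.1 < R ∧ y.1 = a * R + x.1 then 1 else 0

theorem shiftMat_mul_conjTranspose {K R a b : ℕ} (hR : 0 < R) (ha : (a + 1) * R ≤ K) :
    shiftMat K R a * (shiftMat K R b)ᴴ = if a = b then shiftMat K R 0 else 0 := by
  ext x y
  rw [mul_apply]
  simp only [shiftMat, conjTranspose_apply, of_apply, apply_ite star, star_one, star_zero,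
    ite_mul, one_mul, zero_mul]
  by_cases hx : x.1 < R
  swap
  · rw [Finset.sum_eq_zero fun z _ => if_neg fun h => hx h.1]
    split_ifs with hab
    · simp [hx]
    · rfl
  have hz : a * R + x.1 < K := by rw [add_one_mul] at ha; omega
  rw [Finset.sum_eq_single ⟨a * R + x.1, hz⟩ (fun z _ hz' => if_neg fun h => hz' (Fin.ext h.2))
    (by simp), if_pos ⟨hx, rfl⟩]
  by_cases hab : a = b
  · subst hab
    simp only [if_true, of_apply, zero_add]
    exact if_congr ⟨fun h => ⟨hx, by omega⟩, fun h => ⟨by omega, by omega⟩⟩ rfl rfl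
  · rw [if_neg hab, if_neg]
    · rfl
    rintro ⟨hy, h⟩
    refine hab ?_
    have h2 := congrArg (· / R) h
    simp only [mul_comm a R, mul_comm b R, Nat.mul_add_div hR, Nat.div_eq_of_lt hy,
      Nat.div_eq_of_lt hx, add_zero] at h2
    exact h2

theorem shiftMat_zero_mul {K R a : ℕ} : shiftMat K R 0 * shiftMat K R a = shiftMat K R a := by
  ext x y
  rw [mul_apply]
  simp only [shiftMat, of_apply, zero_mul, zero_add, ite_mul, one_mul]
  by_cases hx : x.1 < R
  · rw [Finset.sum_eq_single x]
    · simp [hx]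
    · intro z _ hz
      rw [if_neg fun h => hz (Fin.ext h.2)]
    · simp
  · rw [Finset.sum_eq_zero fun z _ => if_neg fun h => hx h.1, if_neg fun h => hx h.1]

theorem conjTranspose_mul_shiftMat (K R a : ℕ) :
    (shiftMat K R a)ᴴ * shiftMat K R a =
      diagonal fun y : Fin K => if a * R ≤ y.1 ∧ y.1 < a * R + R then 1 else 0 := by
  ext x y
  rw [mul_apply, diagonal_apply]
  simp only [shiftMat, conjTranspose_apply, of_apply, apply_ite star, star_one, star_zero,
    ite_mul, one_mul, zero_mul]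
  by_cases hx : a * R ≤ x.1 ∧ x.1 < a * R + R
  · have h0 : x.1 - a * R < K := by omega
    rw [Finset.sum_eq_single ⟨x.1 - a * R, h0⟩ (fun z _ hz => if_neg fun h => hz (Fin.ext (by
      simp only; omega))) (by simp), if_pos ⟨by simp only; omega, by simp only; omega⟩]
    by_cases hxy : x = y
    · subst hxy
      rw [if_pos ⟨by simp only; omega, by simp only; omega⟩, if_pos rfl, if_pos hx]
    · rw [if_neg hxy, if_neg fun h => hxy (Fin.ext (by
        have := h.2; simp only at this; omega))]
  · rw [Finset.sum_eq_zero fun z _ => if_neg fun h => hx ⟨by omega, by omega⟩]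
    split_ifs <;> rfl

theorem sum_conjTranspose_mul_shiftMat {K R N : ℕ} (hR : 0 < R) (h : K ≤ N * R) :
    ∑ a : Fin N, (shiftMat K R a)ᴴ * shiftMat K R a = 1 := by
  ext x y
  simp only [Matrix.sum_apply, conjTranspose_mul_shiftMat, diagonal_apply, one_apply]
  by_cases hxy : x = y
  · subst hxy
    have hdiv : x.1 / R < N := (Nat.div_lt_iff_lt_mul hR).2 (lt_of_lt_of_le x.2 h)
    simp only [if_true]
    rw [Finset.sum_eq_single ⟨x.1 / R, hdiv⟩]
    · rw [if_pos ⟨Nat.div_mul_le_self _ _, Nat.lt_div_mul_add hR⟩]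
    · intro b _ hb
      refine if_neg fun h' => hb (Fin.ext ?_)
      exact (Nat.div_eq_of_lt_le h'.1 (by rw [add_one_mul]; exact h'.2)).symm
    · simp
  · simp [hxy]

theorem conjTranspose_mul_shiftMat_sq (K R a : ℕ) :
    (shiftMat K R a)ᴴ * shiftMat K R a * ((shiftMat K R a)ᴴ * shiftMat K R a) =
      (shiftMat K R a)ᴴ * shiftMat K R a := by
  rw [conjTranspose_mul_shiftMat, diagonal_mul_diagonal]
  exact congrArg diagonal (funext fun y => by split_ifs <;> simp)

theorem conjTranspose_shiftMat_zero {K R : ℕ} : (shiftMat K R 0)ᴴ = shiftMat K R 0 := by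
  ext x y
  simp only [shiftMat, conjTranspose_apply, of_apply, apply_ite star, star_one, star_zero,
    zero_mul, zero_add]
  exact if_congr ⟨fun h => ⟨by omega, h.2.symm⟩, fun h => ⟨by omega, h.2.symm⟩⟩ rfl rfl

end Vale.Agent.P095.Weak.Zone
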