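import Vale.Agent.P095.Rel.Z.Central
import Vale.Agent.P095.Weak.ZoneMat

/-!
P095 Weak: deep stages split the unit into two central pieces, each covered by `2 J` translates of
a square which has `J` orthogonal copies, almost commuting with given elements.

One step after a unitary flow `u` with `u 0 = 1`, every given element is near
`V t (a ⊗ 1 ⊗ 1) (V t)*`, where `V t` is the step path times the flow. At the left end this copy of
`M_p` lies in `M_(k₀ p) ⊗ 1`, so it leaves a copy of `M_(k₀)` which commutes with it and satisfies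
the left end condition; damped by a weight vanishing at the right end, it lies in the stage. The
right end is the same.
-/

open scoped unitInterval ComplexOrder Kronecker

namespace Vale.Agent.P095.Weak

open Vale.Agent.P101.Lit Vale.Agent.P095.Rel.Z


namespace Zone

theorem norm_le_one_of_proj {R : Type*} [NonUnitalNormedRing R] [StarRing R] [CStarRing R] {x : R}
    (h : star x * x * (star x * x) = star x * x) : ‖x‖ ≤ 1 := by
  have h1 := CStarRing.norm_star_mul_self (x := star x * x)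
  rw [star_mul, star_star, h, CStarRing.norm_star_mul_self] at h1
  rcases (norm_nonneg x).eq_or_lt with h0 | h0
  · rw [← h0]; exact zero_le_one
  · have h2 : ‖x‖ * ‖x‖ = 1 := by
      have := mul_left_cancel₀ (mul_ne_zero h0.ne' h0.ne')
        ((mul_one (‖x‖ * ‖x‖)).trans h1)
      exact this.symm
    nlinarith

variable {p q k₀ k₁ : ℕ}

/-- The step path times a unitary flow. -/
noncomputable def path (u : Amb ℂ p q) :
    C(I, Matrix (Ix (k₀ * p) (k₁ * q)) (Ix p q × Wd p q k₀ k₁) ℂ) :=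
  ⟨fun t => stepPath p q k₀ k₁ t *
      Matrix.blockDiagonal (fun w => CStarMatrix.ofMatrix.symm (u (xi p q k₀ k₁ w t))), by
    refine (stepPath p q k₀ k₁).continuous.matrix_mul (Continuous.matrix_blockDiagonal ?_)
    exact continuous_pi fun w => continuous_pi fun i => continuous_pi fun i' =>
      (continuous_apply_apply i i').comp (u.continuous.comp (xi p q k₀ k₁ w).continuous)⟩

theorem path_unitary (hok : StepOK p q k₀ k₁) {u : Amb ℂ p q}
    (hu : ∀ s, u s ∈ unitary (CStarMatrix (Ix p q) (Ix p q) ℂ)) (t : I) :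
    (path (k₀ := k₀) (k₁ := k₁) u t).conjTranspose * path (k₀ := k₀) (k₁ := k₁) u t = 1 ∧
      path (k₀ := k₀) (k₁ := k₁) u t * (path (k₀ := k₀) (k₁ := k₁) u t).conjTranspose = 1 :=
  mul_blockDiagonal_unitary _ _ ((isStepPath_stepPath hok).1 t).1
    ((isStepPath_stepPath hok).1 t).2 (fun _ => Unitary.star_mul_self_of_mem (hu _))
    fun _ => Unitary.mul_star_self_of_mem (hu _)

theorem kron_one_eq_blockDiagonal {W α : Type*} [DecidableEq W] (F : Matrix α α ℂ) :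
    F ⊗ₖ (1 : Matrix W W ℂ) = Matrix.blockDiagonal fun _ => F := by
  ext x y
  simp [Matrix.blockDiagonal_apply, Matrix.one_apply]

theorem conj_blockDiagonal {N α W : Type*} [Fintype α] [DecidableEq α] [Fintype W] [DecidableEq W]
    (U : Matrix N (α × W) ℂ) (b : W → Matrix α α ℂ) (F : Matrix α α ℂ) :
    U * Matrix.blockDiagonal b * Matrix.blockDiagonal (fun _ : W => F) *
        (U * Matrix.blockDiagonal b).conjTranspose =
      U * Matrix.blockDiagonal (fun w => b w * F * (b w).conjTranspose) * U.conjTranspose := by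
  rw [Matrix.conjTranspose_mul, Matrix.blockDiagonal_conjTranspose, ← Matrix.mul_assoc,
    Matrix.mul_assoc U, ← Matrix.blockDiagonal_mul, Matrix.mul_assoc U, ← Matrix.blockDiagonal_mul]

theorem path_kron (u : Amb ℂ p q) (t : I) (F : Matrix (Ix p q) (Ix p q) ℂ) :
    path (k₀ := k₀) (k₁ := k₁) u t * (F ⊗ₖ (1 : Matrix (Wd p q k₀ k₁) (Wd p q k₀ k₁) ℂ)) *
        (path u t).conjTranspose =
      stepPath p q k₀ k₁ t * Matrix.blockDiagonal (fun w =>
        CStarMatrix.ofMatrix.symm (u (xi p q k₀ k₁ w t) * CStarMatrix.ofMatrix F *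
          star (u (xi p q k₀ k₁ w t)))) * (stepPath p q k₀ k₁ t).conjTranspose := by
  rw [kron_one_eq_blockDiagonal]
  exact conj_blockDiagonal (stepPath p q k₀ k₁ t)
    (fun w => CStarMatrix.ofMatrix.symm (u (xi p q k₀ k₁ w t))) F

/-- After the step, a flow carries the value at `s₀` to the image of every given element. -/
theorem norm_step_sub_le (hok : StepOK p q k₀ k₁) {u f : Amb ℂ p q} {ε : ℝ}
    {F : Matrix (Ix p q) (Ix p q) ℂ}
    (hF : ∀ s, ‖u s * CStarMatrix.ofMatrix F * star (u s) - f s‖ ≤ ε) (t : I) :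
    ‖step k₀ k₁ f t - CStarMatrix.ofMatrix (path (k₀ := k₀) (k₁ := k₁) u t *
      (F ⊗ₖ (1 : Matrix (Wd p q k₀ k₁) (Wd p q k₀ k₁) ℂ)) * (path u t).conjTranspose)‖ ≤ ε := by
  rw [path_kron]
  show ‖step k₀ k₁ f t - sand t (fun w => u (xi p q k₀ k₁ w t) * CStarMatrix.ofMatrix F *
    star (u (xi p q k₀ k₁ w t)))‖ ≤ ε
  rw [step_apply_sand, sand_sub]
  exact norm_sand_le hok t _ ((norm_nonneg _).trans (hF 0)) fun w => by
    rw [norm_sub_rev]; exact hF _

/-- A weight times a constant matrix conjugated along a path. -/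
noncomputable def el (V : C(I, Matrix (Ix (k₀ * p) (k₁ * q)) (Ix p q × Wd p q k₀ k₁) ℂ))
    (c : C(I, ℝ)) : Matrix (Ix p q × Wd p q k₀ k₁) (Ix p q × Wd p q k₀ k₁) ℂ →+
      Amb ℂ (k₀ * p) (k₁ * q) where
  toFun A := ⟨fun t => CStarMatrix.ofMatrix ((c t : ℂ) • (V t * A * (V t).conjTranspose)), by
    refine continuous_pi fun x => continuous_pi fun y => ?_
    show Continuous fun t => (c t : ℂ) * (V t * A * (V t).conjTranspose) x y
    exact (Complex.continuous_ofReal.comp c.continuous).mul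
      (((V.continuous.matrix_mul continuous_const).matrix_mul
        V.continuous.matrix_conjTranspose).matrix_elem x y)⟩
  map_zero' := ContinuousMap.ext fun t => CStarMatrix.ext fun x y => by
    simp
  map_add' A B := ContinuousMap.ext fun t => CStarMatrix.ext fun x y => by
    simp [Matrix.mul_add, Matrix.add_mul]

section El

variable {V : C(I, Matrix (Ix (k₀ * p) (k₁ * q)) (Ix p q × Wd p q k₀ k₁) ℂ)}

theorem el_apply (c : C(I, ℝ)) (A : Matrix (Ix p q × Wd p q k₀ k₁) (Ix p q × Wd p q k₀ k₁) ℂ)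
    (t : I) : el V c A t =
      CStarMatrix.ofMatrix ((c t : ℂ) • (V t * A * (V t).conjTranspose)) := rfl

theorem star_el (c : C(I, ℝ)) (A : Matrix (Ix p q × Wd p q k₀ k₁) (Ix p q × Wd p q k₀ k₁) ℂ) :
    star (el V c A) = el V c A.conjTranspose :=
  ContinuousMap.ext fun t => by
    refine CStarMatrix.ofMatrix.symm.injective ?_
    show ((c t : ℂ) • (V t * A * (V t).conjTranspose)).conjTranspose =
      (c t : ℂ) • (V t * A.conjTranspose * (V t).conjTranspose)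
    rw [Matrix.conjTranspose_smul, Matrix.conjTranspose_mul, Matrix.conjTranspose_mul,
      Matrix.conjTranspose_conjTranspose, Complex.star_def, Complex.conj_ofReal, Matrix.mul_assoc]

variable (hV : ∀ t, (V t).conjTranspose * V t = 1 ∧ V t * (V t).conjTranspose = 1)
include hV

theorem el_mul (c d : C(I, ℝ)) (A B : Matrix (Ix p q × Wd p q k₀ k₁) (Ix p q × Wd p q k₀ k₁) ℂ) :
    el V c A * el V d B = el V (c * d) (A * B) :=
  ContinuousMap.ext fun t => by
    refine CStarMatrix.ofMatrix.symm.injective ?_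
    show ((c t : ℂ) • (V t * A * (V t).conjTranspose)) *
        ((d t : ℂ) • (V t * B * (V t).conjTranspose)) =
      (((c t * d t : ℝ)) : ℂ) • (V t * (A * B) * (V t).conjTranspose)
    rw [smul_mul_smul_comm, Complex.ofReal_mul]
    exact congrArg (fun Z => ((c t : ℂ) * (d t : ℂ)) • Z)
      ((conjHom (V t) (hV t).1 (hV t).2).map_mul' A B).symm

theorem el_one_apply (c : C(I, ℝ)) (t : I) : el V c 1 t = (c t : ℂ) • 1 := by
  refine CStarMatrix.ofMatrix.symm.injective ?_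
  show (c t : ℂ) • (V t * (1 : Matrix (Ix p q × Wd p q k₀ k₁) (Ix p q × Wd p q k₀ k₁) ℂ) *
    (V t).conjTranspose) = (c t : ℂ) • (1 : Matrix (Ix (k₀ * p) (k₁ * q)) (Ix (k₀ * p) (k₁ * q)) ℂ)
  rw [Matrix.mul_one, (hV t).2]

theorem norm_el_apply_le {c : C(I, ℝ)} (hc : ∀ t, |c t| ≤ 1)
    {A : Matrix (Ix p q × Wd p q k₀ k₁) (Ix p q × Wd p q k₀ k₁) ℂ}
    (hA : A.conjTranspose * A * (A.conjTranspose * A) = A.conjTranspose * A) (t : I) :
    ‖el V c A t‖ ≤ 1 := by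
  set X : CStarMatrix (Ix (k₀ * p) (k₁ * q)) (Ix (k₀ * p) (k₁ * q)) ℂ :=
    CStarMatrix.ofMatrix (V t * A * (V t).conjTranspose)
  have hX : ‖X‖ ≤ 1 := norm_le_one_of_proj (by
    refine CStarMatrix.ofMatrix.symm.injective ?_
    set Φ := conjHom (V t) (hV t).1 (hV t).2
    show (Φ A).conjTranspose * Φ A * ((Φ A).conjTranspose * Φ A) = (Φ A).conjTranspose * Φ A
    simp only [← Matrix.star_eq_conjTranspose] at hA ⊢
    rw [← map_star, ← map_mul, ← map_mul, hA])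
  calc ‖el V c A t‖ = ‖(c t : ℂ) • X‖ := rfl
    _ = |c t| * ‖X‖ := by rw [norm_smul, Complex.norm_real, Real.norm_eq_abs]
    _ ≤ 1 := mul_le_one₀ (hc t) (norm_nonneg _) hX

theorem norm_el_le {c : C(I, ℝ)} (hc : ∀ t, |c t| ≤ 1)
    {A : Matrix (Ix p q × Wd p q k₀ k₁) (Ix p q × Wd p q k₀ k₁) ℂ}
    (hA : A.conjTranspose * A * (A.conjTranspose * A) = A.conjTranspose * A) :
    ‖el V c A‖ ≤ 1 :=
  (ContinuousMap.norm_le _ zero_le_one).2 (norm_el_apply_le hV hc hA)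

theorem norm_el_comm_le {c : C(I, ℝ)} (hc : ∀ t, |c t| ≤ 1)
    {A D : Matrix (Ix p q × Wd p q k₀ k₁) (Ix p q × Wd p q k₀ k₁) ℂ}
    (hA : A.conjTranspose * A * (A.conjTranspose * A) = A.conjTranspose * A) (hAD : Commute A D)
    {x : Amb ℂ (k₀ * p) (k₁ * q)} {ε : ℝ}
    (hx : ∀ t, ‖x t - CStarMatrix.ofMatrix (V t * D * (V t).conjTranspose)‖ ≤ ε) :
    ‖el V c A * x - x * el V c A‖ ≤ 2 * ε := by
  have hε : 0 ≤ ε := (norm_nonneg _).trans (hx 0)
  refine (ContinuousMap.norm_le _ (by positivity)).2 fun t => ?_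
  set E := el V c A t
  set M : CStarMatrix (Ix (k₀ * p) (k₁ * q)) (Ix (k₀ * p) (k₁ * q)) ℂ :=
    CStarMatrix.ofMatrix (V t * D * (V t).conjTranspose)
  have hEM : E * M = M * E := by
    refine CStarMatrix.ofMatrix.symm.injective ?_
    set Φ := conjHom (V t) (hV t).1 (hV t).2
    show ((c t : ℂ) • Φ A) * Φ D = Φ D * ((c t : ℂ) • Φ A)
    rw [Matrix.smul_mul, Matrix.mul_smul, ← map_mul, ← map_mul, hAD.eq]
  show ‖E * x t - x t * E‖ ≤ 2 * ε
  rw [show E * x t - x t * E = E * (x t - M) - (x t - M) * E by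
    rw [mul_sub, sub_mul, hEM]; abel]
  have hE := norm_el_apply_le hV hc hA t
  linarith [norm_sub_le (E * (x t - M)) ((x t - M) * E),
    (norm_mul_le E (x t - M)).trans (mul_le_mul hE (hx t) (norm_nonneg _) zero_le_one),
    (norm_mul_le (x t - M) E).trans (mul_le_mul (hx t) hE (norm_nonneg _) hε)]

omit hV in
theorem el_mem_left {K : ℕ} {c : C(I, ℝ)} (hc : c 1 = 0)
    {E : Matrix (Fin K) (Fin K) ℂ →⋆ₐ[ℂ]
      Matrix (Ix p q × Wd p q k₀ k₁) (Ix p q × Wd p q k₀ k₁) ℂ}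
    (hE : ∀ y, ∃ A, V 0 * E y * (V 0).conjTranspose =
      reindexHom (Equiv.refl _) (kronL (Fin (k₁ * q)) A)) (y : Matrix (Fin K) (Fin K) ℂ) :
    el V c (E y) ∈ St ℂ (k₀ * p) (k₁ * q) := by
  obtain ⟨A, hA⟩ := hE y
  refine ⟨⟨fun i i' => (c 0 : ℂ) * A i i', fun x z => ?_⟩, ⟨fun _ _ => 0, fun x z => ?_⟩⟩
  · show ((c 0 : ℂ) • (V 0 * E y * (V 0).conjTranspose)) x z = _
    rw [hA]
    simp [Matrix.one_apply]
  · show ((c 1 : ℂ) • (V 1 * E y * (V 1).conjTranspose)) x z = _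
    simp [hc]

omit hV in
theorem el_mem_right {K : ℕ} {c : C(I, ℝ)} (hc : c 0 = 0)
    {E : Matrix (Fin K) (Fin K) ℂ →⋆ₐ[ℂ]
      Matrix (Ix p q × Wd p q k₀ k₁) (Ix p q × Wd p q k₀ k₁) ℂ}
    (hE : ∀ y, ∃ A, V 1 * E y * (V 1).conjTranspose =
      reindexHom (Equiv.prodComm _ _) (kronL (Fin (k₀ * p)) A))
    (y : Matrix (Fin K) (Fin K) ℂ) :
    el V c (E y) ∈ St ℂ (k₀ * p) (k₁ * q) := by
  obtain ⟨A, hA⟩ := hE y
  refine ⟨⟨fun _ _ => 0, fun x z => ?_⟩, ⟨fun i i' => (c 1 : ℂ) * A i i', fun x z => ?_⟩⟩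
  · show ((c 0 : ℂ) • (V 0 * E y * (V 0).conjTranspose)) x z = _
    simp [hc]
  · show ((c 1 : ℂ) • (V 1 * E y * (V 1).conjTranspose)) x z = _
    rw [hA]
    simp [Matrix.one_apply]

/-- One side: the scalar weight `c` is covered by translates of a square with `J` copies. -/
theorem exists_side {K J a : ℕ} (hJ : 0 < J) (hJK : J ≤ K) {c : C(I, ℝ)}
    (hc0 : ∀ t, 0 ≤ c t) (hc1 : ∀ t, c t ≤ 1) {τ : I} (hcτ : c τ = 0)
    (emb : Matrix (Fin a) (Fin a) ℂ →⋆ₐ[ℂ]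
      Matrix (Ix p q × Wd p q k₀ k₁) (Ix p q × Wd p q k₀ k₁) ℂ)
    (E : Matrix (Fin K) (Fin K) ℂ →⋆ₐ[ℂ]
      Matrix (Ix p q × Wd p q k₀ k₁) (Ix p q × Wd p q k₀ k₁) ℂ)
    (hEc : ∀ x y, Commute (E y) (emb x))
    (hmem : ∀ (d : C(I, ℝ)), d τ = 0 → ∀ y, el V d (E y) ∈ St ℂ (k₀ * p) (k₁ * q))
    (X : Set (Amb ℂ (k₀ * p) (k₁ * q))) {ε : ℝ}
    (hX : ∀ x ∈ X, ∃ b, ∀ t,
      ‖x t - CStarMatrix.ofMatrix (V t * emb b * (V t).conjTranspose)‖ ≤ ε) :
    ∃ (ψ g : St ℂ (k₀ * p) (k₁ * q)) (t : Fin J → St ℂ (k₀ * p) (k₁ * q))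
      (z : Fin (2 * J) → St ℂ (k₀ * p) (k₁ * q)),
      (∀ s, (ψ : Amb ℂ (k₀ * p) (k₁ * q)) s = (c s : ℂ) • 1) ∧ ‖ψ‖ ≤ 1 ∧ ‖g‖ ≤ 1 ∧
      (∀ j, ‖t j‖ ≤ 1) ∧ (∀ i, ‖z i‖ ≤ 1) ∧
      (∀ j j', star (t j) * t j' = if j = j' then star g * g else 0) ∧
      ∑ i, star (g * z i) * (g * z i) = ψ ∧
      ∀ x ∈ X, ‖(g : Amb ℂ (k₀ * p) (k₁ * q)) * x - x * g‖ ≤ 2 * ε ∧
        (∀ j, ‖(t j : Amb ℂ (k₀ * p) (k₁ * q)) * x - x * t j‖ ≤ 2 * ε) ∧
        ∀ i, ‖(z i : Amb ℂ (k₀ * p) (k₁ * q)) * x - x * z i‖ ≤ 2 * ε := by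
  classical
  set R := K / J
  have hR : 0 < R := Nat.div_pos hJK hJ
  have hK : K ≤ 2 * J * R := by
    have h0 := Nat.div_add_mod K J
    rw [show K / J = R from rfl] at h0
    have := Nat.mod_lt K hJ
    have : J ≤ J * R := Nat.le_mul_of_pos_right J hR
    rw [mul_assoc]; omega
  have hchunk : ∀ j : Fin J, (j.1 + 1) * R ≤ K := fun j =>
    (Nat.mul_le_mul_right R j.2).trans (Nat.mul_div_le K J)
  set r : C(I, ℝ) := ⟨fun t => Real.sqrt (Real.sqrt (c t)), c.continuous.sqrt.sqrt⟩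
  have hr : ∀ t, |r t| ≤ 1 := fun t => by
    show |Real.sqrt (Real.sqrt (c t))| ≤ 1
    rw [abs_of_nonneg (Real.sqrt_nonneg _), Real.sqrt_le_one, Real.sqrt_le_one]
    exact hc1 t
  have hrτ : r τ = 0 := by simp [r, hcτ]
  have hrrrr : r * r * (r * r) = c := ContinuousMap.ext fun t => by
    show Real.sqrt (Real.sqrt (c t)) * Real.sqrt (Real.sqrt (c t)) *
      (Real.sqrt (Real.sqrt (c t)) * Real.sqrt (Real.sqrt (c t))) = c t
    rw [Real.mul_self_sqrt (Real.sqrt_nonneg _), Real.mul_self_sqrt (hc0 t)]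
  let S : ℕ → Matrix (Ix p q × Wd p q k₀ k₁) (Ix p q × Wd p q k₀ k₁) ℂ := fun i =>
    E (shiftMat K R i)
  have hstarE : ∀ y, (E y).conjTranspose = E y.conjTranspose := fun y => (map_star E y).symm
  have h0p : ∀ i, (S i).conjTranspose * S i * ((S i).conjTranspose * S i) =
      (S i).conjTranspose * S i := fun i => by
    simp only [S, hstarE, ← map_mul, conjTranspose_mul_shiftMat_sq]
  have hjp : ∀ j : Fin J, (S j).conjTranspose.conjTranspose * (S j).conjTranspose *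
      ((S j).conjTranspose.conjTranspose * (S j).conjTranspose) =
      (S j).conjTranspose.conjTranspose * (S j).conjTranspose := fun j => by
    simp only [S, Matrix.conjTranspose_conjTranspose, hstarE, ← map_mul,
      shiftMat_mul_conjTranspose hR (hchunk j), if_true, shiftMat_zero_mul]
  have hone : el V c (E 1) ∈ St ℂ (k₀ * p) (k₁ * q) := hmem c hcτ 1
  have hmemS : ∀ i, el V r (S i) ∈ St ℂ (k₀ * p) (k₁ * q) := fun i => hmem r hrτ _
  let ψ : St ℂ (k₀ * p) (k₁ * q) := ⟨el V c (E 1), hone⟩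
  let g : St ℂ (k₀ * p) (k₁ * q) := ⟨el V r (S 0), hmemS 0⟩
  let t : Fin J → St ℂ (k₀ * p) (k₁ * q) := fun j =>
    ⟨el V r (S j).conjTranspose, by simp only [S, hstarE]; exact hmem r hrτ _⟩
  let z : Fin (2 * J) → St ℂ (k₀ * p) (k₁ * q) := fun i => ⟨el V r (S i), hmemS i⟩
  have hg : star (g : Amb ℂ (k₀ * p) (k₁ * q)) * g = el V (r * r) (S 0) := by
    simp only [g, star_el, el_mul hV, S, hstarE, ← map_mul, conjTranspose_shiftMat_zero,
      shiftMat_zero_mul]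
  refine ⟨ψ, g, t, z, fun s => ?_, ?_, norm_el_le hV hr (h0p 0),
    fun j => norm_el_le hV hr (hjp j), fun i => norm_el_le hV hr (h0p i), fun j j' => ?_, ?_,
    fun x hx => ?_⟩
  · show el V c (E 1) s = _
    rw [map_one, el_one_apply hV]
  · refine norm_el_le hV (fun s => by rw [abs_of_nonneg (hc0 s)]; exact hc1 s) ?_
    simp only [hstarE, ← map_mul, Matrix.conjTranspose_one, mul_one]
  · refine Subtype.ext ?_
    show star (t j : Amb ℂ (k₀ * p) (k₁ * q)) * (t j' : Amb ℂ (k₀ * p) (k₁ * q)) = _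
    simp only [t, star_el, el_mul hV, S, Matrix.conjTranspose_conjTranspose, hstarE, ← map_mul,
      shiftMat_mul_conjTranspose hR (hchunk j)]
    by_cases h : j = j'
    · subst h
      rw [if_pos rfl, if_pos rfl]
      exact hg.symm
    · rw [if_neg h, if_neg fun e => h (Fin.ext e), map_zero, map_zero]
      rfl
  · refine Subtype.ext ?_
    have e : ∀ i : Fin (2 * J), ((star (g * z i) * (g * z i) : St ℂ (k₀ * p) (k₁ * q)) :
        Amb ℂ (k₀ * p) (k₁ * q)) = el V c ((S i).conjTranspose * S i) := fun i => by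
      show star (el V r (S 0) * el V r (S i)) * (el V r (S 0) * el V r (S i)) = _
      rw [el_mul hV, star_el, el_mul hV, hrrrr]
      simp only [S, ← map_mul, hstarE, shiftMat_zero_mul]
    rw [AddSubmonoidClass.coe_finsetSum, Finset.sum_congr rfl fun i _ => e i, ← map_sum]
    simp only [S, hstarE, ← map_mul]
    show el V c _ = el V c (E 1)
    rw [← map_sum E, sum_conjTranspose_mul_shiftMat hR hK]
  · obtain ⟨b, hb⟩ := hX x hx
    refine ⟨norm_el_comm_le hV hr (h0p 0) (hEc b _) hb, fun j => ?_,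
      fun i => norm_el_comm_le hV hr (h0p i) (hEc b _) hb⟩
    refine norm_el_comm_le hV hr (hjp j) ?_ hb
    simp only [S, hstarE]
    exact hEc b _

end El

/-- The two sides after one step. -/
theorem exists_step_sides (hok : StepOK p q k₀ k₁) {J : ℕ} (hJ : 0 < J) (hJl : J ≤ k₀)
    (hJr : J ≤ k₁) {u : Amb ℂ p q} (hu0 : u 0 = 1)
    (huu : ∀ s, u s ∈ unitary (CStarMatrix (Ix p q) (Ix p q) ℂ)) (F₀ : Set (St ℂ p q)) {ε : ℝ}
    (hε : 0 ≤ ε)
    (hflow : ∀ f ∈ F₀, ∀ t, ‖u t * (f : Amb ℂ p q) 0 * star (u t) - (f : Amb ℂ p q) t‖ ≤ ε / 4) :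
    ∃ (ψ g : Bool → St ℂ (k₀ * p) (k₁ * q)) (t : Bool → Fin J → St ℂ (k₀ * p) (k₁ * q))
      (z : Bool → Fin (2 * J) → St ℂ (k₀ * p) (k₁ * q)),
      ψ true + ψ false = 1 ∧ ∀ s, (∀ x, Commute (ψ s) x) ∧ ‖ψ s‖ ≤ 1 ∧ ‖g s‖ ≤ 1 ∧
        (∀ j, ‖t s j‖ ≤ 1) ∧ (∀ a, ‖z s a‖ ≤ 1) ∧
        (∀ j j', star (t s j) * t s j' = if j = j' then star (g s) * g s else 0) ∧
        ∑ a, star (g s * z s a) * (g s * z s a) = ψ s ∧
        ∀ f ∈ F₀,
          ‖(g s : Amb ℂ (k₀ * p) (k₁ * q)) * step k₀ k₁ (f : Amb ℂ p q) -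
            step k₀ k₁ (f : Amb ℂ p q) * g s‖ ≤ ε ∧
          (∀ j, ‖(t s j : Amb ℂ (k₀ * p) (k₁ * q)) * step k₀ k₁ (f : Amb ℂ p q) -
            step k₀ k₁ (f : Amb ℂ p q) * t s j‖ ≤ ε) ∧
          ∀ a, ‖(z s a : Amb ℂ (k₀ * p) (k₁ * q)) * step k₀ k₁ (f : Amb ℂ p q) -
            step k₀ k₁ (f : Amb ℂ p q) * z s a‖ ≤ ε := by
  classical
  obtain ⟨hp, hq, -⟩ := id hok
  obtain ⟨-, hleft, hright⟩ := isStepPath_stepPath hok
  set mid : I := ⟨1 / 2, by constructor <;> norm_num⟩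
  -- the right flow
  set u' : Amb ℂ p q := ⟨fun s => u s * star (u 1),
    u.continuous.mul continuous_const⟩
  have huu' : ∀ s, u' s ∈ unitary (CStarMatrix (Ix p q) (Ix p q) ℂ) :=
    fun s => mul_mem (huu s) (Unitary.star_mem (huu 1))
  have hu'1 : u' 1 = 1 := Unitary.mul_star_self_of_mem (huu 1)
  -- the two embeddings and their commutants
  set W := Wd p q k₀ k₁
  let embL := (kronL W).comp (kronL (m := Fin p) (Fin q))
  let embR := (kronL W).comp (kronR (o := Fin q) (Fin p))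
  have hV : ∀ t, _ := path_unitary hok huu
  have hV' : ∀ t, _ := path_unitary hok huu'
  have hNL : Nonempty (Fin (k₁ * q)) :=
    ⟨⟨0, Nat.mul_pos (lt_of_lt_of_le hJ hJr) hq⟩⟩
  have hNR : Nonempty (Fin (k₀ * p)) :=
    ⟨⟨0, Nat.mul_pos (lt_of_lt_of_le hJ hJl) hp⟩⟩
  obtain ⟨EL, hELc, hELm⟩ := exists_commutant_hom (n := Fin (k₀ * p)) (K := k₀) hp
    (Fintype.card_fin _) (Equiv.refl (Ix (k₀ * p) (k₁ * q))) embL
    (path (k₀ := k₀) (k₁ := k₁) u 0) (hV 0).1 (hV 0).2 (fun x => by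
      have hx : IsLeftEnd p q fun a b => (x ⊗ₖ (1 : Matrix (Fin q) (Fin q) ℂ)) a b :=
        ⟨fun a b => x a b, fun a b => by simp [Matrix.one_apply]⟩
      obtain ⟨A, hA⟩ := hleft _ (fun a b => ((u mid * CStarMatrix.ofMatrix (x ⊗ₖ (1 : Matrix (Fin q) (Fin q) ℂ)) *
        star (u mid) : CStarMatrix (Ix p q) (Ix p q) ℂ)) a b) hx
      refine ⟨Matrix.of A, Matrix.ext fun a b => ?_⟩
      show (path (k₀ := k₀) (k₁ := k₁) u 0 * ((x ⊗ₖ (1 : Matrix (Fin q) (Fin q) ℂ)) ⊗ₖ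
        (1 : Matrix W W ℂ)) * (path (k₀ := k₀) (k₁ := k₁) u 0).conjTranspose) a b = _
      refine (congrFun (congrFun (path_kron _ _ _) a) b).trans ?_
      refine (stepVal_eq_sandwich _ _ a b).symm.trans ?_
      refine Eq.trans (congrArg (fun F => stepVal _ F a b) ?_) ((hA a b).trans ?_)
      · funext w i i'
        rcases w with w | w
        · rw [xi_zero_of_inl, hu0, star_one, mul_one, one_mul]; rfl
        · rw [xi_zero_of_inr]; rfl
      · simp [Matrix.one_apply])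
  obtain ⟨ER, hERc, hERm⟩ := exists_commutant_hom (n := Fin (k₁ * q)) (K := k₁) hq
    (Fintype.card_fin _) (Equiv.prodComm (Fin (k₀ * p)) (Fin (k₁ * q))) embR
    (path (k₀ := k₀) (k₁ := k₁) u' 1) (hV' 1).1 (hV' 1).2 (fun x => by
      have hx : IsRightEnd p q fun a b =>
          ((1 : Matrix (Fin p) (Fin p) ℂ) ⊗ₖ x) a b :=
        ⟨fun a b => x a b, fun a b => by simp [Matrix.one_apply]⟩
      obtain ⟨A, hA⟩ := hright (fun a b => (u' mid *
        CStarMatrix.ofMatrix ((1 : Matrix (Fin p) (Fin p) ℂ) ⊗ₖ x) *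
        star (u' mid)) a b) _ hx
      refine ⟨Matrix.of A, Matrix.ext fun a b => ?_⟩
      show (path (k₀ := k₀) (k₁ := k₁) u' 1 * (((1 : Matrix (Fin p) (Fin p) ℂ) ⊗ₖ x) ⊗ₖ
        (1 : Matrix W W ℂ)) * (path (k₀ := k₀) (k₁ := k₁) u' 1).conjTranspose) a b = _
      refine (congrFun (congrFun (path_kron _ _ _) a) b).trans ?_
      refine (stepVal_eq_sandwich _ _ a b).symm.trans ?_
      refine Eq.trans (congrArg (fun F => stepVal _ F a b) ?_) ((hA a b).trans ?_)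
      · funext w i i'
        rcases w with w | w | w
        · rw [xi_one_of_inl]; rfl
        · rw [xi_one_of_mid]; rfl
        · rw [xi_one_of_inr, hu'1, star_one, mul_one, one_mul]; rfl
      · simp [Matrix.one_apply])
  set X : Set (Amb ℂ (k₀ * p) (k₁ * q)) :=
    (fun f : St ℂ p q => step k₀ k₁ (f : Amb ℂ p q)) '' F₀
  have hXL : ∀ x ∈ X, ∃ b, ∀ t, ‖x t - CStarMatrix.ofMatrix
      (path (k₀ := k₀) (k₁ := k₁) u t * embL b * (path u t).conjTranspose)‖ ≤ ε / 2 := by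
    rintro _ ⟨f, hfF, rfl⟩
    obtain ⟨a, ha⟩ := f.2.1
    refine ⟨Matrix.of a, fun t => (norm_step_sub_le hok (ε := ε / 2)
      (F := Matrix.of a ⊗ₖ (1 : Matrix (Fin q) (Fin q) ℂ)) (fun s => ?_) t)⟩
    have e : CStarMatrix.ofMatrix (Matrix.of a ⊗ₖ (1 : Matrix (Fin q) (Fin q) ℂ)) =
        (f : Amb ℂ p q) 0 :=
      CStarMatrix.ext fun y z => ((ha y z).trans (by simp [Matrix.one_apply])).symm
    rw [e]
    exact (hflow f hfF s).trans (by linarith)
  have hXR : ∀ x ∈ X, ∃ b, ∀ t, ‖x t - CStarMatrix.ofMatrix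
      (path (k₀ := k₀) (k₁ := k₁) u' t * embR b * (path u' t).conjTranspose)‖ ≤ ε / 2 := by
    rintro _ ⟨f, hfF, rfl⟩
    obtain ⟨b, hb⟩ := f.2.2
    refine ⟨Matrix.of b, fun t => (norm_step_sub_le hok (ε := ε / 2)
      (F := (1 : Matrix (Fin p) (Fin p) ℂ) ⊗ₖ Matrix.of b) (fun s => ?_) t)⟩
    have e : CStarMatrix.ofMatrix ((1 : Matrix (Fin p) (Fin p) ℂ) ⊗ₖ Matrix.of b) =
        (f : Amb ℂ p q) 1 :=
      CStarMatrix.ext fun y z => ((hb y z).trans (by simp [Matrix.one_apply])).symm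
    rw [e]
    have hf := hflow f hfF
    set F : I → CStarMatrix (Ix p q) (Ix p q) ℂ := fun s =>
      (f : Amb ℂ p q) s
    have e2 : u' s * F 1 * star (u' s) - F s =
        u s * (star (u 1) * (F 1 - u 1 * F 0 * star (u 1)) * u 1) * star (u s) +
          (u s * F 0 * star (u s) - F s) := by
      have e3 : star (u 1) * (u 1 * F 0 * star (u 1)) * u 1 = F 0 := by
        simp only [← mul_assoc, Unitary.star_mul_self_of_mem (huu 1), one_mul]
        rw [mul_assoc, Unitary.star_mul_self_of_mem (huu 1), mul_one]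
      show u s * star (u 1) * F 1 * star (u s * star (u 1)) - F s = _
      rw [star_mul, star_star, mul_sub, sub_mul, e3, mul_sub, sub_mul]
      simp only [mul_assoc]; abel
    show ‖u' s * F 1 * star (u' s) - F s‖ ≤ ε / 2
    rw [e2]
    refine (norm_add_le _ _).trans ?_
    rw [CStarRing.norm_mul_mem_unitary _ (Unitary.star_mem (huu s)),
      CStarRing.norm_mem_unitary_mul _ (huu s), CStarRing.norm_mul_mem_unitary _ (huu 1),
      CStarRing.norm_mem_unitary_mul _ (Unitary.star_mem (huu 1)), norm_sub_rev]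
    linarith [hf 1, hf s]
  -- the two sides
  set cL : C(I, ℝ) := ⟨fun t => 1 - (t : ℝ), by fun_prop⟩
  set cR : C(I, ℝ) := ⟨fun t => (t : ℝ), by fun_prop⟩
  obtain ⟨ψL, gL, tL, zL, hψL, hψL1, hgL, htL, hzL, hrelL, hsumL, hcL⟩ :=
    exists_side hV hJ hJl (c := cL) (fun t => sub_nonneg.2 t.2.2)
      (fun t => sub_le_self _ t.2.1) (τ := 1) (by simp [cL]) embL EL hELc
      (fun d hd => el_mem_left hd hELm) X hXL
  obtain ⟨ψR, gR, tR, zR, hψR, hψR1, hgR, htR, hzR, hrelR, hsumR, hcR⟩ :=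
    exists_side hV' hJ hJr (c := cR) (fun t => t.2.1)
      (fun t => t.2.2) (τ := 0) (by simp [cR]) embR ER hERc
      (fun d hd => el_mem_right hd hERm) X hXR
  refine ⟨fun s => bif s then ψL else ψR, fun s => bif s then gL else gR,
    fun s => bif s then tL else tR, fun s => bif s then zL else zR, ?_, fun s => ?_⟩
  · refine Subtype.ext (ContinuousMap.ext fun t => ?_)
    show (ψL : Amb ℂ (k₀ * p) (k₁ * q)) t + (ψR : Amb ℂ (k₀ * p) (k₁ * q)) t = 1
    rw [hψL, hψR, ← add_smul]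
    show (((1 - (t : ℝ) : ℝ) : ℂ) + ((t : ℝ) : ℂ)) • (1 : CStarMatrix _ _ ℂ) = 1
    rw [← Complex.ofReal_add, sub_add_cancel, Complex.ofReal_one, one_smul]
  have e : 2 * (ε / 2) = ε := by ring
  cases s
  · refine ⟨fun y => Subtype.ext (ContinuousMap.ext fun t => ?_), hψR1, hgR, htR, hzR, hrelR,
      hsumR, fun f hf => ?_⟩
    · show (ψR : Amb ℂ (k₀ * p) (k₁ * q)) t * (y : Amb ℂ _ _) t =
        (y : Amb ℂ _ _) t * (ψR : Amb ℂ (k₀ * p) (k₁ * q)) t
      rw [hψR, smul_mul_assoc, one_mul, mul_smul_comm, mul_one]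
    · obtain ⟨h1, h2, h3⟩ := hcR _ ⟨f, hf, rfl⟩
      rw [e] at h1 h2 h3
      exact ⟨h1, h2, h3⟩
  · refine ⟨fun y => Subtype.ext (ContinuousMap.ext fun t => ?_), hψL1, hgL, htL, hzL, hrelL,
      hsumL, fun f hf => ?_⟩
    · show (ψL : Amb ℂ (k₀ * p) (k₁ * q)) t * (y : Amb ℂ _ _) t =
        (y : Amb ℂ _ _) t * (ψL : Amb ℂ (k₀ * p) (k₁ * q)) t
      rw [hψL, smul_mul_assoc, one_mul, mul_smul_comm, mul_one]
    · obtain ⟨h1, h2, h3⟩ := hcL _ ⟨f, hf, rfl⟩
      rw [e] at h1 h2 h3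
      exact ⟨h1, h2, h3⟩

end Zone

open Zone

set_option maxHeartbeats 1000000 in
-- the instances of the stages are expensive to unify
theorem exists_zone (i : ℕ) (G : Finset (St ℂ (pp i) (qq i))) {ε : ℝ} (hε : 0 < ε) {J : ℕ}
    (hJ : 0 < J) :
    ∃ m, ∃ hm : i ≤ m, ∃ (ψ g : Bool → St ℂ (pp m) (qq m))
      (t : Bool → Fin J → St ℂ (pp m) (qq m)) (z : Bool → Fin (2 * J) → St ℂ (pp m) (qq m)),
      ψ true + ψ false = 1 ∧ ∀ s, (∀ x, Commute (ψ s) x) ∧ ‖ψ s‖ ≤ 1 ∧ ‖g s‖ ≤ 1 ∧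
        (∀ j, ‖t s j‖ ≤ 1) ∧ (∀ a, ‖z s a‖ ≤ 1) ∧
        (∀ j j', star (t s j) * t s j' = if j = j' then star (g s) * g s else 0) ∧
        ∑ a, star (g s * z s a) * (g s * z s a) = ψ s ∧
        ∀ x ∈ G, ‖g s * conn hm x - conn hm x * g s‖ ≤ ε ∧
          (∀ j, ‖t s j * conn hm x - conn hm x * t s j‖ ≤ ε) ∧
          ∀ a, ‖z s a * conn hm x - conn hm x * z s a‖ ≤ ε := by
  classical
  obtain ⟨n, -, u, hu0, huu, hflow⟩ :=
    exists_flow (i + J) (G.image (push ℂ i J)) (show 0 < ε / 4 by positivity)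
  have hJl : J ≤ kl (i + J + n) := by
    have h1 := (le_expo (i + J + n)).2
    have h2 := Nat.lt_two_pow_self (n := 2 * (expo (i + J + n)).2 + 1)
    simp only [kl]; omega
  have hJr : J ≤ kr (i + J + n) := by
    have h1 := (le_expo (i + J + n)).1
    have h2 := Nat.lt_pow_self (n := (expo (i + J + n)).1) (show 1 < 3 by norm_num)
    simp only [kr]; omega
  obtain ⟨ψ, g, t, z, hsum, h⟩ := exists_step_sides (stepOK_pp (i + J + n)) hJ hJl hJr hu0 huu
    (push ℂ (i + J) n '' ↑(G.image (push ℂ i J))) hε.le hflow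
  refine ⟨i + J + n + 1, by omega, ψ, g, t, z, hsum, fun s => ?_⟩
  obtain ⟨h1, h2, h3, h4, h5, h6, h7, h8⟩ := h s
  refine ⟨h1, h2, h3, h4, h5, h6, h7, fun x hx => ?_⟩
  obtain ⟨c1, c2, c3⟩ := h8 _ ⟨_, Finset.mem_image_of_mem _ hx, rfl⟩
  rw [conn_succ (show i ≤ i + J + n by omega), ← conn_conn (show i ≤ i + J by omega)
    (show i + J ≤ i + J + n by omega), conn_push i J, conn_push (i + J) n]
  exact ⟨c1, c2, c3⟩

end Vale.Agent.P095.Weak
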